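import Vale.Agent.P032.H532.TTab

/-!
# Tile windows: closures 6 .. 62
-/

set_option maxRecDepth 20000

namespace Vale.Agent.P032.H532.T

/-- windows 0:1 1:2 3:0 3:2 5:1 0:0 -/
def E6 : Es :=
  (.cons 0 22491329 (.cons c68 68 89 y68 z68 (.cons c10 10 2 y10 z10 (.cons c11 11 1796 y11 z11 (.cons c69 69 89 y69 z69 (.cons c20 20 89 y20 z20 (.cons c21 21 32 y21 z21 (.cons c24 24 89 y24 z24 (.cons c70 70 128 y70 z70 (.cons c71 71 1796 y71 z71 (.cons c72 72 1796 y72 z72 (.cons c35 35 1796 y35 z35 .nil))))))))))) (.cons 2 22491232 .nil (.cons 4 22488225 (.cons c68 68 89 y68 z68 (.cons c10 10 2 y10 z10 (.cons c11 11 1796 y11 z11 (.cons c69 69 89 y69 z69 (.cons c20 20 89 y20 z20 (.cons c21 21 32 y21 z21 (.cons c24 24 89 y24 z24 (.cons c70 70 128 y70 z70 (.cons c71 71 1796 y71 z71 (.cons c72 72 1796 y72 z72 (.cons c35 35 1796 y35 z35 .nil))))))))))) (.cons 6 22488128 .nil (.cons 12 22388897 .nil (.cons 14 22388800 .nil (.cons 16 19312833 (.cons c79 79 0 y79 z79 (.cons c103 103 0 y103 z103 (.cons c80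 80 0 y80 z80 (.cons c74 74 0 y74 z74 (.cons c101 101 0 y101 z101 (.cons c75 75 0 y75 z75 (.cons c81 81 0 y81 z81 (.cons c104 104 0 y104 z104 (.cons c82 82 0 y82 z82 (.cons c86 86 0 y86 z86 (.cons c105 105 0 y105 z105 (.cons c87 87 0 y87 z87 (.cons c88 88 0 y88 z88 (.cons c89 89 0 y89 z89 (.cons c106 106 0 y106 z106 (.cons c107 107 0 y107 z107 (.cons c90 90 0 y90 z90 (.cons c91 91 0 y91 z91 (.cons c68 68 89 y68 z68 (.cons c93 93 0 y93 z93 (.cons c10 10 2 y10 z10 (.cons c77 77 0 y77 z77 (.cons c108 108 0 y108 z108 (.cons c102 102 0 y102 z102 (.cons c69 69 89 y69 z69 (.cons c95 95 0 y95 z95 (.cons c109 109 0 y109 z109 (.cons c70 70 128 y70 z70 (.cons c97 97 0 y97 z97 (.cons c71 71 1796 y71 z71 (.cons c72 72 1796 y72 z72 (.cons c99 99 0 y99 z99 (.cons c100 100 0 y100 z100 (.cons c110 110 0 y110 z110 (.cons c111 111 0 y111 z111 (.cons c112 112 0 y112 z112 .nil)))))))))))))))))))))))))))))))))))) (.cons 18 19312736 .nil (.cons 20 19309729 (.cons c68 68 89 y68 z68 (.cons c10 10 2 y10 z10 (.cons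 c69 69 89 y69 z69 (.cons c70 70 128 y70 z70 (.cons c71 71 1796 y71 z71 (.cons c72 72 1796 y72 z72 .nil)))))) (.cons 22 19309632 .nil (.cons 28 19210401 .nil (.cons 30 19210304 .nil (.cons 32 726085825 (.cons c10 10 2 y10 z10 (.cons c11 11 1796 y11 z11 (.cons c51 51 1796 y51 z51 (.cons c20 20 89 y20 z20 (.cons c21 21 32 y21 z21 (.cons c55 55 89 y55 z55 .nil)))))) (.cons 33 692531414 .nil (.cons 34 726085728 .nil (.cons 35 692531317 .nil (.cons 36 726082721 (.cons c10 10 2 y10 z10 (.cons c11 11 1796 y11 z11 (.cons c51 51 1796 y51 z51 (.cons c20 20 89 y20 z20 (.cons c21 21 32 y21 z21 (.cons c55 55 89 y55 z55 .nil)))))) (.cons 37 692528310 .nil (.cons 38 726082624 .nil (.cons 39 692528213 .nil (.cons 44 725983393 .nil (.cons 45 692428982 .nil (.cons 46 725983296 .nil (.cons 47 692428885 .nil (.cons 48 722907329 (.cons c74 74 0 y74 z74 (.cons c101 101 0 y101 z101 (.cons c75 75 0 y75 z75 (.cons c10 10 2 y10 z10 (.cons c77 77 0 y77 z77 (.cons c102 102 0 y102 z102 .nil)))))) (.cons 49 689352918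 .nil (.cons 50 722907232 .nil (.cons 51 689352821 .nil (.cons 52 722904225 (.cons c10 10 2 y10 z10 (.cons c120 120 0 y120 z120 (.cons c121 121 91 y121 z121 (.cons c122 122 0 y122 z122 .nil)))) (.cons 53 689349814 (.cons c122 122 0 y122 z122 (.cons c123 123 0 y123 z123 (.cons c124 124 0 y124 z124 (.cons c125 125 0 y125 z125 (.cons c126 126 0 y126 z126 (.cons c127 127 0 y127 z127 .nil)))))) (.cons 54 722904128 (.cons c128 128 0 y128 z128 (.cons c129 129 0 y129 z129 (.cons c130 130 0 y130 z130 (.cons c131 131 0 y131 z131 (.cons c132 132 0 y132 z132 (.cons c122 122 0 y122 z122 .nil)))))) (.cons 55 689349717 (.cons c130 130 0 y130 z130 (.cons c131 131 0 y131 z131 (.cons c132 132 0 y132 z132 (.cons c122 122 0 y122 z122 (.cons c133 133 0 y133 z133 (.cons c123 123 0 y123 z123 (.cons c124 124 0 y124 z124 (.cons c134 134 0 y134 z134 (.cons c125 125 0 y125 z125 (.cons c126 126 0 y126 z126 (.cons c127 127 0 y127 z127 .nil))))))))))) (.cons 60 722804897 (.cons c122 122 0 y122 z122 (.cons c142 142 0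 y142 z142 (.cons c143 143 0 y143 z143 (.cons c144 144 0 y144 z144 (.cons c145 145 0 y145 z145 (.cons c146 146 0 y146 z146 .nil)))))) (.cons 61 689250486 (.cons c122 122 0 y122 z122 (.cons c123 123 0 y123 z123 (.cons c124 124 0 y124 z124 (.cons c142 142 0 y142 z142 (.cons c143 143 0 y143 z143 (.cons c147 147 0 y147 z147 (.cons c148 148 0 y148 z148 (.cons c149 149 0 y149 z149 (.cons c150 150 0 y150 z150 (.cons c144 144 0 y144 z144 (.cons c151 151 2015 y151 z151 (.cons c152 152 2015 y152 z152 (.cons c145 145 0 y145 z145 (.cons c153 153 2015 y153 z153 (.cons c154 154 2015 y154 z154 (.cons c146 146 0 y146 z146 (.cons c155 155 0 y155 z155 (.cons c156 156 0 y156 z156 (.cons c125 125 0 y125 z125 (.cons c126 126 0 y126 z126 (.cons c157 157 0 y157 z157 (.cons c158 158 0 y158 z158 (.cons c159 159 0 y159 z159 (.cons c160 160 0 y160 z160 (.cons c127 127 0 y127 z127 (.cons c161 161 0 y161 z161 (.cons c162 162 0 y162 z162 (.cons c163 163 32 y163 z163 (.cons c164 164 0 y164 z164 (.cons c165 165 32 y165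 z165 (.cons c166 166 0 y166 z166 (.cons c167 167 0 y167 z167 (.cons c168 168 0 y168 z168 (.cons c169 169 32 y169 z169 (.cons c170 170 32 y170 z170 (.cons c171 171 0 y171 z171 .nil)))))))))))))))))))))))))))))))))))) (.cons 62 722804800 (.cons c128 128 0 y128 z128 (.cons c129 129 0 y129 z129 (.cons c130 130 0 y130 z130 (.cons c131 131 0 y131 z131 (.cons c132 132 0 y132 z132 (.cons c122 122 0 y122 z122 .nil)))))) (.cons 63 689250389 (.cons c130 130 0 y130 z130 (.cons c131 131 0 y131 z131 (.cons c132 132 0 y132 z132 (.cons c122 122 0 y122 z122 (.cons c133 133 0 y133 z133 (.cons c123 123 0 y123 z123 (.cons c124 124 0 y124 z124 (.cons c134 134 0 y134 z134 (.cons c125 125 0 y125 z125 (.cons c126 126 0 y126 z126 (.cons c127 127 0 y127 z127 .nil))))))))))) .nil))))))))))))))))))))))))))))))))))))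

theorem a6 : chkA TCf 22491329 E6 = true := by decide +kernel

theorem b6 : chkB row E6 = true := by decide +kernel

theorem d6 : chkC E6 = true := by decide +kernel

/-- windows 0:1 1:1 2:2 4:0 4:1 5:1 -/
def E29 : Es :=
  (.cons 0 723003553 (.cons c10 10 1 y10 z10 (.cons c114 114 6 y114 z114 (.cons c118 118 6 y118 z118 (.cons c116 116 24 y116 z116 (.cons c119 119 24 y119 z119 (.cons c117 117 32 y117 z117 .nil)))))) (.cons 1 689449142 .nil (.cons 2 723003456 .nil (.cons 3 689449045 .nil (.cons 4 723000449 .nil (.cons 5 689446038 .nil (.cons 6 723000352 .nil (.cons 7 689445941 .nil (.cons 8 722904225 (.cons c10 10 1 y10 z10 (.cons c120 120 0 y120 z120 (.cons c121 121 25 y121 z121 (.cons c122 122 0 y122 z122 .nil)))) (.cons 9 689349814 (.cons c122 122 0 y122 z122 (.cons c123 123 0 y123 z123 (.cons c124 124 0 y124 z124 (.cons c125 125 0 y125 z125 (.cons c126 126 0 y126 z126 (.cons c127 127 0 y127 z127 .nil)))))) (.cons 10 722904128 (.cons c128 128 0 y128 z128 (.cons c129 129 0 y129 z129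 (.cons c130 130 0 y130 z130 (.cons c131 131 0 y131 z131 (.cons c132 132 0 y132 z132 (.cons c122 122 0 y122 z122 .nil)))))) (.cons 11 689349717 (.cons c130 130 0 y130 z130 (.cons c131 131 0 y131 z131 (.cons c132 132 0 y132 z132 (.cons c122 122 0 y122 z122 (.cons c133 133 0 y133 z133 (.cons c123 123 0 y123 z123 (.cons c124 124 0 y124 z124 (.cons c134 134 0 y134 z134 (.cons c125 125 0 y125 z125 (.cons c126 126 0 y126 z126 (.cons c127 127 0 y127 z127 .nil))))))))))) (.cons 12 722901121 (.cons c135 135 0 y135 z135 (.cons c136 136 0 y136 z136 (.cons c137 137 0 y137 z137 (.cons c122 122 0 y122 z122 (.cons c138 138 0 y138 z138 (.cons c139 139 0 y139 z139 .nil)))))) (.cons 13 689346710 (.cons c122 122 0 y122 z122 (.cons c123 123 0 y123 z123 (.cons c124 124 0 y124 z124 (.cons c125 125 0 y125 z125 (.cons c126 126 0 y126 z126 (.cons c127 127 0 y127 z127 .nil)))))) (.cons 14 722901024 (.cons c140 140 0 y140 z140 (.cons c128 128 0 y128 z128 (.cons c136 136 0 y136 z136 (.cons c137 137 0 y137 z137 (.cons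 c141 141 0 y141 z141 (.cons c129 129 0 y129 z129 (.cons c130 130 0 y130 z130 (.cons c131 131 0 y131 z131 (.cons c132 132 0 y132 z132 (.cons c122 122 0 y122 z122 (.cons c139 139 0 y139 z139 .nil))))))))))) (.cons 15 689346613 (.cons c130 130 0 y130 z130 (.cons c131 131 0 y131 z131 (.cons c132 132 0 y132 z132 (.cons c122 122 0 y122 z122 (.cons c133 133 0 y133 z133 (.cons c123 123 0 y123 z123 (.cons c124 124 0 y124 z124 (.cons c134 134 0 y134 z134 (.cons c125 125 0 y125 z125 (.cons c126 126 0 y126 z126 (.cons c127 127 0 y127 z127 .nil))))))))))) (.cons 24 719725729 (.cons c182 182 0 y182 z182 (.cons c122 122 0 y122 z122 (.cons c183 183 0 y183 z183 (.cons c184 184 0 y184 z184 (.cons c185 185 0 y185 z185 (.cons c186 186 0 y186 z186 .nil)))))) (.cons 25 686171318 (.cons c182 182 0 y182 z182 (.cons c122 122 0 y122 z122 (.cons c183 183 0 y183 z183 (.cons c184 184 0 y184 z184 (.cons c185 185 0 y185 z185 (.cons c186 186 0 y186 z186 .nil)))))) (.cons 26 719725632 (.cons c191 191 0 y191 z191 (.cons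 c192 192 0 y192 z192 (.cons c193 193 0 y193 z193 (.cons c194 194 0 y194 z194 (.cons c195 195 0 y195 z195 (.cons c182 182 0 y182 z182 (.cons c128 128 0 y128 z128 (.cons c196 196 0 y196 z196 (.cons c197 197 63 y197 z197 (.cons c198 198 63 y198 z198 (.cons c199 199 0 y199 z199 (.cons c129 129 0 y129 z129 (.cons c200 200 0 y200 z200 (.cons c130 130 0 y130 z130 (.cons c131 131 0 y131 z131 (.cons c201 201 0 y201 z201 (.cons c202 202 0 y202 z202 (.cons c203 203 0 y203 z203 (.cons c204 204 0 y204 z204 (.cons c205 205 0 y205 z205 (.cons c206 206 0 y206 z206 (.cons c207 207 0 y207 z207 (.cons c208 208 0 y208 z208 (.cons c209 209 0 y209 z209 (.cons c210 210 0 y210 z210 (.cons c211 211 0 y211 z211 (.cons c132 132 0 y132 z132 (.cons c122 122 0 y122 z122 (.cons c212 212 0 y212 z212 (.cons c183 183 0 y183 z183 (.cons c213 213 63 y213 z213 (.cons c184 184 0 y184 z184 (.cons c214 214 63 y214 z214 (.cons c185 185 0 y185 z185 (.cons c215 215 0 y215 z215 (.cons c186 186 0 y186 z186 .nil))))))))))))))))))))))))))))))))))))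 (.cons 27 686171221 (.cons c193 193 0 y193 z193 (.cons c194 194 0 y194 z194 (.cons c195 195 0 y195 z195 (.cons c182 182 0 y182 z182 (.cons c216 216 0 y216 z216 (.cons c130 130 0 y130 z130 (.cons c131 131 0 y131 z131 (.cons c201 201 0 y201 z201 (.cons c202 202 0 y202 z202 (.cons c206 206 0 y206 z206 (.cons c207 207 0 y207 z207 (.cons c208 208 0 y208 z208 (.cons c209 209 0 y209 z209 (.cons c210 210 0 y210 z210 (.cons c211 211 0 y211 z211 (.cons c132 132 0 y132 z132 (.cons c122 122 0 y122 z122 (.cons c212 212 0 y212 z212 (.cons c183 183 0 y183 z183 (.cons c133 133 0 y133 z133 (.cons c217 217 0 y217 z217 (.cons c213 213 63 y213 z213 (.cons c184 184 0 y184 z184 (.cons c214 214 63 y214 z214 (.cons c185 185 0 y185 z185 (.cons c215 215 0 y215 z215 (.cons c186 186 0 y186 z186 (.cons c218 218 63 y218 z218 (.cons c219 219 0 y219 z219 (.cons c134 134 0 y134 z134 (.cons c220 220 0 y220 z220 (.cons c221 221 0 y221 z221 (.cons c222 222 0 y222 z222 (.cons c223 223 0 y223 z223 .nil))))))))))))))))))))))))))))))))))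 (.cons 28 719722625 (.cons c135 135 0 y135 z135 (.cons c136 136 0 y136 z136 (.cons c137 137 0 y137 z137 (.cons c122 122 0 y122 z122 (.cons c138 138 0 y138 z138 (.cons c139 139 0 y139 z139 .nil)))))) (.cons 29 686168214 (.cons c122 122 0 y122 z122 .nil) (.cons 30 719722528 (.cons c140 140 0 y140 z140 (.cons c128 128 0 y128 z128 (.cons c136 136 0 y136 z136 (.cons c137 137 0 y137 z137 (.cons c141 141 0 y141 z141 (.cons c129 129 0 y129 z129 (.cons c130 130 0 y130 z130 (.cons c131 131 0 y131 z131 (.cons c132 132 0 y132 z132 (.cons c122 122 0 y122 z122 (.cons c139 139 0 y139 z139 .nil))))))))))) (.cons 31 686168117 (.cons c130 130 0 y130 z130 (.cons c131 131 0 y131 z131 (.cons c132 132 0 y132 z132 (.cons c122 122 0 y122 z122 (.cons c133 133 0 y133 z133 (.cons c134 134 0 y134 z134 .nil)))))) (.cons 32 621291681 .nil (.cons 33 587737270 .nil (.cons 34 621291584 .nil (.cons 35 587737173 .nil (.cons 36 621288577 .nil (.cons 37 587734166 .nil (.cons 38 621288480 .nil (.cons 39 587734069 .nil (.cons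 40 621192353 (.cons c242 242 0 y242 z242 (.cons c243 243 0 y243 z243 (.cons c244 244 0 y244 z244 (.cons c122 122 0 y122 z122 (.cons c245 245 0 y245 z245 (.cons c246 246 0 y246 z246 .nil)))))) (.cons 41 587637942 (.cons c242 242 0 y242 z242 (.cons c243 243 0 y243 z243 (.cons c244 244 0 y244 z244 (.cons c122 122 0 y122 z122 (.cons c123 123 0 y123 z123 (.cons c245 245 0 y245 z245 (.cons c246 246 0 y246 z246 (.cons c247 247 0 y247 z247 (.cons c125 125 0 y125 z125 (.cons c248 248 0 y248 z248 (.cons c126 126 0 y126 z126 .nil))))))))))) (.cons 42 621192256 (.cons c242 242 0 y242 z242 (.cons c243 243 0 y243 z243 (.cons c244 244 0 y244 z244 (.cons c122 122 0 y122 z122 (.cons c245 245 0 y245 z245 (.cons c246 246 0 y246 z246 .nil)))))) (.cons 43 587637845 (.cons c242 242 0 y242 z242 (.cons c243 243 0 y243 z243 (.cons c244 244 0 y244 z244 (.cons c122 122 0 y122 z122 (.cons c123 123 0 y123 z123 (.cons c245 245 0 y245 z245 (.cons c246 246 0 y246 z246 (.cons c247 247 0 y247 z247 (.cons c125 125 0 y125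 z125 (.cons c248 248 0 y248 z248 (.cons c126 126 0 y126 z126 .nil))))))))))) (.cons 44 621189249 (.cons c249 249 32 y249 z249 (.cons c250 250 32 y250 z250 (.cons c251 251 0 y251 z251 (.cons c252 252 32 y252 z252 (.cons c253 253 0 y253 z253 (.cons c254 254 32 y254 z254 (.cons c255 255 0 y255 z255 (.cons c256 256 0 y256 z256 (.cons c257 257 0 y257 z257 (.cons c242 242 0 y242 z242 (.cons c258 258 0 y258 z258 (.cons c259 259 0 y259 z259 (.cons c243 243 0 y243 z243 (.cons c244 244 0 y244 z244 (.cons c260 260 0 y260 z260 (.cons c261 261 0 y261 z261 (.cons c262 262 0 y262 z262 (.cons c263 263 0 y263 z263 (.cons c135 135 0 y135 z135 (.cons c264 264 25 y264 z264 (.cons c265 265 25 y265 z265 (.cons c136 136 0 y136 z136 (.cons c266 266 25 y266 z266 (.cons c267 267 25 y267 z267 (.cons c137 137 0 y137 z137 (.cons c268 268 0 y268 z268 (.cons c269 269 0 y269 z269 (.cons c122 122 0 y122 z122 (.cons c245 245 0 y245 z245 (.cons c246 246 0 y246 z246 (.cons c138 138 0 y138 z138 (.cons c139 139 0 y139 z139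 (.cons c270 270 0 y270 z270 (.cons c271 271 0 y271 z271 (.cons c272 272 0 y272 z272 (.cons c273 273 0 y273 z273 .nil)))))))))))))))))))))))))))))))))))) (.cons 45 587634838 (.cons c242 242 0 y242 z242 (.cons c243 243 0 y243 z243 (.cons c244 244 0 y244 z244 (.cons c122 122 0 y122 z122 (.cons c123 123 0 y123 z123 (.cons c245 245 0 y245 z245 (.cons c246 246 0 y246 z246 (.cons c247 247 0 y247 z247 (.cons c125 125 0 y125 z125 (.cons c248 248 0 y248 z248 (.cons c126 126 0 y126 z126 .nil))))))))))) (.cons 46 621189152 (.cons c274 274 32 y274 z274 (.cons c250 250 32 y250 z250 (.cons c251 251 0 y251 z251 (.cons c275 275 32 y275 z275 (.cons c254 254 32 y254 z254 (.cons c276 276 0 y276 z276 (.cons c255 255 0 y255 z255 (.cons c256 256 0 y256 z256 (.cons c257 257 0 y257 z257 (.cons c277 277 0 y277 z277 (.cons c278 278 0 y278 z278 (.cons c242 242 0 y242 z242 (.cons c259 259 0 y259 z259 (.cons c243 243 0 y243 z243 (.cons c244 244 0 y244 z244 (.cons c261 261 0 y261 z261 (.cons c263 263 0 y263 z263 (.cons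 c140 140 0 y140 z140 (.cons c136 136 0 y136 z136 (.cons c279 279 25 y279 z279 (.cons c266 266 25 y266 z266 (.cons c267 267 25 y267 z267 (.cons c137 137 0 y137 z137 (.cons c268 268 0 y268 z268 (.cons c269 269 0 y269 z269 (.cons c141 141 0 y141 z141 (.cons c280 280 0 y280 z280 (.cons c281 281 0 y281 z281 (.cons c122 122 0 y122 z122 (.cons c245 245 0 y245 z245 (.cons c246 246 0 y246 z246 (.cons c139 139 0 y139 z139 (.cons c272 272 0 y272 z272 (.cons c273 273 0 y273 z273 .nil)))))))))))))))))))))))))))))))))) (.cons 47 587634741 (.cons c242 242 0 y242 z242 (.cons c243 243 0 y243 z243 (.cons c244 244 0 y244 z244 (.cons c122 122 0 y122 z122 (.cons c123 123 0 y123 z123 (.cons c245 245 0 y245 z245 (.cons c246 246 0 y246 z246 (.cons c247 247 0 y247 z247 (.cons c125 125 0 y125 z125 (.cons c248 248 0 y248 z248 (.cons c126 126 0 y126 z126 .nil))))))))))) (.cons 56 618013857 (.cons c243 243 0 y243 z243 (.cons c182 182 0 y182 z182 (.cons c294 294 0 y294 z294 (.cons c244 244 0 y244 z244 (.cons c122 122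 0 y122 z122 (.cons c183 183 0 y183 z183 (.cons c246 246 0 y246 z246 (.cons c184 184 0 y184 z184 (.cons c185 185 0 y185 z185 (.cons c186 186 0 y186 z186 (.cons c295 295 0 y295 z295 .nil))))))))))) (.cons 57 584459446 (.cons c243 243 0 y243 z243 (.cons c182 182 0 y182 z182 (.cons c294 294 0 y294 z294 (.cons c244 244 0 y244 z244 (.cons c122 122 0 y122 z122 (.cons c183 183 0 y183 z183 (.cons c246 246 0 y246 z246 (.cons c184 184 0 y184 z184 (.cons c185 185 0 y185 z185 (.cons c186 186 0 y186 z186 (.cons c295 295 0 y295 z295 .nil))))))))))) (.cons 58 618013760 (.cons c243 243 0 y243 z243 (.cons c182 182 0 y182 z182 (.cons c294 294 0 y294 z294 (.cons c244 244 0 y244 z244 (.cons c122 122 0 y122 z122 (.cons c183 183 0 y183 z183 (.cons c246 246 0 y246 z246 (.cons c184 184 0 y184 z184 (.cons c185 185 0 y185 z185 (.cons c186 186 0 y186 z186 (.cons c295 295 0 y295 z295 .nil))))))))))) (.cons 59 584459349 (.cons c243 243 0 y243 z243 (.cons c182 182 0 y182 z182 (.cons c294 294 0 y294 z294 (.cons c244 244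 0 y244 z244 (.cons c122 122 0 y122 z122 (.cons c183 183 0 y183 z183 (.cons c246 246 0 y246 z246 (.cons c184 184 0 y184 z184 (.cons c185 185 0 y185 z185 (.cons c186 186 0 y186 z186 (.cons c295 295 0 y295 z295 .nil))))))))))) (.cons 60 618010753 (.cons c252 252 32 y252 z252 (.cons c296 296 32 y296 z296 (.cons c253 253 0 y253 z253 (.cons c254 254 32 y254 z254 (.cons c297 297 32 y297 z297 (.cons c255 255 0 y255 z255 (.cons c256 256 0 y256 z256 (.cons c298 298 0 y298 z298 (.cons c257 257 0 y257 z257 (.cons c243 243 0 y243 z243 (.cons c294 294 0 y294 z294 (.cons c244 244 0 y244 z244 (.cons c260 260 0 y260 z260 (.cons c261 261 0 y261 z261 (.cons c299 299 0 y299 z299 (.cons c262 262 0 y262 z262 (.cons c263 263 0 y263 z263 (.cons c135 135 0 y135 z135 (.cons c265 265 25 y265 z265 (.cons c136 136 0 y136 z136 (.cons c267 267 25 y267 z267 (.cons c137 137 0 y137 z137 (.cons c269 269 0 y269 z269 (.cons c300 300 25 y300 z300 (.cons c301 301 0 y301 z301 (.cons c122 122 0 y122 z122 (.cons c246 246 0 y246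 z246 (.cons c138 138 0 y138 z138 (.cons c139 139 0 y139 z139 (.cons c271 271 0 y271 z271 (.cons c273 273 0 y273 z273 (.cons c295 295 0 y295 z295 (.cons c302 302 0 y302 z302 (.cons c303 303 0 y303 z303 .nil)))))))))))))))))))))))))))))))))) (.cons 61 584456342 (.cons c243 243 0 y243 z243 (.cons c294 294 0 y294 z294 (.cons c244 244 0 y244 z244 (.cons c122 122 0 y122 z122 (.cons c246 246 0 y246 z246 (.cons c295 295 0 y295 z295 .nil)))))) (.cons 62 618010656 (.cons c275 275 32 y275 z275 (.cons c254 254 32 y254 z254 (.cons c304 304 32 y304 z304 (.cons c297 297 32 y297 z297 (.cons c276 276 0 y276 z276 (.cons c255 255 0 y255 z255 (.cons c256 256 0 y256 z256 (.cons c298 298 0 y298 z298 (.cons c257 257 0 y257 z257 (.cons c277 277 0 y277 z277 (.cons c305 305 0 y305 z305 (.cons c278 278 0 y278 z278 (.cons c243 243 0 y243 z243 (.cons c294 294 0 y294 z294 (.cons c244 244 0 y244 z244 (.cons c261 261 0 y261 z261 (.cons c299 299 0 y299 z299 (.cons c263 263 0 y263 z263 (.cons c140 140 0 y140 z140 (.cons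 c136 136 0 y136 z136 (.cons c279 279 63 y279 z279 (.cons c267 267 63 y267 z267 (.cons c137 137 0 y137 z137 (.cons c269 269 0 y269 z269 (.cons c306 306 63 y306 z306 (.cons c300 300 63 y300 z300 (.cons c301 301 0 y301 z301 (.cons c141 141 0 y141 z141 (.cons c281 281 0 y281 z281 (.cons c307 307 0 y307 z307 (.cons c122 122 0 y122 z122 (.cons c246 246 0 y246 z246 (.cons c139 139 0 y139 z139 (.cons c273 273 0 y273 z273 (.cons c295 295 0 y295 z295 (.cons c303 303 0 y303 z303 .nil)))))))))))))))))))))))))))))))))))) (.cons 63 584456245 (.cons c243 243 0 y243 z243 (.cons c294 294 0 y294 z294 (.cons c244 244 0 y244 z244 (.cons c122 122 0 y122 z122 (.cons c246 246 0 y246 z246 (.cons c295 295 0 y295 z295 .nil)))))) .nil))))))))))))))))))))))))))))))))))))))))))))))))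

theorem a29 : chkA TCf 723003553 E29 = true := by decide +kernel

theorem b29 : chkB row E29 = true := by decide +kernel

theorem d29 : chkC E29 = true := by decide +kernel

/-- windows 0:1 1:1 2:1 3:1 4:1 5:1 -/
def E33 : Es :=
  (.cons 0 722904225 (.cons c10 10 1 y10 z10 (.cons c120 120 2 y120 z120 (.cons c121 121 5 y121 z121 (.cons c122 122 10 y122 z122 .nil)))) (.cons 1 689349814 (.cons c122 122 10 y122 z122 (.cons c123 123 0 y123 z123 (.cons c124 124 0 y124 z124 (.cons c125 125 2 y125 z125 (.cons c126 126 0 y126 z126 (.cons c127 127 2 y127 z127 .nil)))))) (.cons 2 722904128 (.cons c128 128 0 y128 z128 (.cons c129 129 2 y129 z129 (.cons c130 130 0 y130 z130 (.cons c131 131 2 y131 z131 (.cons c132 132 0 y132 z132 (.cons c122 122 10 y122 z122 .nil)))))) (.cons 3 689349717 (.cons c130 130 0 y130 z130 (.cons c131 131 2 y131 z131 (.cons c132 132 0 y132 z132 (.cons c122 122 10 y122 z122 (.cons c133 133 0 y133 z133 (.cons c123 123 0 y123 z123 (.cons c124 124 0 y124 z124 (.cons c134 134 2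 y134 z134 (.cons c125 125 2 y125 z125 (.cons c126 126 0 y126 z126 (.cons c127 127 2 y127 z127 .nil))))))))))) (.cons 4 722901121 (.cons c135 135 0 y135 z135 (.cons c136 136 0 y136 z136 (.cons c137 137 0 y137 z137 (.cons c122 122 10 y122 z122 (.cons c138 138 2 y138 z138 (.cons c139 139 2 y139 z139 .nil)))))) (.cons 5 689346710 (.cons c122 122 10 y122 z122 (.cons c123 123 0 y123 z123 (.cons c124 124 0 y124 z124 (.cons c125 125 2 y125 z125 (.cons c126 126 0 y126 z126 (.cons c127 127 2 y127 z127 .nil)))))) (.cons 6 722901024 (.cons c140 140 0 y140 z140 (.cons c128 128 0 y128 z128 (.cons c136 136 0 y136 z136 (.cons c137 137 0 y137 z137 (.cons c141 141 2 y141 z141 (.cons c129 129 2 y129 z129 (.cons c130 130 0 y130 z130 (.cons c131 131 2 y131 z131 (.cons c132 132 0 y132 z132 (.cons c122 122 10 y122 z122 (.cons c139 139 2 y139 z139 .nil))))))))))) (.cons 7 689346613 (.cons c130 130 0 y130 z130 (.cons c131 131 2 y131 z131 (.cons c132 132 0 y132 z132 (.cons c122 122 10 y122 z122 (.cons c133 133 0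 y133 z133 (.cons c123 123 0 y123 z123 (.cons c124 124 0 y124 z124 (.cons c134 134 2 y134 z134 (.cons c125 125 2 y125 z125 (.cons c126 126 0 y126 z126 (.cons c127 127 2 y127 z127 .nil))))))))))) (.cons 8 722804897 (.cons c122 122 10 y122 z122 (.cons c142 142 2 y142 z142 (.cons c143 143 2 y143 z143 (.cons c144 144 0 y144 z144 (.cons c145 145 0 y145 z145 (.cons c146 146 0 y146 z146 .nil)))))) (.cons 9 689250486 (.cons c122 122 10 y122 z122 (.cons c123 123 0 y123 z123 (.cons c124 124 0 y124 z124 (.cons c142 142 2 y142 z142 (.cons c143 143 2 y143 z143 (.cons c147 147 0 y147 z147 (.cons c148 148 0 y148 z148 (.cons c149 149 0 y149 z149 (.cons c150 150 0 y150 z150 (.cons c144 144 0 y144 z144 (.cons c151 151 5 y151 z151 (.cons c152 152 5 y152 z152 (.cons c145 145 0 y145 z145 (.cons c153 153 5 y153 z153 (.cons c154 154 5 y154 z154 (.cons c146 146 0 y146 z146 (.cons c155 155 0 y155 z155 (.cons c156 156 0 y156 z156 (.cons c125 125 2 y125 z125 (.cons c126 126 0 y126 z126 (.cons c157 157 2 y157 z157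 (.cons c158 158 2 y158 z158 (.cons c159 159 0 y159 z159 (.cons c160 160 0 y160 z160 (.cons c127 127 2 y127 z127 (.cons c161 161 2 y161 z161 (.cons c162 162 2 y162 z162 (.cons c163 163 0 y163 z163 (.cons c164 164 0 y164 z164 (.cons c165 165 0 y165 z165 (.cons c166 166 0 y166 z166 (.cons c167 167 0 y167 z167 (.cons c168 168 0 y168 z168 (.cons c169 169 0 y169 z169 (.cons c170 170 0 y170 z170 (.cons c171 171 0 y171 z171 .nil)))))))))))))))))))))))))))))))))))) (.cons 10 722804800 (.cons c128 128 0 y128 z128 (.cons c129 129 2 y129 z129 (.cons c130 130 0 y130 z130 (.cons c131 131 2 y131 z131 (.cons c132 132 0 y132 z132 (.cons c122 122 10 y122 z122 .nil)))))) (.cons 11 689250389 (.cons c130 130 0 y130 z130 (.cons c131 131 2 y131 z131 (.cons c132 132 0 y132 z132 (.cons c122 122 10 y122 z122 (.cons c133 133 0 y133 z133 (.cons c123 123 0 y123 z123 (.cons c124 124 0 y124 z124 (.cons c134 134 2 y134 z134 (.cons c125 125 2 y125 z125 (.cons c126 126 0 y126 z126 (.cons c127 127 2 y127 z127 .nil)))))))))))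 (.cons 12 722801793 (.cons c135 135 0 y135 z135 (.cons c136 136 0 y136 z136 (.cons c137 137 0 y137 z137 (.cons c122 122 10 y122 z122 (.cons c143 143 2 y143 z143 (.cons c138 138 2 y138 z138 (.cons c139 139 2 y139 z139 (.cons c172 172 2 y172 z172 (.cons c145 145 0 y145 z145 (.cons c173 173 0 y173 z173 (.cons c146 146 0 y146 z146 .nil))))))))))) (.cons 13 689247382 (.cons c122 122 10 y122 z122 (.cons c123 123 0 y123 z123 (.cons c124 124 0 y124 z124 (.cons c143 143 2 y143 z143 (.cons c149 149 0 y149 z149 (.cons c150 150 0 y150 z150 (.cons c172 172 2 y172 z172 (.cons c174 174 0 y174 z174 (.cons c175 175 0 y175 z175 (.cons c145 145 0 y145 z145 (.cons c173 173 0 y173 z173 (.cons c153 153 5 y153 z153 (.cons c176 176 5 y176 z176 (.cons c154 154 5 y154 z154 (.cons c146 146 0 y146 z146 (.cons c155 155 0 y155 z155 (.cons c156 156 0 y156 z156 (.cons c125 125 2 y125 z125 (.cons c126 126 0 y126 z126 (.cons c158 158 2 y158 z158 (.cons c160 160 0 y160 z160 (.cons c177 177 2 y177 z177 (.cons c178 178 0 y178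 z178 (.cons c127 127 2 y127 z127 (.cons c162 162 2 y162 z162 (.cons c165 165 0 y165 z165 (.cons c179 179 0 y179 z179 (.cons c166 166 0 y166 z166 (.cons c180 180 0 y180 z180 (.cons c167 167 0 y167 z167 (.cons c168 168 0 y168 z168 (.cons c170 170 0 y170 z170 (.cons c181 181 0 y181 z181 (.cons c171 171 0 y171 z171 .nil)))))))))))))))))))))))))))))))))) (.cons 14 722801696 (.cons c140 140 0 y140 z140 (.cons c128 128 0 y128 z128 (.cons c136 136 0 y136 z136 (.cons c137 137 0 y137 z137 (.cons c141 141 2 y141 z141 (.cons c129 129 2 y129 z129 (.cons c130 130 0 y130 z130 (.cons c131 131 2 y131 z131 (.cons c132 132 0 y132 z132 (.cons c122 122 10 y122 z122 (.cons c139 139 2 y139 z139 .nil))))))))))) (.cons 15 689247285 (.cons c130 130 0 y130 z130 (.cons c131 131 2 y131 z131 (.cons c132 132 0 y132 z132 (.cons c122 122 10 y122 z122 (.cons c133 133 0 y133 z133 (.cons c123 123 0 y123 z123 (.cons c124 124 0 y124 z124 (.cons c134 134 2 y134 z134 (.cons c125 125 2 y125 z125 (.cons c126 126 0 y126 z126 (.cons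 c127 127 2 y127 z127 .nil))))))))))) (.cons 16 719725729 (.cons c182 182 2 y182 z182 (.cons c122 122 10 y122 z122 (.cons c183 183 2 y183 z183 (.cons c184 184 0 y184 z184 (.cons c185 185 0 y185 z185 (.cons c186 186 0 y186 z186 .nil)))))) (.cons 17 686171318 (.cons c182 182 2 y182 z182 (.cons c122 122 10 y122 z122 (.cons c183 183 2 y183 z183 (.cons c184 184 0 y184 z184 (.cons c185 185 0 y185 z185 (.cons c186 186 0 y186 z186 .nil)))))) (.cons 18 719725632 (.cons c191 191 0 y191 z191 (.cons c192 192 2 y192 z192 (.cons c193 193 0 y193 z193 (.cons c194 194 2 y194 z194 (.cons c195 195 0 y195 z195 (.cons c182 182 2 y182 z182 (.cons c128 128 0 y128 z128 (.cons c196 196 0 y196 z196 (.cons c197 197 5 y197 z197 (.cons c198 198 5 y198 z198 (.cons c199 199 0 y199 z199 (.cons c129 129 2 y129 z129 (.cons c200 200 2 y200 z200 (.cons c130 130 0 y130 z130 (.cons c131 131 2 y131 z131 (.cons c201 201 0 y201 z201 (.cons c202 202 2 y202 z202 (.cons c203 203 0 y203 z203 (.cons c204 204 0 y204 z204 (.cons c205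 205 0 y205 z205 (.cons c206 206 0 y206 z206 (.cons c207 207 0 y207 z207 (.cons c208 208 0 y208 z208 (.cons c209 209 0 y209 z209 (.cons c210 210 0 y210 z210 (.cons c211 211 0 y211 z211 (.cons c132 132 0 y132 z132 (.cons c122 122 10 y122 z122 (.cons c212 212 0 y212 z212 (.cons c183 183 2 y183 z183 (.cons c213 213 5 y213 z213 (.cons c184 184 0 y184 z184 (.cons c214 214 5 y214 z214 (.cons c185 185 0 y185 z185 (.cons c215 215 0 y215 z215 (.cons c186 186 0 y186 z186 .nil)))))))))))))))))))))))))))))))))))) (.cons 19 686171221 (.cons c193 193 0 y193 z193 (.cons c194 194 2 y194 z194 (.cons c195 195 0 y195 z195 (.cons c182 182 2 y182 z182 (.cons c216 216 0 y216 z216 (.cons c130 130 0 y130 z130 (.cons c131 131 2 y131 z131 (.cons c201 201 0 y201 z201 (.cons c202 202 2 y202 z202 (.cons c206 206 0 y206 z206 (.cons c207 207 0 y207 z207 (.cons c208 208 0 y208 z208 (.cons c209 209 0 y209 z209 (.cons c210 210 0 y210 z210 (.cons c211 211 0 y211 z211 (.cons c132 132 0 y132 z132 (.cons c122 122 10 y122 z122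 (.cons c212 212 0 y212 z212 (.cons c183 183 2 y183 z183 (.cons c133 133 0 y133 z133 (.cons c217 217 0 y217 z217 (.cons c213 213 5 y213 z213 (.cons c184 184 0 y184 z184 (.cons c214 214 5 y214 z214 (.cons c185 185 0 y185 z185 (.cons c215 215 0 y215 z215 (.cons c186 186 0 y186 z186 (.cons c218 218 5 y218 z218 (.cons c219 219 0 y219 z219 (.cons c134 134 2 y134 z134 (.cons c220 220 2 y220 z220 (.cons c221 221 0 y221 z221 (.cons c222 222 0 y222 z222 (.cons c223 223 0 y223 z223 .nil)))))))))))))))))))))))))))))))))) (.cons 20 719722625 (.cons c135 135 0 y135 z135 (.cons c136 136 0 y136 z136 (.cons c137 137 0 y137 z137 (.cons c122 122 10 y122 z122 (.cons c138 138 2 y138 z138 (.cons c139 139 2 y139 z139 .nil)))))) (.cons 21 686168214 (.cons c122 122 10 y122 z122 .nil) (.cons 22 719722528 (.cons c140 140 0 y140 z140 (.cons c128 128 0 y128 z128 (.cons c136 136 0 y136 z136 (.cons c137 137 0 y137 z137 (.cons c141 141 2 y141 z141 (.cons c129 129 2 y129 z129 (.cons c130 130 0 y130 z130 (.cons c131 131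 2 y131 z131 (.cons c132 132 0 y132 z132 (.cons c122 122 10 y122 z122 (.cons c139 139 2 y139 z139 .nil))))))))))) (.cons 23 686168117 (.cons c130 130 0 y130 z130 (.cons c131 131 2 y131 z131 (.cons c132 132 0 y132 z132 (.cons c122 122 10 y122 z122 (.cons c133 133 0 y133 z133 (.cons c134 134 2 y134 z134 .nil)))))) (.cons 24 719626401 (.cons c122 122 10 y122 z122 (.cons c183 183 2 y183 z183 (.cons c142 142 2 y142 z142 (.cons c143 143 2 y143 z143 (.cons c224 224 2 y224 z224 (.cons c185 185 0 y185 z185 (.cons c186 186 0 y186 z186 (.cons c144 144 0 y144 z144 (.cons c145 145 0 y145 z145 (.cons c146 146 0 y146 z146 (.cons c225 225 0 y225 z225 .nil))))))))))) (.cons 25 686071990 (.cons c122 122 10 y122 z122 (.cons c183 183 2 y183 z183 (.cons c142 142 2 y142 z142 (.cons c143 143 2 y143 z143 (.cons c224 224 2 y224 z224 (.cons c185 185 0 y185 z185 (.cons c186 186 0 y186 z186 (.cons c144 144 0 y144 z144 (.cons c145 145 0 y145 z145 (.cons c146 146 0 y146 z146 (.cons c225 225 0 y225 z225 .nil)))))))))))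 (.cons 26 719626304 (.cons c128 128 0 y128 z128 (.cons c196 196 0 y196 z196 (.cons c226 226 0 y226 z226 (.cons c198 198 5 y198 z198 (.cons c199 199 0 y199 z199 (.cons c129 129 2 y129 z129 (.cons c200 200 2 y200 z200 (.cons c130 130 0 y130 z130 (.cons c131 131 2 y131 z131 (.cons c201 201 0 y201 z201 (.cons c202 202 2 y202 z202 (.cons c227 227 0 y227 z227 (.cons c228 228 2 y228 z228 (.cons c204 204 0 y204 z204 (.cons c205 205 0 y205 z205 (.cons c208 208 0 y208 z208 (.cons c209 209 0 y209 z209 (.cons c210 210 0 y210 z210 (.cons c211 211 0 y211 z211 (.cons c132 132 0 y132 z132 (.cons c122 122 10 y122 z122 (.cons c212 212 0 y212 z212 (.cons c183 183 2 y183 z183 (.cons c229 229 0 y229 z229 (.cons c224 224 2 y224 z224 (.cons c214 214 5 y214 z214 (.cons c185 185 0 y185 z185 (.cons c215 215 0 y215 z215 (.cons c186 186 0 y186 z186 (.cons c230 230 0 y230 z230 (.cons c231 231 0 y231 z231 (.cons c232 232 0 y232 z232 (.cons c233 233 5 y233 z233 (.cons c225 225 0 y225 z225 .nil))))))))))))))))))))))))))))))))))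 (.cons 27 686071893 (.cons c130 130 0 y130 z130 (.cons c131 131 2 y131 z131 (.cons c201 201 0 y201 z201 (.cons c202 202 2 y202 z202 (.cons c227 227 0 y227 z227 (.cons c228 228 2 y228 z228 (.cons c208 208 0 y208 z208 (.cons c209 209 0 y209 z209 (.cons c210 210 0 y210 z210 (.cons c211 211 0 y211 z211 (.cons c132 132 0 y132 z132 (.cons c122 122 10 y122 z122 (.cons c212 212 0 y212 z212 (.cons c183 183 2 y183 z183 (.cons c133 133 0 y133 z133 (.cons c217 217 0 y217 z217 (.cons c229 229 0 y229 z229 (.cons c224 224 2 y224 z224 (.cons c234 234 0 y234 z234 (.cons c214 214 5 y214 z214 (.cons c185 185 0 y185 z185 (.cons c215 215 0 y215 z215 (.cons c186 186 0 y186 z186 (.cons c218 218 5 y218 z218 (.cons c219 219 0 y219 z219 (.cons c231 231 0 y231 z231 (.cons c232 232 0 y232 z232 (.cons c233 233 5 y233 z233 (.cons c225 225 0 y225 z225 (.cons c235 235 5 y235 z235 (.cons c134 134 2 y134 z134 (.cons c220 220 2 y220 z220 (.cons c236 236 2 y236 z236 (.cons c222 222 0 y222 z222 (.cons c223 223 0 y223 z223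 (.cons c237 237 0 y237 z237 .nil)))))))))))))))))))))))))))))))))))) (.cons 28 719623297 (.cons c135 135 0 y135 z135 (.cons c136 136 0 y136 z136 (.cons c137 137 0 y137 z137 (.cons c122 122 10 y122 z122 (.cons c143 143 2 y143 z143 (.cons c138 138 2 y138 z138 (.cons c139 139 2 y139 z139 (.cons c172 172 2 y172 z172 (.cons c145 145 0 y145 z145 (.cons c173 173 0 y173 z173 (.cons c146 146 0 y146 z146 .nil))))))))))) (.cons 29 686068886 (.cons c122 122 10 y122 z122 (.cons c143 143 2 y143 z143 (.cons c172 172 2 y172 z172 (.cons c145 145 0 y145 z145 (.cons c173 173 0 y173 z173 (.cons c146 146 0 y146 z146 .nil)))))) (.cons 30 719623200 (.cons c140 140 0 y140 z140 (.cons c128 128 0 y128 z128 (.cons c136 136 0 y136 z136 (.cons c137 137 0 y137 z137 (.cons c141 141 2 y141 z141 (.cons c129 129 2 y129 z129 (.cons c130 130 0 y130 z130 (.cons c131 131 2 y131 z131 (.cons c132 132 0 y132 z132 (.cons c122 122 10 y122 z122 (.cons c139 139 2 y139 z139 .nil))))))))))) (.cons 31 686068789 (.cons c130 130 0 y130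 z130 (.cons c131 131 2 y131 z131 (.cons c132 132 0 y132 z132 (.cons c122 122 10 y122 z122 (.cons c133 133 0 y133 z133 (.cons c134 134 2 y134 z134 .nil)))))) (.cons 32 621192353 (.cons c242 242 2 y242 z242 (.cons c243 243 2 y243 z243 (.cons c244 244 0 y244 z244 (.cons c122 122 10 y122 z122 (.cons c245 245 0 y245 z245 (.cons c246 246 0 y246 z246 .nil)))))) (.cons 33 587637942 (.cons c242 242 2 y242 z242 (.cons c243 243 2 y243 z243 (.cons c244 244 0 y244 z244 (.cons c122 122 10 y122 z122 (.cons c123 123 0 y123 z123 (.cons c245 245 0 y245 z245 (.cons c246 246 0 y246 z246 (.cons c247 247 0 y247 z247 (.cons c125 125 2 y125 z125 (.cons c248 248 2 y248 z248 (.cons c126 126 0 y126 z126 .nil))))))))))) (.cons 34 621192256 (.cons c242 242 2 y242 z242 (.cons c243 243 2 y243 z243 (.cons c244 244 0 y244 z244 (.cons c122 122 10 y122 z122 (.cons c245 245 0 y245 z245 (.cons c246 246 0 y246 z246 .nil)))))) (.cons 35 587637845 (.cons c242 242 2 y242 z242 (.cons c243 243 2 y243 z243 (.cons c244 244 0 y244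 z244 (.cons c122 122 10 y122 z122 (.cons c123 123 0 y123 z123 (.cons c245 245 0 y245 z245 (.cons c246 246 0 y246 z246 (.cons c247 247 0 y247 z247 (.cons c125 125 2 y125 z125 (.cons c248 248 2 y248 z248 (.cons c126 126 0 y126 z126 .nil))))))))))) (.cons 36 621189249 (.cons c249 249 0 y249 z249 (.cons c250 250 0 y250 z250 (.cons c251 251 0 y251 z251 (.cons c252 252 0 y252 z252 (.cons c253 253 0 y253 z253 (.cons c254 254 0 y254 z254 (.cons c255 255 0 y255 z255 (.cons c256 256 0 y256 z256 (.cons c257 257 0 y257 z257 (.cons c242 242 2 y242 z242 (.cons c258 258 2 y258 z258 (.cons c259 259 2 y259 z259 (.cons c243 243 2 y243 z243 (.cons c244 244 0 y244 z244 (.cons c260 260 2 y260 z260 (.cons c261 261 2 y261 z261 (.cons c262 262 0 y262 z262 (.cons c263 263 0 y263 z263 (.cons c135 135 0 y135 z135 (.cons c264 264 5 y264 z264 (.cons c265 265 5 y265 z265 (.cons c136 136 0 y136 z136 (.cons c266 266 5 y266 z266 (.cons c267 267 5 y267 z267 (.cons c137 137 0 y137 z137 (.cons c268 268 0 y268 z268 (.cons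 c269 269 0 y269 z269 (.cons c122 122 10 y122 z122 (.cons c245 245 0 y245 z245 (.cons c246 246 0 y246 z246 (.cons c138 138 2 y138 z138 (.cons c139 139 2 y139 z139 (.cons c270 270 0 y270 z270 (.cons c271 271 0 y271 z271 (.cons c272 272 0 y272 z272 (.cons c273 273 0 y273 z273 .nil)))))))))))))))))))))))))))))))))))) (.cons 37 587634838 (.cons c242 242 2 y242 z242 (.cons c243 243 2 y243 z243 (.cons c244 244 0 y244 z244 (.cons c122 122 10 y122 z122 (.cons c123 123 0 y123 z123 (.cons c245 245 0 y245 z245 (.cons c246 246 0 y246 z246 (.cons c247 247 0 y247 z247 (.cons c125 125 2 y125 z125 (.cons c248 248 2 y248 z248 (.cons c126 126 0 y126 z126 .nil))))))))))) (.cons 38 621189152 (.cons c274 274 0 y274 z274 (.cons c250 250 0 y250 z250 (.cons c251 251 0 y251 z251 (.cons c275 275 0 y275 z275 (.cons c254 254 0 y254 z254 (.cons c276 276 0 y276 z276 (.cons c255 255 0 y255 z255 (.cons c256 256 0 y256 z256 (.cons c257 257 0 y257 z257 (.cons c277 277 2 y277 z277 (.cons c278 278 0 y278 z278 (.cons c242 242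 2 y242 z242 (.cons c259 259 2 y259 z259 (.cons c243 243 2 y243 z243 (.cons c244 244 0 y244 z244 (.cons c261 261 2 y261 z261 (.cons c263 263 0 y263 z263 (.cons c140 140 0 y140 z140 (.cons c136 136 0 y136 z136 (.cons c279 279 5 y279 z279 (.cons c266 266 5 y266 z266 (.cons c267 267 5 y267 z267 (.cons c137 137 0 y137 z137 (.cons c268 268 0 y268 z268 (.cons c269 269 0 y269 z269 (.cons c141 141 2 y141 z141 (.cons c280 280 0 y280 z280 (.cons c281 281 0 y281 z281 (.cons c122 122 10 y122 z122 (.cons c245 245 0 y245 z245 (.cons c246 246 0 y246 z246 (.cons c139 139 2 y139 z139 (.cons c272 272 0 y272 z272 (.cons c273 273 0 y273 z273 .nil)))))))))))))))))))))))))))))))))) (.cons 39 587634741 (.cons c242 242 2 y242 z242 (.cons c243 243 2 y243 z243 (.cons c244 244 0 y244 z244 (.cons c122 122 10 y122 z122 (.cons c123 123 0 y123 z123 (.cons c245 245 0 y245 z245 (.cons c246 246 0 y246 z246 (.cons c247 247 0 y247 z247 (.cons c125 125 2 y125 z125 (.cons c248 248 2 y248 z248 (.cons c126 126 0 y126 z126 .nil)))))))))))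 (.cons 40 621093025 (.cons c122 122 10 y122 z122 (.cons c142 142 2 y142 z142 (.cons c143 143 2 y143 z143 (.cons c144 144 0 y144 z144 (.cons c145 145 0 y145 z145 (.cons c146 146 0 y146 z146 .nil)))))) (.cons 41 587538614 (.cons c122 122 10 y122 z122 (.cons c123 123 0 y123 z123 (.cons c142 142 2 y142 z142 (.cons c143 143 2 y143 z143 (.cons c147 147 0 y147 z147 (.cons c149 149 0 y149 z149 (.cons c247 247 0 y247 z247 (.cons c282 282 0 y282 z282 (.cons c283 283 0 y283 z283 (.cons c144 144 0 y144 z144 (.cons c151 151 5 y151 z151 (.cons c145 145 0 y145 z145 (.cons c153 153 5 y153 z153 (.cons c146 146 0 y146 z146 (.cons c155 155 0 y155 z155 (.cons c284 284 5 y284 z284 (.cons c285 285 0 y285 z285 (.cons c125 125 2 y125 z125 (.cons c248 248 2 y248 z248 (.cons c126 126 0 y126 z126 (.cons c157 157 2 y157 z157 (.cons c158 158 2 y158 z158 (.cons c286 286 2 y286 z286 (.cons c159 159 0 y159 z159 (.cons c160 160 0 y160 z160 (.cons c163 163 0 y163 z163 (.cons c287 287 0 y287 z287 (.cons c164 164 0 y164 z164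 (.cons c165 165 0 y165 z165 (.cons c288 288 0 y288 z288 (.cons c166 166 0 y166 z166 (.cons c167 167 0 y167 z167 (.cons c289 289 0 y289 z289 (.cons c168 168 0 y168 z168 .nil)))))))))))))))))))))))))))))))))) (.cons 42 621092928 (.cons c122 122 10 y122 z122 .nil) (.cons 43 587538517 (.cons c122 122 10 y122 z122 (.cons c123 123 0 y123 z123 (.cons c247 247 0 y247 z247 (.cons c125 125 2 y125 z125 (.cons c248 248 2 y248 z248 (.cons c126 126 0 y126 z126 .nil)))))) (.cons 44 621089921 (.cons c135 135 0 y135 z135 (.cons c136 136 0 y136 z136 (.cons c137 137 0 y137 z137 (.cons c122 122 10 y122 z122 (.cons c143 143 2 y143 z143 (.cons c138 138 2 y138 z138 (.cons c139 139 2 y139 z139 (.cons c172 172 2 y172 z172 (.cons c145 145 0 y145 z145 (.cons c173 173 0 y173 z173 (.cons c146 146 0 y146 z146 .nil))))))))))) (.cons 45 587535510 (.cons c122 122 10 y122 z122 (.cons c123 123 0 y123 z123 (.cons c143 143 2 y143 z143 (.cons c149 149 0 y149 z149 (.cons c247 247 0 y247 z247 (.cons c283 283 0 y283 z283 (.cons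 c172 172 2 y172 z172 (.cons c174 174 0 y174 z174 (.cons c290 290 0 y290 z290 (.cons c145 145 0 y145 z145 (.cons c173 173 0 y173 z173 (.cons c153 153 5 y153 z153 (.cons c176 176 5 y176 z176 (.cons c146 146 0 y146 z146 (.cons c155 155 0 y155 z155 (.cons c284 284 5 y284 z284 (.cons c291 291 5 y291 z291 (.cons c285 285 0 y285 z285 (.cons c125 125 2 y125 z125 (.cons c248 248 2 y248 z248 (.cons c126 126 0 y126 z126 (.cons c158 158 2 y158 z158 (.cons c286 286 2 y286 z286 (.cons c160 160 0 y160 z160 (.cons c177 177 2 y177 z177 (.cons c292 292 2 y292 z292 (.cons c178 178 0 y178 z178 (.cons c165 165 0 y165 z165 (.cons c179 179 0 y179 z179 (.cons c288 288 0 y288 z288 (.cons c293 293 0 y293 z293 (.cons c166 166 0 y166 z166 (.cons c180 180 0 y180 z180 (.cons c167 167 0 y167 z167 (.cons c289 289 0 y289 z289 (.cons c168 168 0 y168 z168 .nil)))))))))))))))))))))))))))))))))))) (.cons 46 621089824 (.cons c140 140 0 y140 z140 (.cons c136 136 0 y136 z136 (.cons c137 137 0 y137 z137 (.cons c141 141 2 y141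 z141 (.cons c122 122 10 y122 z122 (.cons c139 139 2 y139 z139 .nil)))))) (.cons 47 587535413 (.cons c122 122 10 y122 z122 (.cons c123 123 0 y123 z123 (.cons c247 247 0 y247 z247 (.cons c125 125 2 y125 z125 (.cons c248 248 2 y248 z248 (.cons c126 126 0 y126 z126 .nil)))))) (.cons 48 618013857 (.cons c243 243 2 y243 z243 (.cons c182 182 2 y182 z182 (.cons c294 294 2 y294 z294 (.cons c244 244 0 y244 z244 (.cons c122 122 10 y122 z122 (.cons c183 183 2 y183 z183 (.cons c246 246 0 y246 z246 (.cons c184 184 0 y184 z184 (.cons c185 185 0 y185 z185 (.cons c186 186 0 y186 z186 (.cons c295 295 0 y295 z295 .nil))))))))))) (.cons 49 584459446 (.cons c243 243 2 y243 z243 (.cons c182 182 2 y182 z182 (.cons c294 294 2 y294 z294 (.cons c244 244 0 y244 z244 (.cons c122 122 10 y122 z122 (.cons c183 183 2 y183 z183 (.cons c246 246 0 y246 z246 (.cons c184 184 0 y184 z184 (.cons c185 185 0 y185 z185 (.cons c186 186 0 y186 z186 (.cons c295 295 0 y295 z295 .nil))))))))))) (.cons 50 618013760 (.cons c243 243 2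 y243 z243 (.cons c182 182 2 y182 z182 (.cons c294 294 2 y294 z294 (.cons c244 244 0 y244 z244 (.cons c122 122 10 y122 z122 (.cons c183 183 2 y183 z183 (.cons c246 246 0 y246 z246 (.cons c184 184 0 y184 z184 (.cons c185 185 0 y185 z185 (.cons c186 186 0 y186 z186 (.cons c295 295 0 y295 z295 .nil))))))))))) (.cons 51 584459349 (.cons c243 243 2 y243 z243 (.cons c182 182 2 y182 z182 (.cons c294 294 2 y294 z294 (.cons c244 244 0 y244 z244 (.cons c122 122 10 y122 z122 (.cons c183 183 2 y183 z183 (.cons c246 246 0 y246 z246 (.cons c184 184 0 y184 z184 (.cons c185 185 0 y185 z185 (.cons c186 186 0 y186 z186 (.cons c295 295 0 y295 z295 .nil))))))))))) (.cons 52 618010753 (.cons c252 252 0 y252 z252 (.cons c296 296 0 y296 z296 (.cons c253 253 0 y253 z253 (.cons c254 254 0 y254 z254 (.cons c297 297 0 y297 z297 (.cons c255 255 0 y255 z255 (.cons c256 256 0 y256 z256 (.cons c298 298 0 y298 z298 (.cons c257 257 0 y257 z257 (.cons c243 243 2 y243 z243 (.cons c294 294 2 y294 z294 (.cons c244 244 0 y244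 z244 (.cons c260 260 2 y260 z260 (.cons c261 261 2 y261 z261 (.cons c299 299 2 y299 z299 (.cons c262 262 0 y262 z262 (.cons c263 263 0 y263 z263 (.cons c135 135 0 y135 z135 (.cons c265 265 5 y265 z265 (.cons c136 136 0 y136 z136 (.cons c267 267 5 y267 z267 (.cons c137 137 0 y137 z137 (.cons c269 269 0 y269 z269 (.cons c300 300 5 y300 z300 (.cons c301 301 0 y301 z301 (.cons c122 122 10 y122 z122 (.cons c246 246 0 y246 z246 (.cons c138 138 2 y138 z138 (.cons c139 139 2 y139 z139 (.cons c271 271 0 y271 z271 (.cons c273 273 0 y273 z273 (.cons c295 295 0 y295 z295 (.cons c302 302 0 y302 z302 (.cons c303 303 0 y303 z303 .nil)))))))))))))))))))))))))))))))))) (.cons 53 584456342 (.cons c243 243 2 y243 z243 (.cons c294 294 2 y294 z294 (.cons c244 244 0 y244 z244 (.cons c122 122 10 y122 z122 (.cons c246 246 0 y246 z246 (.cons c295 295 0 y295 z295 .nil)))))) (.cons 54 618010656 (.cons c275 275 0 y275 z275 (.cons c254 254 0 y254 z254 (.cons c304 304 0 y304 z304 (.cons c297 297 0 y297 z297 (.cons c276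 276 0 y276 z276 (.cons c255 255 0 y255 z255 (.cons c256 256 0 y256 z256 (.cons c298 298 0 y298 z298 (.cons c257 257 0 y257 z257 (.cons c277 277 2 y277 z277 (.cons c305 305 2 y305 z305 (.cons c278 278 0 y278 z278 (.cons c243 243 2 y243 z243 (.cons c294 294 2 y294 z294 (.cons c244 244 0 y244 z244 (.cons c261 261 2 y261 z261 (.cons c299 299 2 y299 z299 (.cons c263 263 0 y263 z263 (.cons c140 140 0 y140 z140 (.cons c136 136 0 y136 z136 (.cons c279 279 5 y279 z279 (.cons c267 267 5 y267 z267 (.cons c137 137 0 y137 z137 (.cons c269 269 0 y269 z269 (.cons c306 306 5 y306 z306 (.cons c300 300 5 y300 z300 (.cons c301 301 0 y301 z301 (.cons c141 141 2 y141 z141 (.cons c281 281 0 y281 z281 (.cons c307 307 0 y307 z307 (.cons c122 122 10 y122 z122 (.cons c246 246 0 y246 z246 (.cons c139 139 2 y139 z139 (.cons c273 273 0 y273 z273 (.cons c295 295 0 y295 z295 (.cons c303 303 0 y303 z303 .nil)))))))))))))))))))))))))))))))))))) (.cons 55 584456245 (.cons c243 243 2 y243 z243 (.cons c294 294 2 y294 z294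 (.cons c244 244 0 y244 z244 (.cons c122 122 10 y122 z122 (.cons c246 246 0 y246 z246 (.cons c295 295 0 y295 z295 .nil)))))) (.cons 56 617914529 (.cons c122 122 10 y122 z122 (.cons c183 183 2 y183 z183 (.cons c142 142 2 y142 z142 (.cons c143 143 2 y143 z143 (.cons c224 224 2 y224 z224 (.cons c185 185 0 y185 z185 (.cons c186 186 0 y186 z186 (.cons c144 144 0 y144 z144 (.cons c145 145 0 y145 z145 (.cons c146 146 0 y146 z146 (.cons c225 225 0 y225 z225 .nil))))))))))) (.cons 57 584360118 (.cons c122 122 10 y122 z122 (.cons c183 183 2 y183 z183 (.cons c142 142 2 y142 z142 (.cons c143 143 2 y143 z143 (.cons c224 224 2 y224 z224 (.cons c185 185 0 y185 z185 (.cons c186 186 0 y186 z186 (.cons c144 144 0 y144 z144 (.cons c145 145 0 y145 z145 (.cons c146 146 0 y146 z146 (.cons c225 225 0 y225 z225 .nil))))))))))) (.cons 58 617914432 (.cons c122 122 10 y122 z122 (.cons c183 183 2 y183 z183 (.cons c224 224 2 y224 z224 (.cons c185 185 0 y185 z185 (.cons c186 186 0 y186 z186 (.cons c225 225 0 y225 z225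 .nil)))))) (.cons 59 584360021 (.cons c122 122 10 y122 z122 (.cons c183 183 2 y183 z183 (.cons c224 224 2 y224 z224 (.cons c185 185 0 y185 z185 (.cons c186 186 0 y186 z186 (.cons c225 225 0 y225 z225 .nil)))))) (.cons 60 617911425 (.cons c135 135 0 y135 z135 (.cons c136 136 0 y136 z136 (.cons c137 137 0 y137 z137 (.cons c122 122 10 y122 z122 (.cons c143 143 2 y143 z143 (.cons c138 138 2 y138 z138 (.cons c139 139 2 y139 z139 (.cons c172 172 2 y172 z172 (.cons c145 145 0 y145 z145 (.cons c173 173 0 y173 z173 (.cons c146 146 0 y146 z146 .nil))))))))))) (.cons 61 584357014 (.cons c122 122 10 y122 z122 (.cons c143 143 2 y143 z143 (.cons c172 172 2 y172 z172 (.cons c145 145 0 y145 z145 (.cons c173 173 0 y173 z173 (.cons c146 146 0 y146 z146 .nil)))))) (.cons 62 617911328 (.cons c140 140 0 y140 z140 (.cons c136 136 0 y136 z136 (.cons c137 137 0 y137 z137 (.cons c141 141 2 y141 z141 (.cons c122 122 10 y122 z122 (.cons c139 139 2 y139 z139 .nil)))))) (.cons 63 584356917 (.cons c122 122 10 y122 z122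 (.cons c308 308 5 y308 z308 (.cons c309 309 10 y309 z309 (.cons c310 310 5 y310 z310 .nil)))) .nil))))))))))))))))))))))))))))))))))))))))))))))))))))))))))))))))

theorem a33 : chkA TCf 722904225 E33 = true := by decide +kernel

theorem b33 : chkB row E33 = true := by decide +kernel

theorem d33 : chkC E33 = true := by decide +kernel

/-- windows 0:1 1:0 1:2 3:1 4:1 5:1 -/
def E35 : Es :=
  (.cons 0 722901121 (.cons c135 135 3 y135 z135 (.cons c136 136 3 y136 z136 (.cons c137 137 4 y137 z137 (.cons c122 122 8 y122 z122 (.cons c138 138 48 y138 z138 (.cons c139 139 48 y139 z139 .nil)))))) (.cons 1 689346710 (.cons c122 122 8 y122 z122 (.cons c123 123 0 y123 z123 (.cons c124 124 0 y124 z124 (.cons c125 125 0 y125 z125 (.cons c126 126 0 y126 z126 (.cons c127 127 0 y127 z127 .nil)))))) (.cons 2 722901024 (.cons c140 140 3 y140 z140 (.cons c128 128 3 y128 z128 (.cons c136 136 3 y136 z136 (.cons c137 137 4 y137 z137 (.cons c141 141 48 y141 z141 (.cons c129 129 48 y129 z129 (.cons c130 130 0 y130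 z130 (.cons c131 131 48 y131 z131 (.cons c132 132 3 y132 z132 (.cons c122 122 8 y122 z122 (.cons c139 139 48 y139 z139 .nil))))))))))) (.cons 3 689346613 (.cons c130 130 0 y130 z130 (.cons c131 131 48 y131 z131 (.cons c132 132 3 y132 z132 (.cons c122 122 8 y122 z122 (.cons c133 133 3 y133 z133 (.cons c123 123 3 y123 z123 (.cons c124 124 3 y124 z124 (.cons c134 134 48 y134 z134 (.cons c125 125 48 y125 z125 (.cons c126 126 0 y126 z126 (.cons c127 127 48 y127 z127 .nil))))))))))) (.cons 6 722897920 .nil (.cons 7 689343509 .nil (.cons 8 722801793 (.cons c135 135 3 y135 z135 (.cons c136 136 3 y136 z136 (.cons c137 137 4 y137 z137 (.cons c122 122 8 y122 z122 (.cons c143 143 48 y143 z143 (.cons c138 138 48 y138 z138 (.cons c139 139 48 y139 z139 (.cons c172 172 48 y172 z172 (.cons c145 145 3 y145 z145 (.cons c173 173 3 y173 z173 (.cons c146 146 0 y146 z146 .nil))))))))))) (.cons 9 689247382 (.cons c122 122 8 y122 z122 (.cons c123 123 0 y123 z123 (.cons c124 124 0 y124 z124 (.cons c143 143 48 y143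 z143 (.cons c149 149 0 y149 z149 (.cons c150 150 0 y150 z150 (.cons c172 172 48 y172 z172 (.cons c174 174 0 y174 z174 (.cons c175 175 0 y175 z175 (.cons c145 145 3 y145 z145 (.cons c173 173 3 y173 z173 (.cons c153 153 0 y153 z153 (.cons c176 176 0 y176 z176 (.cons c154 154 0 y154 z154 (.cons c146 146 0 y146 z146 (.cons c155 155 0 y155 z155 (.cons c156 156 0 y156 z156 (.cons c125 125 0 y125 z125 (.cons c126 126 0 y126 z126 (.cons c158 158 0 y158 z158 (.cons c160 160 0 y160 z160 (.cons c177 177 0 y177 z177 (.cons c178 178 0 y178 z178 (.cons c127 127 0 y127 z127 (.cons c162 162 0 y162 z162 (.cons c165 165 0 y165 z165 (.cons c179 179 0 y179 z179 (.cons c166 166 0 y166 z166 (.cons c180 180 0 y180 z180 (.cons c167 167 0 y167 z167 (.cons c168 168 0 y168 z168 (.cons c170 170 0 y170 z170 (.cons c181 181 0 y181 z181 (.cons c171 171 0 y171 z171 .nil)))))))))))))))))))))))))))))))))) (.cons 10 722801696 (.cons c140 140 3 y140 z140 (.cons c128 128 3 y128 z128 (.cons c136 136 3 y136 z136 (.cons c137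 137 4 y137 z137 (.cons c141 141 48 y141 z141 (.cons c129 129 48 y129 z129 (.cons c130 130 0 y130 z130 (.cons c131 131 48 y131 z131 (.cons c132 132 3 y132 z132 (.cons c122 122 8 y122 z122 (.cons c139 139 48 y139 z139 .nil))))))))))) (.cons 11 689247285 (.cons c130 130 0 y130 z130 (.cons c131 131 48 y131 z131 (.cons c132 132 3 y132 z132 (.cons c122 122 8 y122 z122 (.cons c133 133 3 y133 z133 (.cons c123 123 3 y123 z123 (.cons c124 124 3 y124 z124 (.cons c134 134 48 y134 z134 (.cons c125 125 48 y125 z125 (.cons c126 126 0 y126 z126 (.cons c127 127 48 y127 z127 .nil))))))))))) (.cons 14 722798592 .nil (.cons 15 689244181 .nil (.cons 16 719722625 (.cons c135 135 3 y135 z135 (.cons c136 136 3 y136 z136 (.cons c137 137 4 y137 z137 (.cons c122 122 8 y122 z122 (.cons c138 138 48 y138 z138 (.cons c139 139 48 y139 z139 .nil)))))) (.cons 17 686168214 (.cons c122 122 8 y122 z122 .nil) (.cons 18 719722528 (.cons c140 140 3 y140 z140 (.cons c128 128 3 y128 z128 (.cons c136 136 3 y136 z136 (.cons c137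 137 4 y137 z137 (.cons c141 141 48 y141 z141 (.cons c129 129 48 y129 z129 (.cons c130 130 0 y130 z130 (.cons c131 131 48 y131 z131 (.cons c132 132 3 y132 z132 (.cons c122 122 8 y122 z122 (.cons c139 139 48 y139 z139 .nil))))))))))) (.cons 19 686168117 (.cons c130 130 0 y130 z130 (.cons c131 131 48 y131 z131 (.cons c132 132 3 y132 z132 (.cons c122 122 8 y122 z122 (.cons c133 133 3 y133 z133 (.cons c134 134 48 y134 z134 .nil)))))) (.cons 22 719719424 .nil (.cons 23 686165013 .nil (.cons 24 719623297 (.cons c135 135 3 y135 z135 (.cons c136 136 3 y136 z136 (.cons c137 137 4 y137 z137 (.cons c122 122 8 y122 z122 (.cons c143 143 48 y143 z143 (.cons c138 138 48 y138 z138 (.cons c139 139 48 y139 z139 (.cons c172 172 48 y172 z172 (.cons c145 145 3 y145 z145 (.cons c173 173 3 y173 z173 (.cons c146 146 0 y146 z146 .nil))))))))))) (.cons 25 686068886 (.cons c122 122 8 y122 z122 (.cons c143 143 48 y143 z143 (.cons c172 172 48 y172 z172 (.cons c145 145 3 y145 z145 (.cons c173 173 3 y173 z173 (.cons c146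 146 0 y146 z146 .nil)))))) (.cons 26 719623200 (.cons c140 140 3 y140 z140 (.cons c128 128 3 y128 z128 (.cons c136 136 3 y136 z136 (.cons c137 137 4 y137 z137 (.cons c141 141 48 y141 z141 (.cons c129 129 48 y129 z129 (.cons c130 130 0 y130 z130 (.cons c131 131 48 y131 z131 (.cons c132 132 3 y132 z132 (.cons c122 122 8 y122 z122 (.cons c139 139 48 y139 z139 .nil))))))))))) (.cons 27 686068789 (.cons c130 130 0 y130 z130 (.cons c131 131 48 y131 z131 (.cons c132 132 3 y132 z132 (.cons c122 122 8 y122 z122 (.cons c133 133 3 y133 z133 (.cons c134 134 48 y134 z134 .nil)))))) (.cons 30 719620096 .nil (.cons 31 686065685 .nil (.cons 32 621189249 (.cons c249 249 0 y249 z249 (.cons c250 250 0 y250 z250 (.cons c251 251 0 y251 z251 (.cons c252 252 0 y252 z252 (.cons c253 253 0 y253 z253 (.cons c254 254 0 y254 z254 (.cons c255 255 0 y255 z255 (.cons c256 256 0 y256 z256 (.cons c257 257 0 y257 z257 (.cons c242 242 0 y242 z242 (.cons c258 258 0 y258 z258 (.cons c259 259 0 y259 z259 (.cons c243 243 0 y243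 z243 (.cons c244 244 0 y244 z244 (.cons c260 260 0 y260 z260 (.cons c261 261 0 y261 z261 (.cons c262 262 0 y262 z262 (.cons c263 263 0 y263 z263 (.cons c135 135 3 y135 z135 (.cons c264 264 0 y264 z264 (.cons c265 265 0 y265 z265 (.cons c136 136 3 y136 z136 (.cons c266 266 0 y266 z266 (.cons c267 267 0 y267 z267 (.cons c137 137 4 y137 z137 (.cons c268 268 0 y268 z268 (.cons c269 269 0 y269 z269 (.cons c122 122 8 y122 z122 (.cons c245 245 0 y245 z245 (.cons c246 246 0 y246 z246 (.cons c138 138 48 y138 z138 (.cons c139 139 48 y139 z139 (.cons c270 270 0 y270 z270 (.cons c271 271 0 y271 z271 (.cons c272 272 0 y272 z272 (.cons c273 273 0 y273 z273 .nil)))))))))))))))))))))))))))))))))))) (.cons 33 587634838 (.cons c242 242 0 y242 z242 (.cons c243 243 0 y243 z243 (.cons c244 244 0 y244 z244 (.cons c122 122 8 y122 z122 (.cons c123 123 0 y123 z123 (.cons c245 245 0 y245 z245 (.cons c246 246 0 y246 z246 (.cons c247 247 0 y247 z247 (.cons c125 125 0 y125 z125 (.cons c248 248 0 y248 z248 (.cons c126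 126 0 y126 z126 .nil))))))))))) (.cons 34 621189152 (.cons c274 274 0 y274 z274 (.cons c250 250 0 y250 z250 (.cons c251 251 0 y251 z251 (.cons c275 275 0 y275 z275 (.cons c254 254 0 y254 z254 (.cons c276 276 0 y276 z276 (.cons c255 255 0 y255 z255 (.cons c256 256 0 y256 z256 (.cons c257 257 0 y257 z257 (.cons c277 277 0 y277 z277 (.cons c278 278 0 y278 z278 (.cons c242 242 0 y242 z242 (.cons c259 259 0 y259 z259 (.cons c243 243 0 y243 z243 (.cons c244 244 0 y244 z244 (.cons c261 261 0 y261 z261 (.cons c263 263 0 y263 z263 (.cons c140 140 3 y140 z140 (.cons c136 136 3 y136 z136 (.cons c279 279 0 y279 z279 (.cons c266 266 0 y266 z266 (.cons c267 267 0 y267 z267 (.cons c137 137 4 y137 z137 (.cons c268 268 0 y268 z268 (.cons c269 269 0 y269 z269 (.cons c141 141 48 y141 z141 (.cons c280 280 0 y280 z280 (.cons c281 281 0 y281 z281 (.cons c122 122 8 y122 z122 (.cons c245 245 0 y245 z245 (.cons c246 246 0 y246 z246 (.cons c139 139 48 y139 z139 (.cons c272 272 0 y272 z272 (.cons c273 273 0 y273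 z273 .nil)))))))))))))))))))))))))))))))))) (.cons 35 587634741 (.cons c242 242 48 y242 z242 (.cons c243 243 48 y243 z243 (.cons c244 244 0 y244 z244 (.cons c122 122 8 y122 z122 (.cons c123 123 3 y123 z123 (.cons c245 245 3 y245 z245 (.cons c246 246 3 y246 z246 (.cons c247 247 3 y247 z247 (.cons c125 125 48 y125 z125 (.cons c248 248 48 y248 z248 (.cons c126 126 0 y126 z126 .nil))))))))))) (.cons 38 621186048 .nil (.cons 39 587631637 .nil (.cons 40 621089921 (.cons c135 135 3 y135 z135 (.cons c136 136 3 y136 z136 (.cons c137 137 4 y137 z137 (.cons c122 122 8 y122 z122 (.cons c143 143 48 y143 z143 (.cons c138 138 48 y138 z138 (.cons c139 139 48 y139 z139 (.cons c172 172 48 y172 z172 (.cons c145 145 3 y145 z145 (.cons c173 173 3 y173 z173 (.cons c146 146 0 y146 z146 .nil))))))))))) (.cons 41 587535510 (.cons c122 122 8 y122 z122 (.cons c123 123 0 y123 z123 (.cons c143 143 48 y143 z143 (.cons c149 149 0 y149 z149 (.cons c247 247 0 y247 z247 (.cons c283 283 0 y283 z283 (.cons c172 172 48 y172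 z172 (.cons c174 174 0 y174 z174 (.cons c290 290 0 y290 z290 (.cons c145 145 3 y145 z145 (.cons c173 173 3 y173 z173 (.cons c153 153 0 y153 z153 (.cons c176 176 0 y176 z176 (.cons c146 146 0 y146 z146 (.cons c155 155 0 y155 z155 (.cons c284 284 0 y284 z284 (.cons c291 291 0 y291 z291 (.cons c285 285 0 y285 z285 (.cons c125 125 0 y125 z125 (.cons c248 248 0 y248 z248 (.cons c126 126 0 y126 z126 (.cons c158 158 0 y158 z158 (.cons c286 286 0 y286 z286 (.cons c160 160 0 y160 z160 (.cons c177 177 0 y177 z177 (.cons c292 292 0 y292 z292 (.cons c178 178 0 y178 z178 (.cons c165 165 0 y165 z165 (.cons c179 179 0 y179 z179 (.cons c288 288 0 y288 z288 (.cons c293 293 0 y293 z293 (.cons c166 166 0 y166 z166 (.cons c180 180 0 y180 z180 (.cons c167 167 0 y167 z167 (.cons c289 289 0 y289 z289 (.cons c168 168 0 y168 z168 .nil)))))))))))))))))))))))))))))))))))) (.cons 42 621089824 (.cons c140 140 3 y140 z140 (.cons c136 136 3 y136 z136 (.cons c137 137 4 y137 z137 (.cons c141 141 48 y141 z141 (.cons c122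 122 8 y122 z122 (.cons c139 139 48 y139 z139 .nil)))))) (.cons 43 587535413 (.cons c122 122 8 y122 z122 (.cons c123 123 3 y123 z123 (.cons c247 247 3 y247 z247 (.cons c125 125 48 y125 z125 (.cons c248 248 48 y248 z248 (.cons c126 126 0 y126 z126 .nil)))))) (.cons 46 621086720 .nil (.cons 47 587532309 .nil (.cons 48 618010753 (.cons c252 252 0 y252 z252 (.cons c296 296 0 y296 z296 (.cons c253 253 0 y253 z253 (.cons c254 254 0 y254 z254 (.cons c297 297 0 y297 z297 (.cons c255 255 0 y255 z255 (.cons c256 256 0 y256 z256 (.cons c298 298 0 y298 z298 (.cons c257 257 0 y257 z257 (.cons c243 243 0 y243 z243 (.cons c294 294 0 y294 z294 (.cons c244 244 0 y244 z244 (.cons c260 260 0 y260 z260 (.cons c261 261 0 y261 z261 (.cons c299 299 0 y299 z299 (.cons c262 262 0 y262 z262 (.cons c263 263 0 y263 z263 (.cons c135 135 3 y135 z135 (.cons c265 265 0 y265 z265 (.cons c136 136 3 y136 z136 (.cons c267 267 0 y267 z267 (.cons c137 137 4 y137 z137 (.cons c269 269 0 y269 z269 (.cons c300 300 0 y300 z300 (.cons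 c301 301 0 y301 z301 (.cons c122 122 8 y122 z122 (.cons c246 246 0 y246 z246 (.cons c138 138 48 y138 z138 (.cons c139 139 48 y139 z139 (.cons c271 271 0 y271 z271 (.cons c273 273 0 y273 z273 (.cons c295 295 0 y295 z295 (.cons c302 302 0 y302 z302 (.cons c303 303 0 y303 z303 .nil)))))))))))))))))))))))))))))))))) (.cons 49 584456342 (.cons c243 243 0 y243 z243 (.cons c294 294 0 y294 z294 (.cons c244 244 0 y244 z244 (.cons c122 122 8 y122 z122 (.cons c246 246 0 y246 z246 (.cons c295 295 0 y295 z295 .nil)))))) (.cons 50 618010656 (.cons c275 275 0 y275 z275 (.cons c254 254 0 y254 z254 (.cons c304 304 0 y304 z304 (.cons c297 297 0 y297 z297 (.cons c276 276 0 y276 z276 (.cons c255 255 0 y255 z255 (.cons c256 256 0 y256 z256 (.cons c298 298 0 y298 z298 (.cons c257 257 0 y257 z257 (.cons c277 277 0 y277 z277 (.cons c305 305 0 y305 z305 (.cons c278 278 0 y278 z278 (.cons c243 243 0 y243 z243 (.cons c294 294 0 y294 z294 (.cons c244 244 0 y244 z244 (.cons c261 261 0 y261 z261 (.cons c299 299 0 y299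 z299 (.cons c263 263 0 y263 z263 (.cons c140 140 3 y140 z140 (.cons c136 136 3 y136 z136 (.cons c279 279 0 y279 z279 (.cons c267 267 0 y267 z267 (.cons c137 137 4 y137 z137 (.cons c269 269 0 y269 z269 (.cons c306 306 0 y306 z306 (.cons c300 300 0 y300 z300 (.cons c301 301 0 y301 z301 (.cons c141 141 48 y141 z141 (.cons c281 281 0 y281 z281 (.cons c307 307 0 y307 z307 (.cons c122 122 8 y122 z122 (.cons c246 246 0 y246 z246 (.cons c139 139 48 y139 z139 (.cons c273 273 0 y273 z273 (.cons c295 295 0 y295 z295 (.cons c303 303 0 y303 z303 .nil)))))))))))))))))))))))))))))))))))) (.cons 51 584456245 (.cons c243 243 48 y243 z243 (.cons c294 294 48 y294 z294 (.cons c244 244 0 y244 z244 (.cons c122 122 8 y122 z122 (.cons c246 246 3 y246 z246 (.cons c295 295 3 y295 z295 .nil)))))) (.cons 54 618007552 .nil (.cons 55 584453141 .nil (.cons 56 617911425 (.cons c135 135 3 y135 z135 (.cons c136 136 3 y136 z136 (.cons c137 137 4 y137 z137 (.cons c122 122 8 y122 z122 (.cons c143 143 48 y143 z143 (.cons c138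 138 48 y138 z138 (.cons c139 139 48 y139 z139 (.cons c172 172 48 y172 z172 (.cons c145 145 3 y145 z145 (.cons c173 173 3 y173 z173 (.cons c146 146 0 y146 z146 .nil))))))))))) (.cons 57 584357014 (.cons c122 122 8 y122 z122 (.cons c143 143 48 y143 z143 (.cons c172 172 48 y172 z172 (.cons c145 145 3 y145 z145 (.cons c173 173 3 y173 z173 (.cons c146 146 0 y146 z146 .nil)))))) (.cons 58 617911328 (.cons c140 140 3 y140 z140 (.cons c136 136 3 y136 z136 (.cons c137 137 4 y137 z137 (.cons c141 141 48 y141 z141 (.cons c122 122 8 y122 z122 (.cons c139 139 48 y139 z139 .nil)))))) (.cons 59 584356917 (.cons c122 122 8 y122 z122 (.cons c308 308 0 y308 z308 (.cons c309 309 56 y309 z309 (.cons c310 310 0 y310 z310 .nil)))) (.cons 62 617908224 .nil (.cons 63 584353813 (.cons c316 316 0 y316 z316 (.cons c310 310 0 y310 z310 (.cons c317 317 0 y317 z317 (.cons c318 318 0 y318 z318 (.cons c319 319 0 y319 z319 (.cons c320 320 0 y320 z320 .nil)))))) .nil))))))))))))))))))))))))))))))))))))))))))))))))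

theorem a35 : chkA TCf 722901121 E35 = true := by decide +kernel

theorem b35 : chkB row E35 = true := by decide +kernel

theorem d35 : chkC E35 = true := by decide +kernel

/-- windows 0:0 0:2 2:1 3:1 4:0 4:2 -/
def E50 : Es :=
  (.cons 0 621192256 (.cons c242 242 3 y242 z242 (.cons c243 243 3 y243 z243 (.cons c244 244 4 y244 z244 (.cons c122 122 8 y122 z122 (.cons c245 245 48 y245 z245 (.cons c246 246 48 y246 z246 .nil)))))) (.cons 1 587637845 (.cons c242 242 3 y242 z242 (.cons c243 243 3 y243 z243 (.cons c244 244 4 y244 z244 (.cons c122 122 8 y122 z122 (.cons c123 123 48 y123 z123 (.cons c245 245 48 y245 z245 (.cons c246 246 48 y246 z246 (.cons c247 247 48 y247 z247 (.cons c125 125 3 y125 z125 (.cons c248 248 3 y248 z248 (.cons c126 126 0 y126 z126 .nil))))))))))) (.cons 3 587638516 .nil (.cons 4 621189152 (.cons c274 274 0 y274 z274 (.cons c250 250 0 y250 z250 (.cons c251 251 0 y251 z251 (.cons c275 275 0 y275 z275 (.cons c254 254 0 y254 z254 (.cons c276 276 0 y276 z276 (.cons c255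 255 0 y255 z255 (.cons c256 256 0 y256 z256 (.cons c257 257 0 y257 z257 (.cons c277 277 0 y277 z277 (.cons c278 278 0 y278 z278 (.cons c242 242 3 y242 z242 (.cons c259 259 0 y259 z259 (.cons c243 243 3 y243 z243 (.cons c244 244 4 y244 z244 (.cons c261 261 0 y261 z261 (.cons c263 263 0 y263 z263 (.cons c140 140 0 y140 z140 (.cons c136 136 0 y136 z136 (.cons c279 279 0 y279 z279 (.cons c266 266 0 y266 z266 (.cons c267 267 0 y267 z267 (.cons c137 137 0 y137 z137 (.cons c268 268 0 y268 z268 (.cons c269 269 0 y269 z269 (.cons c141 141 0 y141 z141 (.cons c280 280 0 y280 z280 (.cons c281 281 0 y281 z281 (.cons c122 122 8 y122 z122 (.cons c245 245 48 y245 z245 (.cons c246 246 48 y246 z246 (.cons c139 139 0 y139 z139 (.cons c272 272 0 y272 z272 (.cons c273 273 0 y273 z273 .nil)))))))))))))))))))))))))))))))))) (.cons 5 587634741 (.cons c242 242 3 y242 z242 (.cons c243 243 3 y243 z243 (.cons c244 244 4 y244 z244 (.cons c122 122 8 y122 z122 (.cons c123 123 48 y123 z123 (.cons c245 245 48 y245 z245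 (.cons c246 246 48 y246 z246 (.cons c247 247 48 y247 z247 (.cons c125 125 3 y125 z125 (.cons c248 248 3 y248 z248 (.cons c126 126 0 y126 z126 .nil))))))))))) (.cons 7 587635412 .nil (.cons 8 621092928 (.cons c122 122 8 y122 z122 .nil) (.cons 9 587538517 (.cons c122 122 8 y122 z122 (.cons c123 123 48 y123 z123 (.cons c247 247 48 y247 z247 (.cons c125 125 3 y125 z125 (.cons c248 248 3 y248 z248 (.cons c126 126 0 y126 z126 .nil)))))) (.cons 11 587539188 .nil (.cons 12 621089824 (.cons c140 140 0 y140 z140 (.cons c136 136 0 y136 z136 (.cons c137 137 0 y137 z137 (.cons c141 141 0 y141 z141 (.cons c122 122 8 y122 z122 (.cons c139 139 0 y139 z139 .nil)))))) (.cons 13 587535413 (.cons c122 122 8 y122 z122 (.cons c123 123 48 y123 z123 (.cons c247 247 48 y247 z247 (.cons c125 125 3 y125 z125 (.cons c248 248 3 y248 z248 (.cons c126 126 0 y126 z126 .nil)))))) (.cons 15 587536084 .nil (.cons 16 618013760 (.cons c243 243 3 y243 z243 (.cons c182 182 3 y182 z182 (.cons c294 294 3 y294 z294 (.cons c244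 244 4 y244 z244 (.cons c122 122 8 y122 z122 (.cons c183 183 3 y183 z183 (.cons c246 246 48 y246 z246 (.cons c184 184 48 y184 z184 (.cons c185 185 48 y185 z185 (.cons c186 186 0 y186 z186 (.cons c295 295 48 y295 z295 .nil))))))))))) (.cons 17 584459349 (.cons c243 243 3 y243 z243 (.cons c182 182 3 y182 z182 (.cons c294 294 3 y294 z294 (.cons c244 244 4 y244 z244 (.cons c122 122 8 y122 z122 (.cons c183 183 3 y183 z183 (.cons c246 246 48 y246 z246 (.cons c184 184 48 y184 z184 (.cons c185 185 48 y185 z185 (.cons c186 186 0 y186 z186 (.cons c295 295 48 y295 z295 .nil))))))))))) (.cons 19 584460020 .nil (.cons 20 618010656 (.cons c275 275 0 y275 z275 (.cons c254 254 0 y254 z254 (.cons c304 304 0 y304 z304 (.cons c297 297 0 y297 z297 (.cons c276 276 0 y276 z276 (.cons c255 255 0 y255 z255 (.cons c256 256 0 y256 z256 (.cons c298 298 0 y298 z298 (.cons c257 257 0 y257 z257 (.cons c277 277 0 y277 z277 (.cons c305 305 0 y305 z305 (.cons c278 278 0 y278 z278 (.cons c243 243 3 y243 z243 (.cons c294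 294 3 y294 z294 (.cons c244 244 4 y244 z244 (.cons c261 261 0 y261 z261 (.cons c299 299 0 y299 z299 (.cons c263 263 0 y263 z263 (.cons c140 140 0 y140 z140 (.cons c136 136 0 y136 z136 (.cons c279 279 0 y279 z279 (.cons c267 267 0 y267 z267 (.cons c137 137 0 y137 z137 (.cons c269 269 0 y269 z269 (.cons c306 306 0 y306 z306 (.cons c300 300 0 y300 z300 (.cons c301 301 0 y301 z301 (.cons c141 141 0 y141 z141 (.cons c281 281 0 y281 z281 (.cons c307 307 0 y307 z307 (.cons c122 122 8 y122 z122 (.cons c246 246 48 y246 z246 (.cons c139 139 0 y139 z139 (.cons c273 273 0 y273 z273 (.cons c295 295 48 y295 z295 (.cons c303 303 0 y303 z303 .nil)))))))))))))))))))))))))))))))))))) (.cons 21 584456245 (.cons c243 243 3 y243 z243 (.cons c294 294 3 y294 z294 (.cons c244 244 4 y244 z244 (.cons c122 122 8 y122 z122 (.cons c246 246 48 y246 z246 (.cons c295 295 48 y295 z295 .nil)))))) (.cons 23 584456916 .nil (.cons 24 617914432 (.cons c122 122 8 y122 z122 (.cons c183 183 3 y183 z183 (.cons c224 224 3 y224 z224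 (.cons c185 185 48 y185 z185 (.cons c186 186 0 y186 z186 (.cons c225 225 48 y225 z225 .nil)))))) (.cons 25 584360021 (.cons c122 122 8 y122 z122 (.cons c183 183 3 y183 z183 (.cons c224 224 3 y224 z224 (.cons c185 185 48 y185 z185 (.cons c186 186 0 y186 z186 (.cons c225 225 48 y225 z225 .nil)))))) (.cons 27 584360692 .nil (.cons 28 617911328 (.cons c140 140 0 y140 z140 (.cons c136 136 0 y136 z136 (.cons c137 137 0 y137 z137 (.cons c141 141 0 y141 z141 (.cons c122 122 8 y122 z122 (.cons c139 139 0 y139 z139 .nil)))))) (.cons 29 584356917 (.cons c122 122 8 y122 z122 (.cons c308 308 0 y308 z308 (.cons c309 309 11 y309 z309 (.cons c310 310 0 y310 z310 .nil)))) (.cons 31 584357588 (.cons c311 311 0 y311 z311 (.cons c312 312 0 y312 z312 (.cons c313 313 0 y313 z313 (.cons c314 314 0 y314 z314 (.cons c315 315 0 y315 z315 (.cons c310 310 0 y310 z310 .nil)))))) (.cons 48 516301888 .nil (.cons 49 482747477 .nil (.cons 51 482748148 .nil (.cons 52 516298784 .nil (.cons 53 482744373 .nil (.cons 55 482745044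 .nil (.cons 56 516202560 .nil (.cons 57 482648149 .nil (.cons 59 482648820 .nil (.cons 60 516199456 .nil (.cons 61 482645045 (.cons c370 370 0 y370 z370 (.cons c310 310 0 y310 z310 (.cons c371 371 0 y371 z371 (.cons c372 372 0 y372 z372 (.cons c373 373 0 y373 z373 (.cons c374 374 0 y374 z374 .nil)))))) (.cons 63 482645716 (.cons c370 370 0 y370 z370 (.cons c310 310 0 y310 z310 (.cons c371 371 0 y371 z371 (.cons c372 372 0 y372 z372 (.cons c373 373 0 y373 z373 (.cons c374 374 0 y374 z374 .nil)))))) .nil))))))))))))))))))))))))))))))))))))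

theorem a50 : chkA TCf 621192256 E50 = true := by decide +kernel

theorem b50 : chkB row E50 = true := by decide +kernel

theorem d50 : chkC E50 = true := by decide +kernel

/-- windows 0:1 1:1 2:0 2:1 3:1 4:2 -/
def E61 : Es :=
  (.cons 0 617914529 (.cons c122 122 1 y122 z122 (.cons c183 183 30 y183 z183 (.cons c142 142 30 y142 z142 (.cons c143 143 30 y143 z143 (.cons c224 224 30 y224 z224 (.cons c185 185 1440 y185 z185 (.cons c186 186 64 y186 z186 (.cons c144 144 1440 y144 z144 (.cons c145 145 1440 y145 z145 (.cons c146 146 512 y146 z146 (.cons c225 225 1440 y225 z225 .nil))))))))))) (.cons 1 584360118 (.cons c122 122 1 y122 z122 (.cons c183 183 30 y183 z183 (.cons c142 142 30 y142 z142 (.cons c143 143 30 y143 z143 (.cons c224 224 30 y224 z224 (.cons c185 185 1440 y185 z185 (.cons c186 186 64 y186 z186 (.cons c144 144 1440 y144 z144 (.cons c145 145 1440 y145 z145 (.cons c146 146 512 y146 z146 (.cons c225 225 1440 y225 z225 .nil))))))))))) (.cons 2 617914432 (.cons c122 122 1 y122 z122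 (.cons c183 183 30 y183 z183 (.cons c224 224 30 y224 z224 (.cons c185 185 1440 y185 z185 (.cons c186 186 64 y186 z186 (.cons c225 225 1440 y225 z225 .nil)))))) (.cons 3 584360021 (.cons c122 122 1 y122 z122 (.cons c183 183 30 y183 z183 (.cons c224 224 30 y224 z224 (.cons c185 185 1440 y185 z185 (.cons c186 186 64 y186 z186 (.cons c225 225 1440 y225 z225 .nil)))))) (.cons 4 617911425 (.cons c135 135 1440 y135 z135 (.cons c136 136 1440 y136 z136 (.cons c137 137 0 y137 z137 (.cons c122 122 1 y122 z122 (.cons c143 143 30 y143 z143 (.cons c138 138 30 y138 z138 (.cons c139 139 30 y139 z139 (.cons c172 172 30 y172 z172 (.cons c145 145 1440 y145 z145 (.cons c173 173 1440 y173 z173 (.cons c146 146 512 y146 z146 .nil))))))))))) (.cons 5 584357014 (.cons c122 122 1 y122 z122 (.cons c143 143 30 y143 z143 (.cons c172 172 30 y172 z172 (.cons c145 145 1440 y145 z145 (.cons c173 173 1440 y173 z173 (.cons c146 146 512 y146 z146 .nil)))))) (.cons 6 617911328 (.cons c140 140 1440 y140 z140 (.cons c136 136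 1440 y136 z136 (.cons c137 137 0 y137 z137 (.cons c141 141 30 y141 z141 (.cons c122 122 1 y122 z122 (.cons c139 139 30 y139 z139 .nil)))))) (.cons 7 584356917 (.cons c122 122 1 y122 z122 (.cons c308 308 0 y308 z308 (.cons c309 309 31 y309 z309 (.cons c310 310 0 y310 z310 .nil)))) (.cons 12 617812097 .nil (.cons 13 584257686 .nil (.cons 14 617812000 .nil (.cons 15 584257589 (.cons c323 323 0 y323 z323 (.cons c324 324 0 y324 z324 (.cons c325 325 0 y325 z325 (.cons c310 310 0 y310 z310 (.cons c326 326 0 y326 z326 (.cons c327 327 0 y327 z327 .nil)))))) (.cons 16 614736033 .nil (.cons 17 581181622 .nil (.cons 18 614735936 .nil (.cons 19 581181525 .nil (.cons 20 614732929 .nil (.cons 21 581178518 .nil (.cons 22 614732832 .nil (.cons 23 581178421 (.cons c310 310 0 y310 z310 (.cons c330 330 0 y330 z330 (.cons c331 331 0 y331 z331 (.cons c332 332 0 y332 z332 (.cons c333 333 0 y333 z333 (.cons c334 334 0 y334 z334 .nil)))))) (.cons 28 614633601 .nil (.cons 29 581079190 .nil (.cons 30 614633504 .nil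 (.cons 31 581079093 (.cons c323 323 0 y323 z323 (.cons c324 324 0 y324 z324 (.cons c325 325 0 y325 z325 (.cons c310 310 0 y310 z310 (.cons c331 331 0 y331 z331 (.cons c326 326 0 y326 z326 (.cons c327 327 0 y327 z327 (.cons c360 360 0 y360 z360 (.cons c333 333 0 y333 z333 (.cons c361 361 0 y361 z361 (.cons c334 334 0 y334 z334 .nil))))))))))) (.cons 32 516202657 .nil (.cons 33 482648246 .nil (.cons 34 516202560 .nil (.cons 35 482648149 .nil (.cons 36 516199553 .nil (.cons 37 482645142 .nil (.cons 38 516199456 .nil (.cons 39 482645045 (.cons c370 370 0 y370 z370 (.cons c310 310 0 y310 z310 (.cons c371 371 0 y371 z371 (.cons c372 372 0 y372 z372 (.cons c373 373 0 y373 z373 (.cons c374 374 0 y374 z374 .nil)))))) (.cons 44 516100225 .nil (.cons 45 482545814 .nil (.cons 46 516100128 .nil (.cons 47 482545717 (.cons c323 323 0 y323 z323 (.cons c324 324 0 y324 z324 (.cons c325 325 0 y325 z325 (.cons c310 310 0 y310 z310 (.cons c326 326 0 y326 z326 (.cons c327 327 0 y327 z327 .nil)))))) (.cons 48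 513024161 .nil (.cons 49 479469750 .nil (.cons 50 513024064 .nil (.cons 51 479469653 .nil (.cons 52 513021057 .nil (.cons 53 479466646 .nil (.cons 54 513020960 .nil (.cons 55 479466549 (.cons c310 310 0 y310 z310 (.cons c371 371 0 y371 z371 (.cons c330 330 0 y330 z330 (.cons c331 331 0 y331 z331 (.cons c412 412 0 y412 z412 (.cons c373 373 0 y373 z373 (.cons c374 374 0 y374 z374 (.cons c332 332 0 y332 z332 (.cons c333 333 0 y333 z333 (.cons c334 334 0 y334 z334 (.cons c413 413 0 y413 z413 .nil))))))))))) (.cons 60 512921729 .nil (.cons 61 479367318 .nil (.cons 62 512921632 .nil (.cons 63 479367221 (.cons c323 323 0 y323 z323 (.cons c324 324 0 y324 z324 (.cons c325 325 0 y325 z325 (.cons c310 310 0 y310 z310 (.cons c331 331 0 y331 z331 (.cons c326 326 0 y326 z326 (.cons c327 327 0 y327 z327 (.cons c360 360 0 y360 z360 (.cons c333 333 0 y333 z333 (.cons c361 361 0 y361 z361 (.cons c334 334 0 y334 z334 .nil))))))))))) .nil))))))))))))))))))))))))))))))))))))))))))))))))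

theorem a61 : chkA TCf 617914529 E61 = true := by decide +kernel

theorem b61 : chkB row E61 = true := by decide +kernel

theorem d61 : chkC E61 = true := by decide +kernel

/-- windows 0:0 0:2 2:0 2:1 3:1 4:2 -/
def E62 : Es :=
  (.cons 0 617914432 (.cons c122 122 1 y122 z122 (.cons c183 183 6 y183 z183 (.cons c224 224 6 y224 z224 (.cons c185 185 40 y185 z185 (.cons c186 186 16 y186 z186 (.cons c225 225 40 y225 z225 .nil)))))) (.cons 1 584360021 (.cons c122 122 1 y122 z122 (.cons c183 183 6 y183 z183 (.cons c224 224 6 y224 z224 (.cons c185 185 40 y185 z185 (.cons c186 186 16 y186 z186 (.cons c225 225 40 y225 z225 .nil)))))) (.cons 3 584360692 .nil (.cons 4 617911328 (.cons c140 140 0 y140 z140 (.cons c136 136 0 y136 z136 (.cons c137 137 0 y137 z137 (.cons c141 141 0 y141 z141 (.cons c122 122 1 y122 z122 (.cons c139 139 0 y139 z139 .nil)))))) (.cons 5 584356917 (.cons c122 122 1 y122 z122 (.cons c308 308 0 y308 z308 (.cons c309 309 7 y309 z309 (.cons c310 310 0 y310 z310 .nil)))) (.cons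 7 584357588 (.cons c311 311 0 y311 z311 (.cons c312 312 0 y312 z312 (.cons c313 313 0 y313 z313 (.cons c314 314 0 y314 z314 (.cons c315 315 0 y315 z315 (.cons c310 310 0 y310 z310 .nil)))))) (.cons 12 617812000 .nil (.cons 13 584257589 (.cons c323 323 0 y323 z323 (.cons c324 324 0 y324 z324 (.cons c325 325 0 y325 z325 (.cons c310 310 0 y310 z310 (.cons c326 326 0 y326 z326 (.cons c327 327 0 y327 z327 .nil)))))) (.cons 15 584258260 (.cons c311 311 0 y311 z311 (.cons c312 312 0 y312 z312 (.cons c313 313 0 y313 z313 (.cons c314 314 0 y314 z314 (.cons c315 315 0 y315 z315 (.cons c310 310 0 y310 z310 .nil)))))) (.cons 16 614735936 .nil (.cons 17 581181525 .nil (.cons 19 581182196 .nil (.cons 20 614732832 .nil (.cons 21 581178421 (.cons c310 310 0 y310 z310 (.cons c330 330 0 y330 z330 (.cons c331 331 0 y331 z331 (.cons c332 332 0 y332 z332 (.cons c333 333 0 y333 z333 (.cons c334 334 0 y334 z334 .nil)))))) (.cons 23 581179092 (.cons c311 311 0 y311 z311 (.cons c335 335 0 y335 z335 (.cons c336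 336 0 y336 z336 (.cons c312 312 0 y312 z312 (.cons c313 313 0 y313 z313 (.cons c337 337 0 y337 z337 (.cons c338 338 0 y338 z338 (.cons c339 339 0 y339 z339 (.cons c340 340 0 y340 z340 (.cons c341 341 0 y341 z341 (.cons c342 342 0 y342 z342 (.cons c343 343 0 y343 z343 (.cons c344 344 0 y344 z344 (.cons c345 345 0 y345 z345 (.cons c346 346 0 y346 z346 (.cons c347 347 0 y347 z347 (.cons c348 348 0 y348 z348 (.cons c349 349 0 y349 z349 (.cons c314 314 0 y314 z314 (.cons c315 315 0 y315 z315 (.cons c310 310 0 y310 z310 (.cons c350 350 16 y350 z350 (.cons c351 351 16 y351 z351 (.cons c352 352 16 y352 z352 (.cons c353 353 16 y353 z353 (.cons c330 330 0 y330 z330 (.cons c331 331 0 y331 z331 (.cons c354 354 7 y354 z354 (.cons c355 355 7 y355 z355 (.cons c332 332 0 y332 z332 (.cons c356 356 7 y356 z356 (.cons c357 357 7 y357 z357 (.cons c333 333 0 y333 z333 (.cons c358 358 0 y358 z358 (.cons c359 359 0 y359 z359 (.cons c334 334 0 y334 z334 .nil)))))))))))))))))))))))))))))))))))) (.cons 28 614633504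 .nil (.cons 29 581079093 (.cons c323 323 0 y323 z323 (.cons c324 324 0 y324 z324 (.cons c325 325 0 y325 z325 (.cons c310 310 0 y310 z310 (.cons c331 331 0 y331 z331 (.cons c326 326 0 y326 z326 (.cons c327 327 0 y327 z327 (.cons c360 360 0 y360 z360 (.cons c333 333 0 y333 z333 (.cons c361 361 0 y361 z361 (.cons c334 334 0 y334 z334 .nil))))))))))) (.cons 31 581079764 (.cons c311 311 0 y311 z311 (.cons c336 336 0 y336 z336 (.cons c312 312 0 y312 z312 (.cons c313 313 0 y313 z313 (.cons c338 338 0 y338 z338 (.cons c340 340 0 y340 z340 (.cons c362 362 0 y362 z362 (.cons c363 363 0 y363 z363 (.cons c342 342 0 y342 z342 (.cons c364 364 0 y364 z364 (.cons c343 343 0 y343 z343 (.cons c346 346 0 y346 z346 (.cons c365 365 0 y365 z365 (.cons c347 347 0 y347 z347 (.cons c366 366 0 y366 z366 (.cons c348 348 0 y348 z348 (.cons c349 349 0 y349 z349 (.cons c314 314 0 y314 z314 (.cons c315 315 0 y315 z315 (.cons c310 310 0 y310 z310 (.cons c352 352 16 y352 z352 (.cons c353 353 16 y353 z353 (.cons c331 331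 0 y331 z331 (.cons c367 367 16 y367 z367 (.cons c368 368 16 y368 z368 (.cons c360 360 0 y360 z360 (.cons c356 356 7 y356 z356 (.cons c357 357 7 y357 z357 (.cons c369 369 7 y369 z369 (.cons c333 333 0 y333 z333 (.cons c361 361 0 y361 z361 (.cons c358 358 0 y358 z358 (.cons c359 359 0 y359 z359 (.cons c334 334 0 y334 z334 .nil)))))))))))))))))))))))))))))))))) (.cons 32 516202560 .nil (.cons 33 482648149 .nil (.cons 35 482648820 .nil (.cons 36 516199456 .nil (.cons 37 482645045 (.cons c370 370 0 y370 z370 (.cons c310 310 0 y310 z310 (.cons c371 371 0 y371 z371 (.cons c372 372 0 y372 z372 (.cons c373 373 0 y373 z373 (.cons c374 374 0 y374 z374 .nil)))))) (.cons 39 482645716 (.cons c370 370 0 y370 z370 (.cons c310 310 0 y310 z310 (.cons c371 371 0 y371 z371 (.cons c372 372 0 y372 z372 (.cons c373 373 0 y373 z373 (.cons c374 374 0 y374 z374 .nil)))))) (.cons 44 516100128 .nil (.cons 45 482545717 (.cons c323 323 0 y323 z323 (.cons c324 324 0 y324 z324 (.cons c325 325 0 y325 z325 (.cons c310 310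 0 y310 z310 (.cons c326 326 0 y326 z326 (.cons c327 327 0 y327 z327 .nil)))))) (.cons 47 482546388 (.cons c310 310 0 y310 z310 .nil) (.cons 48 513024064 .nil (.cons 49 479469653 .nil (.cons 51 479470324 .nil (.cons 52 513020960 .nil (.cons 53 479466549 (.cons c310 310 0 y310 z310 (.cons c371 371 0 y371 z371 (.cons c330 330 0 y330 z330 (.cons c331 331 0 y331 z331 (.cons c412 412 0 y412 z412 (.cons c373 373 0 y373 z373 (.cons c374 374 0 y374 z374 (.cons c332 332 0 y332 z332 (.cons c333 333 0 y333 z333 (.cons c334 334 0 y334 z334 (.cons c413 413 0 y413 z413 .nil))))))))))) (.cons 55 479467220 (.cons c310 310 0 y310 z310 (.cons c371 371 0 y371 z371 (.cons c330 330 0 y330 z330 (.cons c331 331 0 y331 z331 (.cons c412 412 0 y412 z412 (.cons c373 373 0 y373 z373 (.cons c374 374 0 y374 z374 (.cons c332 332 0 y332 z332 (.cons c333 333 0 y333 z333 (.cons c334 334 0 y334 z334 (.cons c413 413 0 y413 z413 .nil))))))))))) (.cons 60 512921632 .nil (.cons 61 479367221 (.cons c323 323 0 y323 z323 (.cons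 c324 324 0 y324 z324 (.cons c325 325 0 y325 z325 (.cons c310 310 0 y310 z310 (.cons c331 331 0 y331 z331 (.cons c326 326 0 y326 z326 (.cons c327 327 0 y327 z327 (.cons c360 360 0 y360 z360 (.cons c333 333 0 y333 z333 (.cons c361 361 0 y361 z361 (.cons c334 334 0 y334 z334 .nil))))))))))) (.cons 63 479367892 (.cons c310 310 0 y310 z310 (.cons c331 331 0 y331 z331 (.cons c360 360 0 y360 z360 (.cons c333 333 0 y333 z333 (.cons c361 361 0 y361 z361 (.cons c334 334 0 y334 z334 .nil)))))) .nil))))))))))))))))))))))))))))))))))))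

theorem a62 : chkA TCf 617914432 E62 = true := by decide +kernel

theorem b62 : chkB row E62 = true := by decide +kernel

theorem d62 : chkC E62 = true := by decide +kernel

end Vale.Agent.P032.H532.T
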