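import Vale.Agent.P032.H532.TTab

/-!
# Tile windows: closures 7 .. 65
-/

set_option maxRecDepth 20000

namespace Vale.Agent.P032.H532.T

/-- windows 0:2 2:0 2:1 3:2 5:1 0:0 -/
def E7 : Es :=
  (.cons 0 22488322 (.cons c10 10 1 y10 z10 (.cons c11 11 536870914 y11 z11 (.cons c12 12 20 y12 z12 (.cons c13 13 3221225512 y13 z13 (.cons c40 40 20 y40 z40 (.cons c41 41 3221225512 y41 z41 (.cons c16 16 16777280 y16 z16 (.cons c17 17 4328521856 y17 z17 (.cons c18 18 256 y18 z18 (.cons c19 19 8589935104 y19 z19 (.cons c20 20 66560 y20 z20 (.cons c21 21 2048 y21 z21 (.cons c22 22 151552 y22 z22 (.cons c23 23 40960 y23 z23 (.cons c42 42 151552 y42 z42 (.cons c43 43 40960 y43 z43 (.cons c24 24 66560 y24 z24 (.cons c25 25 151552 y25 z25 (.cons c28 28 340000768 y28 z28 (.cons c29 29 134742016 y29 z29 (.cons c30 30 9437184 y30 z30 (.cons c31 31 2097152 y31 z31 (.cons c33 33 340000768 y33 z33 (.cons c34 34 9437184 y34 z34 (.cons c44 44 16777280 y44 z44 (.cons c45 45 4328521856 y45 z45 (.cons c46 46 340000768 y46 z46 (.cons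 c47 47 134742016 y47 z47 (.cons c48 48 340000768 y48 z48 (.cons c35 35 536870914 y35 z35 (.cons c36 36 3221225512 y36 z36 (.cons c49 49 3221225512 y49 z49 (.cons c38 38 4328521856 y38 z38 (.cons c39 39 8589935104 y39 z39 .nil)))))))))))))))))))))))))))))))))) (.cons 2 22488225 (.cons c68 68 66560 y68 z68 (.cons c10 10 1 y10 z10 (.cons c11 11 536870914 y11 z11 (.cons c69 69 66560 y69 z69 (.cons c20 20 66560 y20 z20 (.cons c21 21 2048 y21 z21 (.cons c24 24 66560 y24 z24 (.cons c70 70 0 y70 z70 (.cons c71 71 536870914 y71 z71 (.cons c72 72 536870914 y72 z72 (.cons c35 35 536870914 y35 z35 .nil))))))))))) (.cons 6 22485121 .nil (.cons 8 22388994 .nil (.cons 10 22388897 .nil (.cons 14 22385793 .nil (.cons 16 19309826 (.cons c10 10 1 y10 z10 (.cons c12 12 20 y12 z12 (.cons c40 40 20 y40 z40 (.cons c16 16 16777280 y16 z16 (.cons c18 18 256 y18 z18 (.cons c44 44 16777280 y44 z44 .nil)))))) (.cons 18 19309729 (.cons c68 68 66560 y68 z68 (.cons c10 10 1 y10 z10 (.cons c69 69 66560 y69 z69 (.cons c70 70 0 y70 z70 (.cons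 c71 71 536870914 y71 z71 (.cons c72 72 536870914 y72 z72 .nil)))))) (.cons 22 19306625 .nil (.cons 24 19210498 .nil (.cons 26 19210401 .nil (.cons 30 19207297 .nil (.cons 32 726082818 (.cons c10 10 1 y10 z10 (.cons c11 11 536870914 y11 z11 (.cons c12 12 20 y12 z12 (.cons c13 13 3221225512 y13 z13 (.cons c51 51 536870914 y51 z51 (.cons c52 52 3221225512 y52 z52 (.cons c40 40 20 y40 z40 (.cons c41 41 3221225512 y41 z41 (.cons c60 60 3221225512 y60 z60 (.cons c16 16 16777280 y16 z16 (.cons c17 17 4328521856 y17 z17 (.cons c18 18 256 y18 z18 (.cons c19 19 8589935104 y19 z19 (.cons c53 53 4328521856 y53 z53 (.cons c54 54 8589935104 y54 z54 (.cons c20 20 66560 y20 z20 (.cons c21 21 2048 y21 z21 (.cons c22 22 151552 y22 z22 (.cons c23 23 40960 y23 z23 (.cons c42 42 151552 y42 z42 (.cons c43 43 40960 y43 z43 (.cons c28 28 340000768 y28 z28 (.cons c29 29 134742016 y29 z29 (.cons c30 30 9437184 y30 z30 (.cons c31 31 2097152 y31 z31 (.cons c44 44 16777280 y44 z44 (.cons c45 45 4328521856 y45 z45 (.cons c61 61 4328521856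 y61 z61 (.cons c46 46 340000768 y46 z46 (.cons c47 47 134742016 y47 z47 (.cons c55 55 66560 y55 z55 (.cons c56 56 151552 y56 z56 (.cons c62 62 151552 y62 z62 (.cons c58 58 340000768 y58 z58 (.cons c59 59 9437184 y59 z59 (.cons c63 63 340000768 y63 z63 .nil)))))))))))))))))))))))))))))))))))) (.cons 33 692528407 .nil (.cons 34 726082721 (.cons c10 10 1 y10 z10 (.cons c11 11 536870914 y11 z11 (.cons c51 51 536870914 y51 z51 (.cons c20 20 66560 y20 z20 (.cons c21 21 2048 y21 z21 (.cons c55 55 66560 y55 z55 .nil)))))) (.cons 35 692528310 .nil (.cons 38 726079617 .nil (.cons 39 692525206 .nil (.cons 40 725983490 .nil (.cons 41 692429079 (.cons c64 64 340000768 y64 z64 (.cons c65 65 151552 y65 z65 (.cons c66 66 4328521856 y66 z66 (.cons c67 67 3221225512 y67 z67 .nil)))) (.cons 42 725983393 .nil (.cons 43 692428982 .nil (.cons 46 725980289 .nil (.cons 47 692425878 .nil (.cons 48 722904322 (.cons c10 10 1 y10 z10 (.cons c12 12 20 y12 z12 (.cons c40 40 20 y40 z40 (.cons c16 16 16777280 y16 z16 (.cons c18 18 256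 y18 z18 (.cons c44 44 16777280 y44 z44 .nil)))))) (.cons 49 689349911 .nil (.cons 50 722904225 (.cons c10 10 1 y10 z10 (.cons c120 120 4328521856 y120 z120 (.cons c121 121 218133 y121 z121 (.cons c122 122 4328521856 y122 z122 .nil)))) (.cons 51 689349814 (.cons c122 122 4328521856 y122 z122 (.cons c123 123 0 y123 z123 (.cons c124 124 0 y124 z124 (.cons c125 125 4328521856 y125 z125 (.cons c126 126 340000768 y126 z126 (.cons c127 127 4328521856 y127 z127 .nil)))))) (.cons 54 722901121 (.cons c135 135 4328521856 y135 z135 (.cons c136 136 4328521856 y136 z136 (.cons c137 137 4328521856 y137 z137 (.cons c122 122 4328521856 y122 z122 (.cons c138 138 4328521856 y138 z138 (.cons c139 139 4328521856 y139 z139 .nil)))))) (.cons 55 689346710 (.cons c122 122 4328521856 y122 z122 (.cons c123 123 0 y123 z123 (.cons c124 124 0 y124 z124 (.cons c125 125 4328521856 y125 z125 (.cons c126 126 340000768 y126 z126 (.cons c127 127 4328521856 y127 z127 .nil)))))) (.cons 56 722804994 .nil (.cons 57 689250583 .nil (.cons 58 722804897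 (.cons c122 122 4328521856 y122 z122 (.cons c142 142 4328521856 y142 z142 (.cons c143 143 4328521856 y143 z143 (.cons c144 144 0 y144 z144 (.cons c145 145 0 y145 z145 (.cons c146 146 3221225512 y146 z146 .nil)))))) (.cons 59 689250486 (.cons c122 122 4328521856 y122 z122 (.cons c123 123 0 y123 z123 (.cons c124 124 0 y124 z124 (.cons c142 142 4328521856 y142 z142 (.cons c143 143 4328521856 y143 z143 (.cons c147 147 349438208 y147 z147 (.cons c148 148 349438208 y148 z148 (.cons c149 149 349438208 y149 z149 (.cons c150 150 349438208 y150 z150 (.cons c144 144 0 y144 z144 (.cons c151 151 537089047 y151 z151 (.cons c152 152 537089047 y152 z152 (.cons c145 145 0 y145 z145 (.cons c153 153 537089047 y153 z153 (.cons c154 154 537089047 y154 z154 (.cons c146 146 3221225512 y146 z146 (.cons c155 155 0 y155 z155 (.cons c156 156 0 y156 z156 (.cons c125 125 4328521856 y125 z125 (.cons c126 126 340000768 y126 z126 (.cons c157 157 4330619008 y157 z157 (.cons c158 158 4330619008 y158 z158 (.cons c159 159 340000768 y159 z159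 (.cons c160 160 340000768 y160 z160 (.cons c127 127 4328521856 y127 z127 (.cons c161 161 4330619008 y161 z161 (.cons c162 162 4330619008 y162 z162 (.cons c163 163 3221268520 y163 z163 (.cons c164 164 0 y164 z164 (.cons c165 165 3221268520 y165 z165 (.cons c166 166 0 y166 z166 (.cons c167 167 3221225512 y167 z167 (.cons c168 168 151552 y168 z168 (.cons c169 169 3221268520 y169 z169 (.cons c170 170 3221268520 y170 z170 (.cons c171 171 3221225512 y171 z171 .nil)))))))))))))))))))))))))))))))))))) (.cons 62 722801793 (.cons c135 135 4328521856 y135 z135 (.cons c136 136 4328521856 y136 z136 (.cons c137 137 4328521856 y137 z137 (.cons c122 122 4328521856 y122 z122 (.cons c143 143 4328521856 y143 z143 (.cons c138 138 4328521856 y138 z138 (.cons c139 139 4328521856 y139 z139 (.cons c172 172 4328521856 y172 z172 (.cons c145 145 4328521856 y145 z145 (.cons c173 173 4328521856 y173 z173 (.cons c146 146 3221225512 y146 z146 .nil))))))))))) (.cons 63 689247382 (.cons c122 122 4328521856 y122 z122 (.cons c123 123 0 y123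 z123 (.cons c124 124 0 y124 z124 (.cons c143 143 4328521856 y143 z143 (.cons c149 149 349438208 y149 z149 (.cons c150 150 349438208 y150 z150 (.cons c172 172 4328521856 y172 z172 (.cons c174 174 349438208 y174 z174 (.cons c175 175 349438208 y175 z175 (.cons c145 145 4328521856 y145 z145 (.cons c173 173 4328521856 y173 z173 (.cons c153 153 537089047 y153 z153 (.cons c176 176 537089047 y176 z176 (.cons c154 154 537089047 y154 z154 (.cons c146 146 3221225512 y146 z146 (.cons c155 155 0 y155 z155 (.cons c156 156 0 y156 z156 (.cons c125 125 4328521856 y125 z125 (.cons c126 126 340000768 y126 z126 (.cons c158 158 4330619008 y158 z158 (.cons c160 160 340000768 y160 z160 (.cons c177 177 4330619008 y177 z177 (.cons c178 178 340000768 y178 z178 (.cons c127 127 4328521856 y127 z127 (.cons c162 162 4330619008 y162 z162 (.cons c165 165 3221268520 y165 z165 (.cons c179 179 3221268520 y179 z179 (.cons c166 166 0 y166 z166 (.cons c180 180 0 y180 z180 (.cons c167 167 3221225512 y167 z167 (.cons c168 168 151552 y168 z168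 (.cons c170 170 3221268520 y170 z170 (.cons c181 181 3221268520 y181 z181 (.cons c171 171 3221225512 y171 z171 .nil)))))))))))))))))))))))))))))))))) .nil))))))))))))))))))))))))))))))))))))

theorem a7 : chkA TCf 22488322 E7 = true := by decide +kernel

theorem b7 : chkB row E7 = true := by decide +kernel

theorem d7 : chkC E7 = true := by decide +kernel

/-- windows 0:1 1:1 2:2 4:0 4:2 0:0 -/
def E12 : Es :=
  (.cons 0 19409057 (.cons c68 68 5 y68 z68 (.cons c10 10 2 y10 z10 (.cons c69 69 5 y69 z69 (.cons c70 70 8 y70 z70 (.cons c71 71 48 y71 z71 (.cons c72 72 48 y72 z72 .nil)))))) (.cons 2 19408960 .nil (.cons 4 19405953 .nil (.cons 6 19405856 .nil (.cons 8 19309729 (.cons c68 68 5 y68 z68 (.cons c10 10 2 y10 z10 (.cons c69 69 5 y69 z69 (.cons c70 70 8 y70 z70 (.cons c71 71 48 y71 z71 (.cons c72 72 48 y72 z72 .nil)))))) (.cons 10 19309632 .nil (.cons 12 19306625 .nil (.cons 14 19306528 .nil (.cons 24 16131233 .nil (.cons 26 16131136 .nil (.cons 28 16128129 .nil (.cons 30 16128032 .nil (.cons 32 723003553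 (.cons c10 10 2 y10 z10 (.cons c114 114 0 y114 z114 (.cons c118 118 0 y118 z118 (.cons c116 116 0 y116 z116 (.cons c119 119 0 y119 z119 (.cons c117 117 0 y117 z117 .nil)))))) (.cons 33 689449142 .nil (.cons 34 723003456 .nil (.cons 35 689449045 .nil (.cons 36 723000449 .nil (.cons 37 689446038 .nil (.cons 38 723000352 .nil (.cons 39 689445941 .nil (.cons 40 722904225 (.cons c10 10 2 y10 z10 (.cons c120 120 0 y120 z120 (.cons c121 121 7 y121 z121 (.cons c122 122 0 y122 z122 .nil)))) (.cons 41 689349814 (.cons c122 122 0 y122 z122 (.cons c123 123 0 y123 z123 (.cons c124 124 0 y124 z124 (.cons c125 125 0 y125 z125 (.cons c126 126 0 y126 z126 (.cons c127 127 0 y127 z127 .nil)))))) (.cons 42 722904128 (.cons c128 128 0 y128 z128 (.cons c129 129 0 y129 z129 (.cons c130 130 0 y130 z130 (.cons c131 131 0 y131 z131 (.cons c132 132 0 y132 z132 (.cons c122 122 0 y122 z122 .nil)))))) (.cons 43 689349717 (.cons c130 130 0 y130 z130 (.cons c131 131 0 y131 z131 (.cons c132 132 0 y132 z132 (.cons c122 122 0 y122 z122 (.cons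 c133 133 0 y133 z133 (.cons c123 123 0 y123 z123 (.cons c124 124 0 y124 z124 (.cons c134 134 0 y134 z134 (.cons c125 125 0 y125 z125 (.cons c126 126 0 y126 z126 (.cons c127 127 0 y127 z127 .nil))))))))))) (.cons 44 722901121 (.cons c135 135 0 y135 z135 (.cons c136 136 0 y136 z136 (.cons c137 137 0 y137 z137 (.cons c122 122 0 y122 z122 (.cons c138 138 0 y138 z138 (.cons c139 139 0 y139 z139 .nil)))))) (.cons 45 689346710 (.cons c122 122 0 y122 z122 (.cons c123 123 0 y123 z123 (.cons c124 124 0 y124 z124 (.cons c125 125 0 y125 z125 (.cons c126 126 0 y126 z126 (.cons c127 127 0 y127 z127 .nil)))))) (.cons 46 722901024 (.cons c140 140 0 y140 z140 (.cons c128 128 0 y128 z128 (.cons c136 136 0 y136 z136 (.cons c137 137 0 y137 z137 (.cons c141 141 0 y141 z141 (.cons c129 129 0 y129 z129 (.cons c130 130 0 y130 z130 (.cons c131 131 0 y131 z131 (.cons c132 132 0 y132 z132 (.cons c122 122 0 y122 z122 (.cons c139 139 0 y139 z139 .nil))))))))))) (.cons 47 689346613 (.cons c130 130 0 y130 z130 (.cons c131 131 0 y131 z131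 (.cons c132 132 0 y132 z132 (.cons c122 122 0 y122 z122 (.cons c133 133 0 y133 z133 (.cons c123 123 0 y123 z123 (.cons c124 124 0 y124 z124 (.cons c134 134 0 y134 z134 (.cons c125 125 0 y125 z125 (.cons c126 126 0 y126 z126 (.cons c127 127 0 y127 z127 .nil))))))))))) (.cons 56 719725729 (.cons c182 182 0 y182 z182 (.cons c122 122 0 y122 z122 (.cons c183 183 0 y183 z183 (.cons c184 184 0 y184 z184 (.cons c185 185 0 y185 z185 (.cons c186 186 0 y186 z186 .nil)))))) (.cons 57 686171318 (.cons c182 182 0 y182 z182 (.cons c122 122 0 y122 z122 (.cons c183 183 0 y183 z183 (.cons c184 184 0 y184 z184 (.cons c185 185 0 y185 z185 (.cons c186 186 0 y186 z186 .nil)))))) (.cons 58 719725632 (.cons c191 191 0 y191 z191 (.cons c192 192 0 y192 z192 (.cons c193 193 0 y193 z193 (.cons c194 194 0 y194 z194 (.cons c195 195 0 y195 z195 (.cons c182 182 0 y182 z182 (.cons c128 128 0 y128 z128 (.cons c196 196 0 y196 z196 (.cons c197 197 7 y197 z197 (.cons c198 198 7 y198 z198 (.cons c199 199 0 y199 z199 (.cons c129 129 0 y129 z129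 (.cons c200 200 0 y200 z200 (.cons c130 130 0 y130 z130 (.cons c131 131 0 y131 z131 (.cons c201 201 0 y201 z201 (.cons c202 202 0 y202 z202 (.cons c203 203 8 y203 z203 (.cons c204 204 8 y204 z204 (.cons c205 205 0 y205 z205 (.cons c206 206 0 y206 z206 (.cons c207 207 8 y207 z207 (.cons c208 208 0 y208 z208 (.cons c209 209 8 y209 z209 (.cons c210 210 0 y210 z210 (.cons c211 211 0 y211 z211 (.cons c132 132 0 y132 z132 (.cons c122 122 0 y122 z122 (.cons c212 212 0 y212 z212 (.cons c183 183 0 y183 z183 (.cons c213 213 7 y213 z213 (.cons c184 184 0 y184 z184 (.cons c214 214 7 y214 z214 (.cons c185 185 0 y185 z185 (.cons c215 215 0 y215 z215 (.cons c186 186 0 y186 z186 .nil)))))))))))))))))))))))))))))))))))) (.cons 59 686171221 (.cons c193 193 0 y193 z193 (.cons c194 194 0 y194 z194 (.cons c195 195 0 y195 z195 (.cons c182 182 0 y182 z182 (.cons c216 216 0 y216 z216 (.cons c130 130 0 y130 z130 (.cons c131 131 0 y131 z131 (.cons c201 201 0 y201 z201 (.cons c202 202 0 y202 z202 (.cons c206 206 0 y206 z206 (.cons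 c207 207 8 y207 z207 (.cons c208 208 0 y208 z208 (.cons c209 209 8 y209 z209 (.cons c210 210 0 y210 z210 (.cons c211 211 0 y211 z211 (.cons c132 132 0 y132 z132 (.cons c122 122 0 y122 z122 (.cons c212 212 0 y212 z212 (.cons c183 183 0 y183 z183 (.cons c133 133 0 y133 z133 (.cons c217 217 0 y217 z217 (.cons c213 213 7 y213 z213 (.cons c184 184 0 y184 z184 (.cons c214 214 7 y214 z214 (.cons c185 185 0 y185 z185 (.cons c215 215 0 y215 z215 (.cons c186 186 0 y186 z186 (.cons c218 218 7 y218 z218 (.cons c219 219 0 y219 z219 (.cons c134 134 0 y134 z134 (.cons c220 220 0 y220 z220 (.cons c221 221 8 y221 z221 (.cons c222 222 8 y222 z222 (.cons c223 223 0 y223 z223 .nil)))))))))))))))))))))))))))))))))) (.cons 60 719722625 (.cons c135 135 0 y135 z135 (.cons c136 136 0 y136 z136 (.cons c137 137 0 y137 z137 (.cons c122 122 0 y122 z122 (.cons c138 138 0 y138 z138 (.cons c139 139 0 y139 z139 .nil)))))) (.cons 61 686168214 (.cons c122 122 0 y122 z122 .nil) (.cons 62 719722528 (.cons c140 140 0 y140 z140 (.cons c128 128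 0 y128 z128 (.cons c136 136 0 y136 z136 (.cons c137 137 0 y137 z137 (.cons c141 141 0 y141 z141 (.cons c129 129 0 y129 z129 (.cons c130 130 0 y130 z130 (.cons c131 131 0 y131 z131 (.cons c132 132 0 y132 z132 (.cons c122 122 0 y122 z122 (.cons c139 139 0 y139 z139 .nil))))))))))) (.cons 63 686168117 (.cons c130 130 0 y130 z130 (.cons c131 131 0 y131 z131 (.cons c132 132 0 y132 z132 (.cons c122 122 0 y122 z122 (.cons c133 133 0 y133 z133 (.cons c134 134 0 y134 z134 .nil)))))) .nil))))))))))))))))))))))))))))))))))))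

theorem a12 : chkA TCf 19409057 E12 = true := by decide +kernel

theorem b12 : chkB row E12 = true := by decide +kernel

theorem d12 : chkC E12 = true := by decide +kernel

/-- windows 0:2 2:1 3:0 3:1 4:2 0:0 -/
def E13 : Es :=
  (.cons 0 19312930 (.cons c74 74 39 y74 z74 (.cons c4 4 39 y4 z4 (.cons c101 101 39 y101 z101 (.cons c75 75 8 y75 z75 (.cons c10 10 16 y10 z10 (.cons c12 12 39 y12 z12 (.cons c77 77 1472 y77 z77 (.cons c14 14 1472 y14 z14 (.cons c16 16 1472 y16 z16 (.cons c18 18 512 y18 z18 (.cons c102 102 1472 y102 z102 .nil))))))))))) (.cons 2 19312833 (.cons c79 79 0 y79 z79 (.cons c103 103 0 y103 z103 (.cons c80 80 0 y80 z80 (.cons c74 74 39 y74 z74 (.cons c101 101 39 y101 z101 (.cons c75 75 8 y75 z75 (.cons c81 81 0 y81 z81 (.cons c104 104 0 y104 z104 (.cons c82 82 0 y82 z82 (.cons c86 86 0 y86 z86 (.cons c105 105 0 y105 z105 (.cons c87 87 0 y87 z87 (.cons c88 88 0 y88 z88 (.cons c89 89 0 y89 z89 (.cons c106 106 0 y106 z106 (.cons c107 107 0 y107 z107 (.cons c90 90 0 y90 z90 (.cons c91 91 0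 y91 z91 (.cons c68 68 0 y68 z68 (.cons c93 93 0 y93 z93 (.cons c10 10 16 y10 z10 (.cons c77 77 1472 y77 z77 (.cons c108 108 0 y108 z108 (.cons c102 102 1472 y102 z102 (.cons c69 69 0 y69 z69 (.cons c95 95 0 y95 z95 (.cons c109 109 0 y109 z109 (.cons c70 70 0 y70 z70 (.cons c97 97 0 y97 z97 (.cons c71 71 0 y71 z71 (.cons c72 72 0 y72 z72 (.cons c99 99 0 y99 z99 (.cons c100 100 0 y100 z100 (.cons c110 110 0 y110 z110 (.cons c111 111 0 y111 z111 (.cons c112 112 0 y112 z112 .nil)))))))))))))))))))))))))))))))))))) (.cons 4 19309826 (.cons c10 10 16 y10 z10 (.cons c12 12 39 y12 z12 (.cons c40 40 39 y40 z40 (.cons c16 16 1472 y16 z16 (.cons c18 18 512 y18 z18 (.cons c44 44 1472 y44 z44 .nil)))))) (.cons 6 19309729 (.cons c68 68 0 y68 z68 (.cons c10 10 16 y10 z10 (.cons c69 69 0 y69 z69 (.cons c70 70 0 y70 z70 (.cons c71 71 0 y71 z71 (.cons c72 72 0 y72 z72 .nil)))))) (.cons 12 19210498 .nil (.cons 14 19210401 .nil (.cons 16 16134434 .nil (.cons 18 16134337 .nil (.cons 20 16131330 .nil (.cons 22 16131233 .nil (.cons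 28 16032002 .nil (.cons 30 16031905 .nil (.cons 32 722907426 (.cons c74 74 39 y74 z74 (.cons c4 4 39 y4 z4 (.cons c101 101 39 y101 z101 (.cons c75 75 8 y75 z75 (.cons c10 10 16 y10 z10 (.cons c12 12 39 y12 z12 (.cons c77 77 1472 y77 z77 (.cons c14 14 1472 y14 z14 (.cons c16 16 1472 y16 z16 (.cons c18 18 512 y18 z18 (.cons c102 102 1472 y102 z102 .nil))))))))))) (.cons 33 689353015 .nil (.cons 34 722907329 (.cons c74 74 39 y74 z74 (.cons c101 101 39 y101 z101 (.cons c75 75 8 y75 z75 (.cons c10 10 16 y10 z10 (.cons c77 77 1472 y77 z77 (.cons c102 102 1472 y102 z102 .nil)))))) (.cons 35 689352918 .nil (.cons 36 722904322 (.cons c10 10 16 y10 z10 (.cons c12 12 39 y12 z12 (.cons c40 40 39 y40 z40 (.cons c16 16 1472 y16 z16 (.cons c18 18 512 y18 z18 (.cons c44 44 1472 y44 z44 .nil)))))) (.cons 37 689349911 .nil (.cons 38 722904225 (.cons c10 10 16 y10 z10 (.cons c120 120 0 y120 z120 (.cons c121 121 55 y121 z121 (.cons c122 122 0 y122 z122 .nil)))) (.cons 39 689349814 (.cons c122 122 0 y122 z122 (.cons c123 123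 0 y123 z123 (.cons c124 124 0 y124 z124 (.cons c125 125 0 y125 z125 (.cons c126 126 0 y126 z126 (.cons c127 127 0 y127 z127 .nil)))))) (.cons 44 722804994 .nil (.cons 45 689250583 .nil (.cons 46 722804897 (.cons c122 122 0 y122 z122 (.cons c142 142 0 y142 z142 (.cons c143 143 0 y143 z143 (.cons c144 144 0 y144 z144 (.cons c145 145 0 y145 z145 (.cons c146 146 0 y146 z146 .nil)))))) (.cons 47 689250486 (.cons c122 122 0 y122 z122 (.cons c123 123 0 y123 z123 (.cons c124 124 0 y124 z124 (.cons c142 142 0 y142 z142 (.cons c143 143 0 y143 z143 (.cons c147 147 512 y147 z147 (.cons c148 148 512 y148 z148 (.cons c149 149 512 y149 z149 (.cons c150 150 512 y150 z150 (.cons c144 144 0 y144 z144 (.cons c151 151 1535 y151 z151 (.cons c152 152 1535 y152 z152 (.cons c145 145 0 y145 z145 (.cons c153 153 1535 y153 z153 (.cons c154 154 1535 y154 z154 (.cons c146 146 0 y146 z146 (.cons c155 155 0 y155 z155 (.cons c156 156 0 y156 z156 (.cons c125 125 0 y125 z125 (.cons c126 126 0 y126 z126 (.cons c157 157 0 y157 z157 (.cons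 c158 158 0 y158 z158 (.cons c159 159 0 y159 z159 (.cons c160 160 0 y160 z160 (.cons c127 127 0 y127 z127 (.cons c161 161 0 y161 z161 (.cons c162 162 0 y162 z162 (.cons c163 163 0 y163 z163 (.cons c164 164 0 y164 z164 (.cons c165 165 0 y165 z165 (.cons c166 166 0 y166 z166 (.cons c167 167 0 y167 z167 (.cons c168 168 0 y168 z168 (.cons c169 169 0 y169 z169 (.cons c170 170 0 y170 z170 (.cons c171 171 0 y171 z171 .nil)))))))))))))))))))))))))))))))))))) (.cons 48 719728930 .nil (.cons 49 686174519 .nil (.cons 50 719728833 .nil (.cons 51 686174422 .nil (.cons 52 719725826 .nil (.cons 53 686171415 .nil (.cons 54 719725729 (.cons c182 182 0 y182 z182 (.cons c122 122 0 y122 z122 (.cons c183 183 0 y183 z183 (.cons c184 184 0 y184 z184 (.cons c185 185 0 y185 z185 (.cons c186 186 0 y186 z186 .nil)))))) (.cons 55 686171318 (.cons c182 182 0 y182 z182 (.cons c122 122 0 y122 z122 (.cons c183 183 0 y183 z183 (.cons c184 184 0 y184 z184 (.cons c185 185 0 y185 z185 (.cons c186 186 0 y186 z186 .nil)))))) (.cons 60 719626498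 .nil (.cons 61 686072087 .nil (.cons 62 719626401 (.cons c122 122 0 y122 z122 (.cons c183 183 0 y183 z183 (.cons c142 142 0 y142 z142 (.cons c143 143 0 y143 z143 (.cons c224 224 0 y224 z224 (.cons c185 185 0 y185 z185 (.cons c186 186 0 y186 z186 (.cons c144 144 0 y144 z144 (.cons c145 145 0 y145 z145 (.cons c146 146 0 y146 z146 (.cons c225 225 0 y225 z225 .nil))))))))))) (.cons 63 686071990 (.cons c122 122 0 y122 z122 (.cons c183 183 0 y183 z183 (.cons c142 142 0 y142 z142 (.cons c143 143 0 y143 z143 (.cons c224 224 0 y224 z224 (.cons c185 185 0 y185 z185 (.cons c186 186 0 y186 z186 (.cons c144 144 0 y144 z144 (.cons c145 145 0 y145 z145 (.cons c146 146 0 y146 z146 (.cons c225 225 0 y225 z225 .nil))))))))))) .nil))))))))))))))))))))))))))))))))))))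

theorem a13 : chkA TCf 19312930 E13 = true := by decide +kernel

theorem b13 : chkB row E13 = true := by decide +kernel

theorem d13 : chkC E13 = true := by decide +kernel

/-- windows 0:2 2:1 3:1 4:0 4:1 5:1 -/
def E26 : Es :=
  (.cons 0 723006754 (.cons c73 73 771 y73 z73 (.cons c74 74 771 y74 z74 (.cons c75 75 4 y75 z75 (.cons c10 10 8 y10 z10 (.cons c114 114 240 y114 z114 (.cons c76 76 240 y76 z76 (.cons c77 77 240 y77 z77 (.cons c118 118 240 y118 z118 (.cons c116 116 771 y116 z116 (.cons c119 119 771 y119 z119 (.cons c117 117 1024 y117 z117 .nil))))))))))) (.cons 1 689452343 .nil (.cons 2 723006657 (.cons c73 73 771 y73 z73 (.cons c74 74 771 y74 z74 (.cons c75 75 4 y75 z75 (.cons c10 10 8 y10 z10 (.cons c114 114 240 y114 z114 (.cons c76 76 240 y76 z76 (.cons c77 77 240 y77 z77 (.cons c118 118 240 y118 z118 (.cons c116 116 771 y116 z116 (.cons c119 119 771 y119 z119 (.cons c117 117 1024 y117 z117 .nil))))))))))) (.cons 3 689452246 .nil (.cons 4 723003650 (.cons c10 10 8 y10 z10 (.cons c114 114 240 y114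 z114 (.cons c118 118 240 y118 z118 (.cons c116 116 771 y116 z116 (.cons c119 119 771 y119 z119 (.cons c117 117 1024 y117 z117 .nil)))))) (.cons 5 689449239 .nil (.cons 6 723003553 (.cons c10 10 8 y10 z10 (.cons c114 114 240 y114 z114 (.cons c118 118 240 y118 z118 (.cons c116 116 771 y116 z116 (.cons c119 119 771 y119 z119 (.cons c117 117 1024 y117 z117 .nil)))))) (.cons 7 689449142 .nil (.cons 8 722907426 (.cons c74 74 771 y74 z74 (.cons c4 4 771 y4 z4 (.cons c101 101 771 y101 z101 (.cons c75 75 4 y75 z75 (.cons c10 10 8 y10 z10 (.cons c12 12 771 y12 z12 (.cons c77 77 240 y77 z77 (.cons c14 14 240 y14 z14 (.cons c16 16 240 y16 z16 (.cons c18 18 0 y18 z18 (.cons c102 102 240 y102 z102 .nil))))))))))) (.cons 9 689353015 .nil (.cons 10 722907329 (.cons c74 74 771 y74 z74 (.cons c101 101 771 y101 z101 (.cons c75 75 4 y75 z75 (.cons c10 10 8 y10 z10 (.cons c77 77 240 y77 z77 (.cons c102 102 240 y102 z102 .nil)))))) (.cons 11 689352918 .nil (.cons 12 722904322 (.cons c10 10 8 y10 z10 (.cons c12 12 771 y12 z12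 (.cons c40 40 771 y40 z40 (.cons c16 16 240 y16 z16 (.cons c18 18 0 y18 z18 (.cons c44 44 240 y44 z44 .nil)))))) (.cons 13 689349911 .nil (.cons 14 722904225 (.cons c10 10 8 y10 z10 (.cons c120 120 0 y120 z120 (.cons c121 121 779 y121 z121 (.cons c122 122 0 y122 z122 .nil)))) (.cons 15 689349814 (.cons c122 122 0 y122 z122 (.cons c123 123 0 y123 z123 (.cons c124 124 0 y124 z124 (.cons c125 125 0 y125 z125 (.cons c126 126 0 y126 z126 (.cons c127 127 0 y127 z127 .nil)))))) (.cons 24 719728930 .nil (.cons 25 686174519 .nil (.cons 26 719728833 .nil (.cons 27 686174422 .nil (.cons 28 719725826 .nil (.cons 29 686171415 .nil (.cons 30 719725729 (.cons c182 182 0 y182 z182 (.cons c122 122 0 y122 z122 (.cons c183 183 0 y183 z183 (.cons c184 184 0 y184 z184 (.cons c185 185 0 y185 z185 (.cons c186 186 0 y186 z186 .nil)))))) (.cons 31 686171318 (.cons c182 182 0 y182 z182 (.cons c122 122 0 y122 z122 (.cons c183 183 0 y183 z183 (.cons c184 184 0 y184 z184 (.cons c185 185 0 y185 z185 (.cons c186 186 0 y186 z186 .nil))))))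 (.cons 32 621294882 .nil (.cons 33 587740471 .nil (.cons 34 621294785 .nil (.cons 35 587740374 .nil (.cons 36 621291778 .nil (.cons 37 587737367 .nil (.cons 38 621291681 .nil (.cons 39 587737270 .nil (.cons 40 621195554 .nil (.cons 41 587641143 .nil (.cons 42 621195457 .nil (.cons 43 587641046 .nil (.cons 44 621192450 .nil (.cons 45 587638039 .nil (.cons 46 621192353 (.cons c242 242 0 y242 z242 (.cons c243 243 0 y243 z243 (.cons c244 244 0 y244 z244 (.cons c122 122 0 y122 z122 (.cons c245 245 0 y245 z245 (.cons c246 246 0 y246 z246 .nil)))))) (.cons 47 587637942 (.cons c242 242 0 y242 z242 (.cons c243 243 0 y243 z243 (.cons c244 244 0 y244 z244 (.cons c122 122 0 y122 z122 (.cons c123 123 0 y123 z123 (.cons c245 245 0 y245 z245 (.cons c246 246 0 y246 z246 (.cons c247 247 0 y247 z247 (.cons c125 125 0 y125 z125 (.cons c248 248 0 y248 z248 (.cons c126 126 0 y126 z126 .nil))))))))))) (.cons 56 618017058 .nil (.cons 57 584462647 .nil (.cons 58 618016961 .nil (.cons 59 584462550 .nil (.cons 60 618013954 .nil (.cons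 61 584459543 .nil (.cons 62 618013857 (.cons c243 243 0 y243 z243 (.cons c182 182 0 y182 z182 (.cons c294 294 0 y294 z294 (.cons c244 244 0 y244 z244 (.cons c122 122 0 y122 z122 (.cons c183 183 0 y183 z183 (.cons c246 246 0 y246 z246 (.cons c184 184 0 y184 z184 (.cons c185 185 0 y185 z185 (.cons c186 186 0 y186 z186 (.cons c295 295 0 y295 z295 .nil))))))))))) (.cons 63 584459446 (.cons c243 243 0 y243 z243 (.cons c182 182 0 y182 z182 (.cons c294 294 0 y294 z294 (.cons c244 244 0 y244 z244 (.cons c122 122 0 y122 z122 (.cons c183 183 0 y183 z183 (.cons c246 246 0 y246 z246 (.cons c184 184 0 y184 z184 (.cons c185 185 0 y185 z185 (.cons c186 186 0 y186 z186 (.cons c295 295 0 y295 z295 .nil))))))))))) .nil))))))))))))))))))))))))))))))))))))))))))))))))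

theorem a26 : chkA TCf 723006754 E26 = true := by decide +kernel

theorem b26 : chkB row E26 = true := by decide +kernel

theorem d26 : chkC E26 = true := by decide +kernel

/-- windows 0:1 1:2 3:0 3:1 4:1 5:1 -/
def E31 : Es :=
  (.cons 0 722907329 (.cons c74 74 3 y74 z74 (.cons c101 101 3 y101 z101 (.cons c75 75 4 y75 z75 (.cons c10 10 8 y10 z10 (.cons c77 77 48 y77 z77 (.cons c102 102 48 y102 z102 .nil)))))) (.cons 1 689352918 .nil (.cons 2 722907232 .nil (.cons 3 689352821 .nil (.cons 4 722904225 (.cons c10 10 8 y10 z10 (.cons c120 120 0 y120 z120 (.cons c121 121 11 y121 z121 (.cons c122 122 0 y122 z122 .nil)))) (.cons 5 689349814 (.cons c122 122 0 y122 z122 (.cons c123 123 0 y123 z123 (.cons c124 124 0 y124 z124 (.cons c125 125 0 y125 z125 (.cons c126 126 0 y126 z126 (.cons c127 127 0 y127 z127 .nil)))))) (.cons 6 722904128 (.cons c128 128 0 y128 z128 (.cons c129 129 0 y129 z129 (.cons c130 130 0 y130 z130 (.cons c131 131 0 y131 z131 (.cons c132 132 0 y132 z132 (.cons c122 122 0 y122 z122 .nil))))))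 (.cons 7 689349717 (.cons c130 130 0 y130 z130 (.cons c131 131 0 y131 z131 (.cons c132 132 0 y132 z132 (.cons c122 122 0 y122 z122 (.cons c133 133 0 y133 z133 (.cons c123 123 0 y123 z123 (.cons c124 124 0 y124 z124 (.cons c134 134 0 y134 z134 (.cons c125 125 0 y125 z125 (.cons c126 126 0 y126 z126 (.cons c127 127 0 y127 z127 .nil))))))))))) (.cons 12 722804897 (.cons c122 122 0 y122 z122 (.cons c142 142 0 y142 z142 (.cons c143 143 0 y143 z143 (.cons c144 144 0 y144 z144 (.cons c145 145 0 y145 z145 (.cons c146 146 0 y146 z146 .nil)))))) (.cons 13 689250486 (.cons c122 122 0 y122 z122 (.cons c123 123 0 y123 z123 (.cons c124 124 0 y124 z124 (.cons c142 142 0 y142 z142 (.cons c143 143 0 y143 z143 (.cons c147 147 0 y147 z147 (.cons c148 148 0 y148 z148 (.cons c149 149 0 y149 z149 (.cons c150 150 0 y150 z150 (.cons c144 144 0 y144 z144 (.cons c151 151 63 y151 z151 (.cons c152 152 63 y152 z152 (.cons c145 145 0 y145 z145 (.cons c153 153 63 y153 z153 (.cons c154 154 63 y154 z154 (.cons c146 146 0 y146 z146 (.cons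 c155 155 0 y155 z155 (.cons c156 156 0 y156 z156 (.cons c125 125 0 y125 z125 (.cons c126 126 0 y126 z126 (.cons c157 157 0 y157 z157 (.cons c158 158 0 y158 z158 (.cons c159 159 0 y159 z159 (.cons c160 160 0 y160 z160 (.cons c127 127 0 y127 z127 (.cons c161 161 0 y161 z161 (.cons c162 162 0 y162 z162 (.cons c163 163 0 y163 z163 (.cons c164 164 0 y164 z164 (.cons c165 165 0 y165 z165 (.cons c166 166 0 y166 z166 (.cons c167 167 0 y167 z167 (.cons c168 168 0 y168 z168 (.cons c169 169 0 y169 z169 (.cons c170 170 0 y170 z170 (.cons c171 171 0 y171 z171 .nil)))))))))))))))))))))))))))))))))))) (.cons 14 722804800 (.cons c128 128 0 y128 z128 (.cons c129 129 0 y129 z129 (.cons c130 130 0 y130 z130 (.cons c131 131 0 y131 z131 (.cons c132 132 0 y132 z132 (.cons c122 122 0 y122 z122 .nil)))))) (.cons 15 689250389 (.cons c130 130 0 y130 z130 (.cons c131 131 0 y131 z131 (.cons c132 132 0 y132 z132 (.cons c122 122 0 y122 z122 (.cons c133 133 0 y133 z133 (.cons c123 123 0 y123 z123 (.cons c124 124 0 y124 z124 (.cons c134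 134 0 y134 z134 (.cons c125 125 0 y125 z125 (.cons c126 126 0 y126 z126 (.cons c127 127 0 y127 z127 .nil))))))))))) (.cons 16 719728833 .nil (.cons 17 686174422 .nil (.cons 18 719728736 .nil (.cons 19 686174325 .nil (.cons 20 719725729 (.cons c182 182 0 y182 z182 (.cons c122 122 0 y122 z122 (.cons c183 183 0 y183 z183 (.cons c184 184 0 y184 z184 (.cons c185 185 0 y185 z185 (.cons c186 186 0 y186 z186 .nil)))))) (.cons 21 686171318 (.cons c182 182 0 y182 z182 (.cons c122 122 0 y122 z122 (.cons c183 183 0 y183 z183 (.cons c184 184 0 y184 z184 (.cons c185 185 0 y185 z185 (.cons c186 186 0 y186 z186 .nil)))))) (.cons 22 719725632 (.cons c191 191 4 y191 z191 (.cons c192 192 0 y192 z192 (.cons c193 193 0 y193 z193 (.cons c194 194 0 y194 z194 (.cons c195 195 4 y195 z195 (.cons c182 182 0 y182 z182 (.cons c128 128 0 y128 z128 (.cons c196 196 4 y196 z196 (.cons c197 197 11 y197 z197 (.cons c198 198 11 y198 z198 (.cons c199 199 0 y199 z199 (.cons c129 129 0 y129 z129 (.cons c200 200 0 y200 z200 (.cons c130 130 0 y130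 z130 (.cons c131 131 0 y131 z131 (.cons c201 201 0 y201 z201 (.cons c202 202 0 y202 z202 (.cons c203 203 0 y203 z203 (.cons c204 204 0 y204 z204 (.cons c205 205 0 y205 z205 (.cons c206 206 0 y206 z206 (.cons c207 207 0 y207 z207 (.cons c208 208 0 y208 z208 (.cons c209 209 0 y209 z209 (.cons c210 210 0 y210 z210 (.cons c211 211 0 y211 z211 (.cons c132 132 0 y132 z132 (.cons c122 122 0 y122 z122 (.cons c212 212 4 y212 z212 (.cons c183 183 0 y183 z183 (.cons c213 213 11 y213 z213 (.cons c184 184 0 y184 z184 (.cons c214 214 11 y214 z214 (.cons c185 185 0 y185 z185 (.cons c215 215 0 y215 z215 (.cons c186 186 0 y186 z186 .nil)))))))))))))))))))))))))))))))))))) (.cons 23 686171221 (.cons c193 193 0 y193 z193 (.cons c194 194 0 y194 z194 (.cons c195 195 4 y195 z195 (.cons c182 182 0 y182 z182 (.cons c216 216 4 y216 z216 (.cons c130 130 0 y130 z130 (.cons c131 131 0 y131 z131 (.cons c201 201 0 y201 z201 (.cons c202 202 0 y202 z202 (.cons c206 206 0 y206 z206 (.cons c207 207 0 y207 z207 (.cons c208 208 0 y208 z208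 (.cons c209 209 0 y209 z209 (.cons c210 210 0 y210 z210 (.cons c211 211 0 y211 z211 (.cons c132 132 0 y132 z132 (.cons c122 122 0 y122 z122 (.cons c212 212 4 y212 z212 (.cons c183 183 0 y183 z183 (.cons c133 133 0 y133 z133 (.cons c217 217 4 y217 z217 (.cons c213 213 11 y213 z213 (.cons c184 184 0 y184 z184 (.cons c214 214 11 y214 z214 (.cons c185 185 0 y185 z185 (.cons c215 215 0 y215 z215 (.cons c186 186 0 y186 z186 (.cons c218 218 11 y218 z218 (.cons c219 219 0 y219 z219 (.cons c134 134 0 y134 z134 (.cons c220 220 0 y220 z220 (.cons c221 221 0 y221 z221 (.cons c222 222 0 y222 z222 (.cons c223 223 0 y223 z223 .nil)))))))))))))))))))))))))))))))))) (.cons 28 719626401 (.cons c122 122 0 y122 z122 (.cons c183 183 0 y183 z183 (.cons c142 142 0 y142 z142 (.cons c143 143 0 y143 z143 (.cons c224 224 0 y224 z224 (.cons c185 185 0 y185 z185 (.cons c186 186 0 y186 z186 (.cons c144 144 0 y144 z144 (.cons c145 145 0 y145 z145 (.cons c146 146 0 y146 z146 (.cons c225 225 0 y225 z225 .nil))))))))))) (.cons 29 686071990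 (.cons c122 122 0 y122 z122 (.cons c183 183 0 y183 z183 (.cons c142 142 0 y142 z142 (.cons c143 143 0 y143 z143 (.cons c224 224 0 y224 z224 (.cons c185 185 0 y185 z185 (.cons c186 186 0 y186 z186 (.cons c144 144 0 y144 z144 (.cons c145 145 0 y145 z145 (.cons c146 146 0 y146 z146 (.cons c225 225 0 y225 z225 .nil))))))))))) (.cons 30 719626304 (.cons c128 128 0 y128 z128 (.cons c196 196 4 y196 z196 (.cons c226 226 4 y226 z226 (.cons c198 198 11 y198 z198 (.cons c199 199 0 y199 z199 (.cons c129 129 0 y129 z129 (.cons c200 200 0 y200 z200 (.cons c130 130 0 y130 z130 (.cons c131 131 0 y131 z131 (.cons c201 201 0 y201 z201 (.cons c202 202 0 y202 z202 (.cons c227 227 0 y227 z227 (.cons c228 228 0 y228 z228 (.cons c204 204 0 y204 z204 (.cons c205 205 0 y205 z205 (.cons c208 208 0 y208 z208 (.cons c209 209 0 y209 z209 (.cons c210 210 0 y210 z210 (.cons c211 211 0 y211 z211 (.cons c132 132 0 y132 z132 (.cons c122 122 0 y122 z122 (.cons c212 212 4 y212 z212 (.cons c183 183 0 y183 z183 (.cons c229 229 4 y229 z229 (.cons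 c224 224 0 y224 z224 (.cons c214 214 11 y214 z214 (.cons c185 185 0 y185 z185 (.cons c215 215 0 y215 z215 (.cons c186 186 0 y186 z186 (.cons c230 230 0 y230 z230 (.cons c231 231 0 y231 z231 (.cons c232 232 0 y232 z232 (.cons c233 233 11 y233 z233 (.cons c225 225 0 y225 z225 .nil)))))))))))))))))))))))))))))))))) (.cons 31 686071893 (.cons c130 130 0 y130 z130 (.cons c131 131 0 y131 z131 (.cons c201 201 0 y201 z201 (.cons c202 202 0 y202 z202 (.cons c227 227 0 y227 z227 (.cons c228 228 0 y228 z228 (.cons c208 208 0 y208 z208 (.cons c209 209 0 y209 z209 (.cons c210 210 0 y210 z210 (.cons c211 211 0 y211 z211 (.cons c132 132 0 y132 z132 (.cons c122 122 0 y122 z122 (.cons c212 212 4 y212 z212 (.cons c183 183 0 y183 z183 (.cons c133 133 0 y133 z133 (.cons c217 217 4 y217 z217 (.cons c229 229 4 y229 z229 (.cons c224 224 0 y224 z224 (.cons c234 234 4 y234 z234 (.cons c214 214 63 y214 z214 (.cons c185 185 0 y185 z185 (.cons c215 215 0 y215 z215 (.cons c186 186 0 y186 z186 (.cons c218 218 63 y218 z218 (.cons c219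 219 0 y219 z219 (.cons c231 231 0 y231 z231 (.cons c232 232 0 y232 z232 (.cons c233 233 63 y233 z233 (.cons c225 225 0 y225 z225 (.cons c235 235 63 y235 z235 (.cons c134 134 0 y134 z134 (.cons c220 220 0 y220 z220 (.cons c236 236 0 y236 z236 (.cons c222 222 0 y222 z222 (.cons c223 223 0 y223 z223 (.cons c237 237 0 y237 z237 .nil)))))))))))))))))))))))))))))))))))) (.cons 32 621195457 .nil (.cons 33 587641046 .nil (.cons 34 621195360 .nil (.cons 35 587640949 .nil (.cons 36 621192353 (.cons c242 242 0 y242 z242 (.cons c243 243 0 y243 z243 (.cons c244 244 0 y244 z244 (.cons c122 122 0 y122 z122 (.cons c245 245 0 y245 z245 (.cons c246 246 0 y246 z246 .nil)))))) (.cons 37 587637942 (.cons c242 242 0 y242 z242 (.cons c243 243 0 y243 z243 (.cons c244 244 0 y244 z244 (.cons c122 122 0 y122 z122 (.cons c123 123 0 y123 z123 (.cons c245 245 0 y245 z245 (.cons c246 246 0 y246 z246 (.cons c247 247 0 y247 z247 (.cons c125 125 0 y125 z125 (.cons c248 248 0 y248 z248 (.cons c126 126 0 y126 z126 .nil))))))))))) (.cons 38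 621192256 (.cons c242 242 0 y242 z242 (.cons c243 243 0 y243 z243 (.cons c244 244 0 y244 z244 (.cons c122 122 0 y122 z122 (.cons c245 245 0 y245 z245 (.cons c246 246 0 y246 z246 .nil)))))) (.cons 39 587637845 (.cons c242 242 0 y242 z242 (.cons c243 243 0 y243 z243 (.cons c244 244 0 y244 z244 (.cons c122 122 0 y122 z122 (.cons c123 123 0 y123 z123 (.cons c245 245 0 y245 z245 (.cons c246 246 0 y246 z246 (.cons c247 247 0 y247 z247 (.cons c125 125 0 y125 z125 (.cons c248 248 0 y248 z248 (.cons c126 126 0 y126 z126 .nil))))))))))) (.cons 44 621093025 (.cons c122 122 0 y122 z122 (.cons c142 142 0 y142 z142 (.cons c143 143 0 y143 z143 (.cons c144 144 0 y144 z144 (.cons c145 145 0 y145 z145 (.cons c146 146 0 y146 z146 .nil)))))) (.cons 45 587538614 (.cons c122 122 0 y122 z122 (.cons c123 123 0 y123 z123 (.cons c142 142 0 y142 z142 (.cons c143 143 0 y143 z143 (.cons c147 147 0 y147 z147 (.cons c149 149 0 y149 z149 (.cons c247 247 0 y247 z247 (.cons c282 282 0 y282 z282 (.cons c283 283 0 y283 z283 (.cons c144 144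 0 y144 z144 (.cons c151 151 63 y151 z151 (.cons c145 145 0 y145 z145 (.cons c153 153 63 y153 z153 (.cons c146 146 0 y146 z146 (.cons c155 155 0 y155 z155 (.cons c284 284 63 y284 z284 (.cons c285 285 0 y285 z285 (.cons c125 125 0 y125 z125 (.cons c248 248 0 y248 z248 (.cons c126 126 0 y126 z126 (.cons c157 157 0 y157 z157 (.cons c158 158 0 y158 z158 (.cons c286 286 0 y286 z286 (.cons c159 159 0 y159 z159 (.cons c160 160 0 y160 z160 (.cons c163 163 0 y163 z163 (.cons c287 287 0 y287 z287 (.cons c164 164 0 y164 z164 (.cons c165 165 0 y165 z165 (.cons c288 288 0 y288 z288 (.cons c166 166 0 y166 z166 (.cons c167 167 0 y167 z167 (.cons c289 289 0 y289 z289 (.cons c168 168 0 y168 z168 .nil)))))))))))))))))))))))))))))))))) (.cons 46 621092928 (.cons c122 122 0 y122 z122 .nil) (.cons 47 587538517 (.cons c122 122 0 y122 z122 (.cons c123 123 0 y123 z123 (.cons c247 247 0 y247 z247 (.cons c125 125 0 y125 z125 (.cons c248 248 0 y248 z248 (.cons c126 126 0 y126 z126 .nil)))))) (.cons 48 618016961 .nil (.cons 49 584462550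 .nil (.cons 50 618016864 .nil (.cons 51 584462453 .nil (.cons 52 618013857 (.cons c243 243 0 y243 z243 (.cons c182 182 0 y182 z182 (.cons c294 294 0 y294 z294 (.cons c244 244 0 y244 z244 (.cons c122 122 0 y122 z122 (.cons c183 183 0 y183 z183 (.cons c246 246 0 y246 z246 (.cons c184 184 0 y184 z184 (.cons c185 185 0 y185 z185 (.cons c186 186 0 y186 z186 (.cons c295 295 0 y295 z295 .nil))))))))))) (.cons 53 584459446 (.cons c243 243 0 y243 z243 (.cons c182 182 0 y182 z182 (.cons c294 294 0 y294 z294 (.cons c244 244 0 y244 z244 (.cons c122 122 0 y122 z122 (.cons c183 183 0 y183 z183 (.cons c246 246 0 y246 z246 (.cons c184 184 0 y184 z184 (.cons c185 185 0 y185 z185 (.cons c186 186 0 y186 z186 (.cons c295 295 0 y295 z295 .nil))))))))))) (.cons 54 618013760 (.cons c243 243 0 y243 z243 (.cons c182 182 0 y182 z182 (.cons c294 294 0 y294 z294 (.cons c244 244 0 y244 z244 (.cons c122 122 0 y122 z122 (.cons c183 183 0 y183 z183 (.cons c246 246 0 y246 z246 (.cons c184 184 0 y184 z184 (.cons c185 185 0 y185 z185 (.cons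 c186 186 0 y186 z186 (.cons c295 295 0 y295 z295 .nil))))))))))) (.cons 55 584459349 (.cons c243 243 0 y243 z243 (.cons c182 182 0 y182 z182 (.cons c294 294 0 y294 z294 (.cons c244 244 0 y244 z244 (.cons c122 122 0 y122 z122 (.cons c183 183 0 y183 z183 (.cons c246 246 0 y246 z246 (.cons c184 184 0 y184 z184 (.cons c185 185 0 y185 z185 (.cons c186 186 0 y186 z186 (.cons c295 295 0 y295 z295 .nil))))))))))) (.cons 60 617914529 (.cons c122 122 0 y122 z122 (.cons c183 183 0 y183 z183 (.cons c142 142 0 y142 z142 (.cons c143 143 0 y143 z143 (.cons c224 224 0 y224 z224 (.cons c185 185 0 y185 z185 (.cons c186 186 0 y186 z186 (.cons c144 144 0 y144 z144 (.cons c145 145 0 y145 z145 (.cons c146 146 0 y146 z146 (.cons c225 225 0 y225 z225 .nil))))))))))) (.cons 61 584360118 (.cons c122 122 0 y122 z122 (.cons c183 183 0 y183 z183 (.cons c142 142 0 y142 z142 (.cons c143 143 0 y143 z143 (.cons c224 224 0 y224 z224 (.cons c185 185 0 y185 z185 (.cons c186 186 0 y186 z186 (.cons c144 144 0 y144 z144 (.cons c145 145 0 y145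 z145 (.cons c146 146 0 y146 z146 (.cons c225 225 0 y225 z225 .nil))))))))))) (.cons 62 617914432 (.cons c122 122 0 y122 z122 (.cons c183 183 0 y183 z183 (.cons c224 224 0 y224 z224 (.cons c185 185 0 y185 z185 (.cons c186 186 0 y186 z186 (.cons c225 225 0 y225 z225 .nil)))))) (.cons 63 584360021 (.cons c122 122 0 y122 z122 (.cons c183 183 0 y183 z183 (.cons c224 224 0 y224 z224 (.cons c185 185 0 y185 z185 (.cons c186 186 0 y186 z186 (.cons c225 225 0 y225 z225 .nil)))))) .nil))))))))))))))))))))))))))))))))))))))))))))))))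

theorem a31 : chkA TCf 722907329 E31 = true := by decide +kernel

theorem b31 : chkB row E31 = true := by decide +kernel

theorem d31 : chkC E31 = true := by decide +kernel

/-- windows 0:0 0:1 1:2 3:1 4:1 5:1 -/
def E36 : Es :=
  (.cons 0 722901024 (.cons c140 140 263 y140 z140 (.cons c128 128 263 y128 z128 (.cons c136 136 263 y136 z136 (.cons c137 137 8 y137 z137 (.cons c141 141 1200 y141 z141 (.cons c129 129 1200 y129 z129 (.cons c130 130 64 y130 z130 (.cons c131 131 1200 y131 z131 (.cons c132 132 263 y132 z132 (.cons c122 122 512 y122 z122 (.cons c139 139 1200 y139 z139 .nil))))))))))) (.cons 1 689346613 (.cons c130 130 64 y130 z130 (.cons c131 131 1200 y131 z131 (.cons c132 132 263 y132 z132 (.cons c122 122 512 y122 z122 (.cons c133 133 263 y133 z133 (.cons c123 123 263 y123 z123 (.cons c124 124 263 y124 z124 (.cons c134 134 1200 y134 z134 (.cons c125 125 1200 y125 z125 (.cons c126 126 0 y126 z126 (.cons c127 127 1200 y127 z127 .nil))))))))))) (.cons 3 689347284 .nil (.cons 4 722897920 .nil (.cons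 5 689343509 .nil (.cons 7 689344180 .nil (.cons 8 722801696 (.cons c140 140 263 y140 z140 (.cons c128 128 263 y128 z128 (.cons c136 136 263 y136 z136 (.cons c137 137 8 y137 z137 (.cons c141 141 1200 y141 z141 (.cons c129 129 1200 y129 z129 (.cons c130 130 64 y130 z130 (.cons c131 131 1200 y131 z131 (.cons c132 132 263 y132 z132 (.cons c122 122 512 y122 z122 (.cons c139 139 1200 y139 z139 .nil))))))))))) (.cons 9 689247285 (.cons c130 130 64 y130 z130 (.cons c131 131 1200 y131 z131 (.cons c132 132 263 y132 z132 (.cons c122 122 512 y122 z122 (.cons c133 133 263 y133 z133 (.cons c123 123 263 y123 z123 (.cons c124 124 263 y124 z124 (.cons c134 134 1200 y134 z134 (.cons c125 125 1200 y125 z125 (.cons c126 126 0 y126 z126 (.cons c127 127 1200 y127 z127 .nil))))))))))) (.cons 11 689247956 .nil (.cons 12 722798592 .nil (.cons 13 689244181 .nil (.cons 15 689244852 .nil (.cons 16 719722528 (.cons c140 140 263 y140 z140 (.cons c128 128 263 y128 z128 (.cons c136 136 263 y136 z136 (.cons c137 137 8 y137 z137 (.cons c141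 141 1200 y141 z141 (.cons c129 129 1200 y129 z129 (.cons c130 130 64 y130 z130 (.cons c131 131 1200 y131 z131 (.cons c132 132 263 y132 z132 (.cons c122 122 512 y122 z122 (.cons c139 139 1200 y139 z139 .nil))))))))))) (.cons 17 686168117 (.cons c130 130 64 y130 z130 (.cons c131 131 1200 y131 z131 (.cons c132 132 263 y132 z132 (.cons c122 122 512 y122 z122 (.cons c133 133 263 y133 z133 (.cons c134 134 1200 y134 z134 .nil)))))) (.cons 19 686168788 .nil (.cons 20 719719424 .nil (.cons 21 686165013 .nil (.cons 23 686165684 .nil (.cons 24 719623200 (.cons c140 140 263 y140 z140 (.cons c128 128 263 y128 z128 (.cons c136 136 263 y136 z136 (.cons c137 137 8 y137 z137 (.cons c141 141 1200 y141 z141 (.cons c129 129 1200 y129 z129 (.cons c130 130 64 y130 z130 (.cons c131 131 1200 y131 z131 (.cons c132 132 263 y132 z132 (.cons c122 122 512 y122 z122 (.cons c139 139 1200 y139 z139 .nil))))))))))) (.cons 25 686068789 (.cons c130 130 64 y130 z130 (.cons c131 131 1200 y131 z131 (.cons c132 132 263 y132 z132 (.cons c122 122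 512 y122 z122 (.cons c133 133 263 y133 z133 (.cons c134 134 1200 y134 z134 .nil)))))) (.cons 27 686069460 .nil (.cons 28 719620096 .nil (.cons 29 686065685 .nil (.cons 31 686066356 .nil (.cons 32 621189152 (.cons c274 274 0 y274 z274 (.cons c250 250 0 y250 z250 (.cons c251 251 0 y251 z251 (.cons c275 275 0 y275 z275 (.cons c254 254 0 y254 z254 (.cons c276 276 0 y276 z276 (.cons c255 255 0 y255 z255 (.cons c256 256 0 y256 z256 (.cons c257 257 0 y257 z257 (.cons c277 277 0 y277 z277 (.cons c278 278 0 y278 z278 (.cons c242 242 0 y242 z242 (.cons c259 259 0 y259 z259 (.cons c243 243 0 y243 z243 (.cons c244 244 0 y244 z244 (.cons c261 261 0 y261 z261 (.cons c263 263 0 y263 z263 (.cons c140 140 263 y140 z140 (.cons c136 136 263 y136 z136 (.cons c279 279 0 y279 z279 (.cons c266 266 0 y266 z266 (.cons c267 267 0 y267 z267 (.cons c137 137 8 y137 z137 (.cons c268 268 0 y268 z268 (.cons c269 269 0 y269 z269 (.cons c141 141 1200 y141 z141 (.cons c280 280 0 y280 z280 (.cons c281 281 0 y281 z281 (.cons c122 122 512 y122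 z122 (.cons c245 245 0 y245 z245 (.cons c246 246 0 y246 z246 (.cons c139 139 1200 y139 z139 (.cons c272 272 0 y272 z272 (.cons c273 273 0 y273 z273 .nil)))))))))))))))))))))))))))))))))) (.cons 33 587634741 (.cons c242 242 1200 y242 z242 (.cons c243 243 1200 y243 z243 (.cons c244 244 0 y244 z244 (.cons c122 122 512 y122 z122 (.cons c123 123 263 y123 z123 (.cons c245 245 263 y245 z245 (.cons c246 246 263 y246 z246 (.cons c247 247 263 y247 z247 (.cons c125 125 1200 y125 z125 (.cons c248 248 1200 y248 z248 (.cons c126 126 0 y126 z126 .nil))))))))))) (.cons 35 587635412 .nil (.cons 36 621186048 .nil (.cons 37 587631637 .nil (.cons 39 587632308 .nil (.cons 40 621089824 (.cons c140 140 263 y140 z140 (.cons c136 136 263 y136 z136 (.cons c137 137 8 y137 z137 (.cons c141 141 1200 y141 z141 (.cons c122 122 512 y122 z122 (.cons c139 139 1200 y139 z139 .nil)))))) (.cons 41 587535413 (.cons c122 122 512 y122 z122 (.cons c123 123 263 y123 z123 (.cons c247 247 263 y247 z247 (.cons c125 125 1200 y125 z125 (.cons c248 248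 1200 y248 z248 (.cons c126 126 0 y126 z126 .nil)))))) (.cons 43 587536084 .nil (.cons 44 621086720 .nil (.cons 45 587532309 .nil (.cons 47 587532980 .nil (.cons 48 618010656 (.cons c275 275 0 y275 z275 (.cons c254 254 0 y254 z254 (.cons c304 304 0 y304 z304 (.cons c297 297 0 y297 z297 (.cons c276 276 0 y276 z276 (.cons c255 255 0 y255 z255 (.cons c256 256 0 y256 z256 (.cons c298 298 0 y298 z298 (.cons c257 257 0 y257 z257 (.cons c277 277 0 y277 z277 (.cons c305 305 0 y305 z305 (.cons c278 278 0 y278 z278 (.cons c243 243 0 y243 z243 (.cons c294 294 0 y294 z294 (.cons c244 244 0 y244 z244 (.cons c261 261 0 y261 z261 (.cons c299 299 0 y299 z299 (.cons c263 263 0 y263 z263 (.cons c140 140 263 y140 z140 (.cons c136 136 263 y136 z136 (.cons c279 279 0 y279 z279 (.cons c267 267 0 y267 z267 (.cons c137 137 8 y137 z137 (.cons c269 269 0 y269 z269 (.cons c306 306 0 y306 z306 (.cons c300 300 0 y300 z300 (.cons c301 301 0 y301 z301 (.cons c141 141 1200 y141 z141 (.cons c281 281 0 y281 z281 (.cons c307 307 0 y307 z307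 (.cons c122 122 512 y122 z122 (.cons c246 246 0 y246 z246 (.cons c139 139 1200 y139 z139 (.cons c273 273 0 y273 z273 (.cons c295 295 0 y295 z295 (.cons c303 303 0 y303 z303 .nil)))))))))))))))))))))))))))))))))))) (.cons 49 584456245 (.cons c243 243 1200 y243 z243 (.cons c294 294 1200 y294 z294 (.cons c244 244 0 y244 z244 (.cons c122 122 512 y122 z122 (.cons c246 246 263 y246 z246 (.cons c295 295 263 y295 z295 .nil)))))) (.cons 51 584456916 .nil (.cons 52 618007552 .nil (.cons 53 584453141 .nil (.cons 55 584453812 .nil (.cons 56 617911328 (.cons c140 140 263 y140 z140 (.cons c136 136 263 y136 z136 (.cons c137 137 8 y137 z137 (.cons c141 141 1200 y141 z141 (.cons c122 122 512 y122 z122 (.cons c139 139 1200 y139 z139 .nil)))))) (.cons 57 584356917 (.cons c122 122 512 y122 z122 (.cons c308 308 0 y308 z308 (.cons c309 309 1712 y309 z309 (.cons c310 310 0 y310 z310 .nil)))) (.cons 59 584357588 (.cons c311 311 0 y311 z311 (.cons c312 312 0 y312 z312 (.cons c313 313 0 y313 z313 (.cons c314 314 0 y314 z314 (.cons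 c315 315 0 y315 z315 (.cons c310 310 0 y310 z310 .nil)))))) (.cons 60 617908224 .nil (.cons 61 584353813 (.cons c316 316 0 y316 z316 (.cons c310 310 0 y310 z310 (.cons c317 317 0 y317 z317 (.cons c318 318 0 y318 z318 (.cons c319 319 0 y319 z319 (.cons c320 320 0 y320 z320 .nil)))))) (.cons 63 584354484 (.cons c321 321 0 y321 z321 (.cons c311 311 0 y311 z311 (.cons c312 312 0 y312 z312 (.cons c313 313 0 y313 z313 (.cons c322 322 0 y322 z322 (.cons c314 314 0 y314 z314 (.cons c315 315 0 y315 z315 (.cons c310 310 0 y310 z310 (.cons c317 317 0 y317 z317 (.cons c319 319 0 y319 z319 (.cons c320 320 0 y320 z320 .nil))))))))))) .nil))))))))))))))))))))))))))))))))))))))))))))))))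

theorem a36 : chkA TCf 722901024 E36 = true := by decide +kernel

theorem b36 : chkB row E36 = true := by decide +kernel

theorem d36 : chkC E36 = true := by decide +kernel

/-- windows 0:1 1:0 1:2 3:1 4:0 4:2 -/
def E51 : Es :=
  (.cons 0 621189249 (.cons c249 249 43 y249 z249 (.cons c250 250 43 y250 z250 (.cons c251 251 132 y251 z251 (.cons c252 252 43 y252 z252 (.cons c253 253 80 y253 z253 (.cons c254 254 43 y254 z254 (.cons c255 255 80 y255 z255 (.cons c256 256 132 y256 z256 (.cons c257 257 256 y257 z257 (.cons c242 242 4608 y242 z242 (.cons c258 258 52224 y258 z258 (.cons c259 259 52224 y259 z259 (.cons c243 243 4608 y243 z243 (.cons c244 244 8192 y244 z244 (.cons c260 260 52224 y260 z260 (.cons c261 261 52224 y261 z261 (.cons c262 262 196608 y262 z262 (.cons c263 263 196608 y263 z263 (.cons c135 135 2359296 y135 z135 (.cons c264 264 14155776 y264 z264 (.cons c265 265 14155776 y265 z265 (.cons c136 136 2359296 y136 z136 (.cons c266 266 14155776 y266 z266 (.cons c267 267 14155776 y267 z267 (.cons c137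 137 16777216 y137 z137 (.cons c268 268 100663296 y268 z268 (.cons c269 269 100663296 y269 z269 (.cons c122 122 134217728 y122 z122 (.cons c245 245 805306368 y245 z245 (.cons c246 246 805306368 y246 z246 (.cons c138 138 3221225472 y138 z138 (.cons c139 139 3221225472 y139 z139 (.cons c270 270 64424509440 y270 z270 (.cons c271 271 64424509440 y271 z271 (.cons c272 272 64424509440 y272 z272 (.cons c273 273 64424509440 y273 z273 .nil)))))))))))))))))))))))))))))))))))) (.cons 1 587634838 (.cons c242 242 4608 y242 z242 (.cons c243 243 4608 y243 z243 (.cons c244 244 8192 y244 z244 (.cons c122 122 134217728 y122 z122 (.cons c123 123 805306368 y123 z123 (.cons c245 245 805306368 y245 z245 (.cons c246 246 805306368 y246 z246 (.cons c247 247 805306368 y247 z247 (.cons c125 125 4608 y125 z125 (.cons c248 248 4608 y248 z248 (.cons c126 126 0 y126 z126 .nil))))))))))) (.cons 2 621189152 (.cons c274 274 43 y274 z274 (.cons c250 250 43 y250 z250 (.cons c251 251 132 y251 z251 (.cons c275 275 43 y275 z275 (.cons c254 254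 43 y254 z254 (.cons c276 276 80 y276 z276 (.cons c255 255 80 y255 z255 (.cons c256 256 132 y256 z256 (.cons c257 257 256 y257 z257 (.cons c277 277 52224 y277 z277 (.cons c278 278 196608 y278 z278 (.cons c242 242 4608 y242 z242 (.cons c259 259 52224 y259 z259 (.cons c243 243 4608 y243 z243 (.cons c244 244 8192 y244 z244 (.cons c261 261 52224 y261 z261 (.cons c263 263 196608 y263 z263 (.cons c140 140 2359296 y140 z140 (.cons c136 136 2359296 y136 z136 (.cons c279 279 14155776 y279 z279 (.cons c266 266 14155776 y266 z266 (.cons c267 267 14155776 y267 z267 (.cons c137 137 16777216 y137 z137 (.cons c268 268 100663296 y268 z268 (.cons c269 269 100663296 y269 z269 (.cons c141 141 3221225472 y141 z141 (.cons c280 280 64424509440 y280 z280 (.cons c281 281 64424509440 y281 z281 (.cons c122 122 134217728 y122 z122 (.cons c245 245 805306368 y245 z245 (.cons c246 246 805306368 y246 z246 (.cons c139 139 3221225472 y139 z139 (.cons c272 272 64424509440 y272 z272 (.cons c273 273 64424509440 y273 z273 .nil))))))))))))))))))))))))))))))))))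 (.cons 3 587634741 (.cons c242 242 4608 y242 z242 (.cons c243 243 4608 y243 z243 (.cons c244 244 8192 y244 z244 (.cons c122 122 134217728 y122 z122 (.cons c123 123 805306368 y123 z123 (.cons c245 245 805306368 y245 z245 (.cons c246 246 805306368 y246 z246 (.cons c247 247 805306368 y247 z247 (.cons c125 125 4608 y125 z125 (.cons c248 248 4608 y248 z248 (.cons c126 126 0 y126 z126 .nil))))))))))) (.cons 6 621186048 .nil (.cons 7 587631637 .nil (.cons 8 621089921 (.cons c135 135 2359296 y135 z135 (.cons c136 136 2359296 y136 z136 (.cons c137 137 16777216 y137 z137 (.cons c122 122 134217728 y122 z122 (.cons c143 143 3221225472 y143 z143 (.cons c138 138 3221225472 y138 z138 (.cons c139 139 3221225472 y139 z139 (.cons c172 172 3221225472 y172 z172 (.cons c145 145 2359296 y145 z145 (.cons c173 173 2359296 y173 z173 (.cons c146 146 0 y146 z146 .nil))))))))))) (.cons 9 587535510 (.cons c122 122 134217728 y122 z122 (.cons c123 123 805306368 y123 z123 (.cons c143 143 3221225472 y143 z143 (.cons c149 149 64424509440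 y149 z149 (.cons c247 247 805306368 y247 z247 (.cons c283 283 64424509440 y283 z283 (.cons c172 172 3221225472 y172 z172 (.cons c174 174 64424509440 y174 z174 (.cons c290 290 64424509440 y290 z290 (.cons c145 145 2359296 y145 z145 (.cons c173 173 2359296 y173 z173 (.cons c153 153 14155776 y153 z153 (.cons c176 176 14155776 y176 z176 (.cons c146 146 0 y146 z146 (.cons c155 155 0 y155 z155 (.cons c284 284 14155776 y284 z284 (.cons c291 291 14155776 y291 z291 (.cons c285 285 0 y285 z285 (.cons c125 125 4608 y125 z125 (.cons c248 248 4608 y248 z248 (.cons c126 126 0 y126 z126 (.cons c158 158 52224 y158 z158 (.cons c286 286 52224 y286 z286 (.cons c160 160 0 y160 z160 (.cons c177 177 52224 y177 z177 (.cons c292 292 52224 y292 z292 (.cons c178 178 0 y178 z178 (.cons c165 165 43 y165 z165 (.cons c179 179 43 y179 z179 (.cons c288 288 43 y288 z288 (.cons c293 293 43 y293 z293 (.cons c166 166 0 y166 z166 (.cons c180 180 0 y180 z180 (.cons c167 167 0 y167 z167 (.cons c289 289 0 y289 z289 (.cons c168 168 0 y168 z168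 .nil)))))))))))))))))))))))))))))))))))) (.cons 10 621089824 (.cons c140 140 2359296 y140 z140 (.cons c136 136 2359296 y136 z136 (.cons c137 137 16777216 y137 z137 (.cons c141 141 3221225472 y141 z141 (.cons c122 122 134217728 y122 z122 (.cons c139 139 3221225472 y139 z139 .nil)))))) (.cons 11 587535413 (.cons c122 122 134217728 y122 z122 (.cons c123 123 805306368 y123 z123 (.cons c247 247 805306368 y247 z247 (.cons c125 125 4608 y125 z125 (.cons c248 248 4608 y248 z248 (.cons c126 126 0 y126 z126 .nil)))))) (.cons 14 621086720 .nil (.cons 15 587532309 .nil (.cons 16 618010753 (.cons c252 252 43 y252 z252 (.cons c296 296 43 y296 z296 (.cons c253 253 80 y253 z253 (.cons c254 254 43 y254 z254 (.cons c297 297 43 y297 z297 (.cons c255 255 80 y255 z255 (.cons c256 256 132 y256 z256 (.cons c298 298 132 y298 z298 (.cons c257 257 256 y257 z257 (.cons c243 243 4608 y243 z243 (.cons c294 294 4608 y294 z294 (.cons c244 244 8192 y244 z244 (.cons c260 260 52224 y260 z260 (.cons c261 261 52224 y261 z261 (.cons c299 299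 52224 y299 z299 (.cons c262 262 196608 y262 z262 (.cons c263 263 196608 y263 z263 (.cons c135 135 2359296 y135 z135 (.cons c265 265 14155776 y265 z265 (.cons c136 136 2359296 y136 z136 (.cons c267 267 14155776 y267 z267 (.cons c137 137 16777216 y137 z137 (.cons c269 269 100663296 y269 z269 (.cons c300 300 14155776 y300 z300 (.cons c301 301 100663296 y301 z301 (.cons c122 122 134217728 y122 z122 (.cons c246 246 805306368 y246 z246 (.cons c138 138 3221225472 y138 z138 (.cons c139 139 3221225472 y139 z139 (.cons c271 271 64424509440 y271 z271 (.cons c273 273 64424509440 y273 z273 (.cons c295 295 805306368 y295 z295 (.cons c302 302 64424509440 y302 z302 (.cons c303 303 64424509440 y303 z303 .nil)))))))))))))))))))))))))))))))))) (.cons 17 584456342 (.cons c243 243 4608 y243 z243 (.cons c294 294 4608 y294 z294 (.cons c244 244 8192 y244 z244 (.cons c122 122 134217728 y122 z122 (.cons c246 246 805306368 y246 z246 (.cons c295 295 805306368 y295 z295 .nil)))))) (.cons 18 618010656 (.cons c275 275 43 y275 z275 (.cons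 c254 254 43 y254 z254 (.cons c304 304 43 y304 z304 (.cons c297 297 43 y297 z297 (.cons c276 276 80 y276 z276 (.cons c255 255 80 y255 z255 (.cons c256 256 132 y256 z256 (.cons c298 298 132 y298 z298 (.cons c257 257 256 y257 z257 (.cons c277 277 52224 y277 z277 (.cons c305 305 52224 y305 z305 (.cons c278 278 196608 y278 z278 (.cons c243 243 4608 y243 z243 (.cons c294 294 4608 y294 z294 (.cons c244 244 8192 y244 z244 (.cons c261 261 52224 y261 z261 (.cons c299 299 52224 y299 z299 (.cons c263 263 196608 y263 z263 (.cons c140 140 2359296 y140 z140 (.cons c136 136 2359296 y136 z136 (.cons c279 279 14155776 y279 z279 (.cons c267 267 14155776 y267 z267 (.cons c137 137 16777216 y137 z137 (.cons c269 269 100663296 y269 z269 (.cons c306 306 14155776 y306 z306 (.cons c300 300 14155776 y300 z300 (.cons c301 301 100663296 y301 z301 (.cons c141 141 3221225472 y141 z141 (.cons c281 281 64424509440 y281 z281 (.cons c307 307 64424509440 y307 z307 (.cons c122 122 134217728 y122 z122 (.cons c246 246 805306368 y246 z246 (.cons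 c139 139 3221225472 y139 z139 (.cons c273 273 64424509440 y273 z273 (.cons c295 295 805306368 y295 z295 (.cons c303 303 64424509440 y303 z303 .nil)))))))))))))))))))))))))))))))))))) (.cons 19 584456245 (.cons c243 243 4608 y243 z243 (.cons c294 294 4608 y294 z294 (.cons c244 244 8192 y244 z244 (.cons c122 122 134217728 y122 z122 (.cons c246 246 805306368 y246 z246 (.cons c295 295 805306368 y295 z295 .nil)))))) (.cons 22 618007552 .nil (.cons 23 584453141 .nil (.cons 24 617911425 (.cons c135 135 2359296 y135 z135 (.cons c136 136 2359296 y136 z136 (.cons c137 137 16777216 y137 z137 (.cons c122 122 134217728 y122 z122 (.cons c143 143 3221225472 y143 z143 (.cons c138 138 3221225472 y138 z138 (.cons c139 139 3221225472 y139 z139 (.cons c172 172 3221225472 y172 z172 (.cons c145 145 2359296 y145 z145 (.cons c173 173 2359296 y173 z173 (.cons c146 146 0 y146 z146 .nil))))))))))) (.cons 25 584357014 (.cons c122 122 134217728 y122 z122 (.cons c143 143 3221225472 y143 z143 (.cons c172 172 3221225472 y172 z172 (.cons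 c145 145 2359296 y145 z145 (.cons c173 173 2359296 y173 z173 (.cons c146 146 0 y146 z146 .nil)))))) (.cons 26 617911328 (.cons c140 140 2359296 y140 z140 (.cons c136 136 2359296 y136 z136 (.cons c137 137 16777216 y137 z137 (.cons c141 141 3221225472 y141 z141 (.cons c122 122 134217728 y122 z122 (.cons c139 139 3221225472 y139 z139 .nil)))))) (.cons 27 584356917 (.cons c122 122 134217728 y122 z122 (.cons c308 308 14155776 y308 z308 (.cons c309 309 3355500032 y309 z309 (.cons c310 310 14155776 y310 z310 .nil)))) (.cons 30 617908224 .nil (.cons 31 584353813 (.cons c316 316 14155776 y316 z316 (.cons c310 310 14155776 y310 z310 (.cons c317 317 14155776 y317 z317 (.cons c318 318 14155776 y318 z318 (.cons c319 319 14155776 y319 z319 (.cons c320 320 64438665216 y320 z320 .nil)))))) (.cons 48 516298881 .nil (.cons 49 482744470 .nil (.cons 50 516298784 .nil (.cons 51 482744373 .nil (.cons 54 516295680 (.cons c375 375 43 y375 z375 (.cons c376 376 52224 y376 z376 (.cons c377 377 14155776 y377 z377 (.cons c378 378 64424509440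 y378 z378 .nil)))) (.cons 55 482741269 .nil (.cons 56 516199553 .nil (.cons 57 482645142 .nil (.cons 58 516199456 .nil (.cons 59 482645045 (.cons c370 370 14155776 y370 z370 (.cons c310 310 14155776 y310 z310 (.cons c371 371 14155776 y371 z371 (.cons c372 372 14155776 y372 z372 (.cons c373 373 14155776 y373 z373 (.cons c374 374 14155819 y374 z374 .nil)))))) (.cons 62 516196352 .nil (.cons 63 482641941 (.cons c379 379 64424714240 y379 z379 (.cons c370 370 14155776 y370 z370 (.cons c380 380 64424714240 y380 z380 (.cons c381 381 14156032 y381 z381 (.cons c382 382 14156032 y382 z382 (.cons c383 383 64424509440 y383 z383 (.cons c316 316 14155776 y316 z316 (.cons c384 384 64424714240 y384 z384 (.cons c385 385 4163165696 y385 z385 (.cons c386 386 4163165696 y386 z386 (.cons c387 387 64424509440 y387 z387 (.cons c310 310 14155776 y310 z310 (.cons c317 317 14155776 y317 z317 (.cons c371 371 14155776 y371 z371 (.cons c388 388 64424714240 y388 z388 (.cons c372 372 14155776 y372 z372 (.cons c389 389 4163165696 y389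 z389 (.cons c373 373 14155776 y373 z373 (.cons c390 390 4163165696 y390 z390 (.cons c374 374 14155819 y374 z374 (.cons c391 391 64424509440 y391 z391 (.cons c318 318 14155776 y318 z318 (.cons c392 392 14156032 y392 z392 (.cons c319 319 14155776 y319 z319 (.cons c320 320 64438665216 y320 z320 (.cons c393 393 14156032 y393 z393 (.cons c394 394 64424509440 y394 z394 (.cons c395 395 16777391 y395 z395 (.cons c396 396 16777391 y396 z396 (.cons c397 397 43 y397 z397 (.cons c398 398 16777391 y398 z398 (.cons c399 399 43 y399 z399 (.cons c400 400 16777391 y400 z400 (.cons c401 401 43 y401 z401 (.cons c402 402 43 y402 z402 (.cons c403 403 52224 y403 z403 .nil)))))))))))))))))))))))))))))))))))) .nil))))))))))))))))))))))))))))))))))))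

theorem a51 : chkA TCf 621189249 E51 = true := by decide +kernel

theorem b51 : chkB row E51 = true := by decide +kernel

theorem d51 : chkC E51 = true := by decide +kernel

/-- windows 0:1 1:1 2:0 2:2 4:0 4:2 -/
def E53 : Es :=
  (.cons 0 621093025 (.cons c122 122 1 y122 z122 (.cons c142 142 6 y142 z142 (.cons c143 143 6 y143 z143 (.cons c144 144 24 y144 z144 (.cons c145 145 24 y145 z145 (.cons c146 146 32 y146 z146 .nil)))))) (.cons 1 587538614 (.cons c122 122 1 y122 z122 (.cons c123 123 0 y123 z123 (.cons c142 142 6 y142 z142 (.cons c143 143 6 y143 z143 (.cons c147 147 0 y147 z147 (.cons c149 149 0 y149 z149 (.cons c247 247 0 y247 z247 (.cons c282 282 0 y282 z282 (.cons c283 283 0 y283 z283 (.cons c144 144 24 y144 z144 (.cons c151 151 0 y151 z151 (.cons c145 145 24 y145 z145 (.cons c153 153 0 y153 z153 (.cons c146 146 32 y146 z146 (.cons c155 155 0 y155 z155 (.cons c284 284 0 y284 z284 (.cons c285 285 0 y285 z285 (.cons c125 125 0 y125 z125 (.cons c248 248 0 y248 z248 (.cons c126 126 0 y126 z126 (.cons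 c157 157 0 y157 z157 (.cons c158 158 0 y158 z158 (.cons c286 286 0 y286 z286 (.cons c159 159 0 y159 z159 (.cons c160 160 0 y160 z160 (.cons c163 163 0 y163 z163 (.cons c287 287 0 y287 z287 (.cons c164 164 0 y164 z164 (.cons c165 165 0 y165 z165 (.cons c288 288 0 y288 z288 (.cons c166 166 0 y166 z166 (.cons c167 167 0 y167 z167 (.cons c289 289 0 y289 z289 (.cons c168 168 0 y168 z168 .nil)))))))))))))))))))))))))))))))))) (.cons 2 621092928 (.cons c122 122 1 y122 z122 .nil) (.cons 3 587538517 (.cons c122 122 1 y122 z122 (.cons c123 123 0 y123 z123 (.cons c247 247 0 y247 z247 (.cons c125 125 0 y125 z125 (.cons c248 248 0 y248 z248 (.cons c126 126 0 y126 z126 .nil)))))) (.cons 4 621089921 (.cons c135 135 24 y135 z135 (.cons c136 136 24 y136 z136 (.cons c137 137 0 y137 z137 (.cons c122 122 1 y122 z122 (.cons c143 143 6 y143 z143 (.cons c138 138 6 y138 z138 (.cons c139 139 6 y139 z139 (.cons c172 172 6 y172 z172 (.cons c145 145 24 y145 z145 (.cons c173 173 24 y173 z173 (.cons c146 146 32 y146 z146 .nil)))))))))))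 (.cons 5 587535510 (.cons c122 122 1 y122 z122 (.cons c123 123 0 y123 z123 (.cons c143 143 6 y143 z143 (.cons c149 149 0 y149 z149 (.cons c247 247 0 y247 z247 (.cons c283 283 0 y283 z283 (.cons c172 172 6 y172 z172 (.cons c174 174 0 y174 z174 (.cons c290 290 0 y290 z290 (.cons c145 145 24 y145 z145 (.cons c173 173 24 y173 z173 (.cons c153 153 0 y153 z153 (.cons c176 176 0 y176 z176 (.cons c146 146 32 y146 z146 (.cons c155 155 0 y155 z155 (.cons c284 284 0 y284 z284 (.cons c291 291 0 y291 z291 (.cons c285 285 0 y285 z285 (.cons c125 125 0 y125 z125 (.cons c248 248 0 y248 z248 (.cons c126 126 0 y126 z126 (.cons c158 158 0 y158 z158 (.cons c286 286 0 y286 z286 (.cons c160 160 0 y160 z160 (.cons c177 177 0 y177 z177 (.cons c292 292 0 y292 z292 (.cons c178 178 0 y178 z178 (.cons c165 165 0 y165 z165 (.cons c179 179 0 y179 z179 (.cons c288 288 0 y288 z288 (.cons c293 293 0 y293 z293 (.cons c166 166 0 y166 z166 (.cons c180 180 0 y180 z180 (.cons c167 167 0 y167 z167 (.cons c289 289 0 y289 z289 (.cons c168 168 0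 y168 z168 .nil)))))))))))))))))))))))))))))))))))) (.cons 6 621089824 (.cons c140 140 24 y140 z140 (.cons c136 136 24 y136 z136 (.cons c137 137 0 y137 z137 (.cons c141 141 6 y141 z141 (.cons c122 122 1 y122 z122 (.cons c139 139 6 y139 z139 .nil)))))) (.cons 7 587535413 (.cons c122 122 1 y122 z122 (.cons c123 123 0 y123 z123 (.cons c247 247 0 y247 z247 (.cons c125 125 0 y125 z125 (.cons c248 248 0 y248 z248 (.cons c126 126 0 y126 z126 .nil)))))) (.cons 12 620990593 .nil (.cons 13 587436182 .nil (.cons 14 620990496 .nil (.cons 15 587436085 .nil (.cons 16 617914529 (.cons c122 122 1 y122 z122 (.cons c183 183 6 y183 z183 (.cons c142 142 6 y142 z142 (.cons c143 143 6 y143 z143 (.cons c224 224 6 y224 z224 (.cons c185 185 24 y185 z185 (.cons c186 186 0 y186 z186 (.cons c144 144 24 y144 z144 (.cons c145 145 24 y145 z145 (.cons c146 146 32 y146 z146 (.cons c225 225 24 y225 z225 .nil))))))))))) (.cons 17 584360118 (.cons c122 122 1 y122 z122 (.cons c183 183 6 y183 z183 (.cons c142 142 6 y142 z142 (.cons c143 143 6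 y143 z143 (.cons c224 224 6 y224 z224 (.cons c185 185 24 y185 z185 (.cons c186 186 0 y186 z186 (.cons c144 144 24 y144 z144 (.cons c145 145 24 y145 z145 (.cons c146 146 32 y146 z146 (.cons c225 225 24 y225 z225 .nil))))))))))) (.cons 18 617914432 (.cons c122 122 1 y122 z122 (.cons c183 183 6 y183 z183 (.cons c224 224 6 y224 z224 (.cons c185 185 24 y185 z185 (.cons c186 186 0 y186 z186 (.cons c225 225 24 y225 z225 .nil)))))) (.cons 19 584360021 (.cons c122 122 1 y122 z122 (.cons c183 183 6 y183 z183 (.cons c224 224 6 y224 z224 (.cons c185 185 24 y185 z185 (.cons c186 186 0 y186 z186 (.cons c225 225 24 y225 z225 .nil)))))) (.cons 20 617911425 (.cons c135 135 24 y135 z135 (.cons c136 136 24 y136 z136 (.cons c137 137 0 y137 z137 (.cons c122 122 1 y122 z122 (.cons c143 143 6 y143 z143 (.cons c138 138 6 y138 z138 (.cons c139 139 6 y139 z139 (.cons c172 172 6 y172 z172 (.cons c145 145 24 y145 z145 (.cons c173 173 24 y173 z173 (.cons c146 146 32 y146 z146 .nil))))))))))) (.cons 21 584357014 (.cons c122 122 1 y122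 z122 (.cons c143 143 6 y143 z143 (.cons c172 172 6 y172 z172 (.cons c145 145 24 y145 z145 (.cons c173 173 24 y173 z173 (.cons c146 146 32 y146 z146 .nil)))))) (.cons 22 617911328 (.cons c140 140 24 y140 z140 (.cons c136 136 24 y136 z136 (.cons c137 137 0 y137 z137 (.cons c141 141 6 y141 z141 (.cons c122 122 1 y122 z122 (.cons c139 139 6 y139 z139 .nil)))))) (.cons 23 584356917 (.cons c122 122 1 y122 z122 (.cons c308 308 0 y308 z308 (.cons c309 309 7 y309 z309 (.cons c310 310 0 y310 z310 .nil)))) (.cons 28 617812097 .nil (.cons 29 584257686 .nil (.cons 30 617812000 .nil (.cons 31 584257589 (.cons c323 323 0 y323 z323 (.cons c324 324 0 y324 z324 (.cons c325 325 0 y325 z325 (.cons c310 310 0 y310 z310 (.cons c326 326 0 y326 z326 (.cons c327 327 0 y327 z327 .nil)))))) (.cons 48 516202657 .nil (.cons 49 482648246 .nil (.cons 50 516202560 .nil (.cons 51 482648149 .nil (.cons 52 516199553 .nil (.cons 53 482645142 .nil (.cons 54 516199456 .nil (.cons 55 482645045 (.cons c370 370 0 y370 z370 (.cons c310 310 0 y310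 z310 (.cons c371 371 0 y371 z371 (.cons c372 372 0 y372 z372 (.cons c373 373 0 y373 z373 (.cons c374 374 0 y374 z374 .nil)))))) (.cons 60 516100225 .nil (.cons 61 482545814 .nil (.cons 62 516100128 .nil (.cons 63 482545717 (.cons c323 323 0 y323 z323 (.cons c324 324 0 y324 z324 (.cons c325 325 0 y325 z325 (.cons c310 310 0 y310 z310 (.cons c326 326 0 y326 z326 (.cons c327 327 0 y327 z327 .nil)))))) .nil))))))))))))))))))))))))))))))))))))

theorem a53 : chkA TCf 621093025 E53 = true := by decide +kernel

theorem b53 : chkB row E53 = true := by decide +kernel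

theorem d53 : chkC E53 = true := by decide +kernel

/-- windows 0:0 0:0 0:3 3:0 3:0 3:3 -/
def E65 : Es :=
  (.cons 0 516295680 (.cons c375 375 1 y375 z375 (.cons c376 376 2 y376 z376 (.cons c377 377 4 y377 z377 (.cons c378 378 8 y378 z378 .nil)))) (.cons 1 482741269 .nil (.cons 3 482741940 .nil (.cons 8 516196352 .nil (.cons 9 482641941 (.cons c379 379 8 y379 z379 (.cons c370 370 0 y370 z370 (.cons c380 380 8 y380 z380 (.cons c381 381 4 y381 z381 (.cons c382 382 4 y382 z382 (.cons c383 383 0 y383 z383 (.cons c316 316 0 y316 z316 (.cons c384 384 8 y384 z384 (.cons c385 385 2 y385 z385 (.cons c386 386 2 y386 z386 (.cons c387 387 0 y387 z387 (.cons c310 310 0 y310 z310 (.cons c317 317 0 y317 z317 (.cons c371 371 0 y371 z371 (.cons c388 388 8 y388 z388 (.cons c372 372 0 y372 z372 (.cons c389 389 2 y389 z389 (.cons c373 373 0 y373 z373 (.cons c390 390 2 y390 z390 (.cons c374 374 0 y374 z374 (.cons c391 391 0 y391 z391 (.cons c318 318 0 y318 z318 (.cons c392 392 4 y392 z392 (.cons c319 319 0 y319 z319 (.cons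 c320 320 0 y320 z320 (.cons c393 393 4 y393 z393 (.cons c394 394 0 y394 z394 (.cons c395 395 1 y395 z395 (.cons c396 396 1 y396 z396 (.cons c397 397 0 y397 z397 (.cons c398 398 1 y398 z398 (.cons c399 399 0 y399 z399 (.cons c400 400 1 y400 z400 (.cons c401 401 0 y401 z401 (.cons c402 402 0 y402 z402 (.cons c403 403 0 y403 z403 .nil)))))))))))))))))))))))))))))))))))) (.cons 11 482642612 (.cons c321 321 0 y321 z321 (.cons c404 404 4 y404 z404 (.cons c405 405 1 y405 z405 (.cons c406 406 1 y406 z406 (.cons c407 407 0 y407 z407 (.cons c408 408 8 y408 z408 (.cons c370 370 0 y370 z370 (.cons c380 380 8 y380 z380 (.cons c382 382 4 y382 z382 (.cons c383 383 0 y383 z383 (.cons c322 322 0 y322 z322 (.cons c409 409 8 y409 z409 (.cons c310 310 0 y310 z310 (.cons c317 317 0 y317 z317 (.cons c371 371 0 y371 z371 (.cons c388 388 8 y388 z388 (.cons c410 410 2 y410 z410 (.cons c411 411 0 y411 z411 (.cons c372 372 0 y372 z372 (.cons c389 389 2 y389 z389 (.cons c373 373 0 y373 z373 (.cons c390 390 2 y390 z390 (.cons c374 374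 0 y374 z374 (.cons c391 391 0 y391 z391 (.cons c319 319 0 y319 z319 (.cons c320 320 0 y320 z320 (.cons c393 393 4 y393 z393 (.cons c394 394 0 y394 z394 (.cons c398 398 1 y398 z398 (.cons c399 399 0 y399 z399 (.cons c400 400 1 y400 z400 (.cons c401 401 0 y401 z401 (.cons c402 402 0 y402 z402 (.cons c403 403 0 y403 z403 .nil)))))))))))))))))))))))))))))))))) (.cons 15 482664084 .nil (.cons 24 513017856 .nil (.cons 25 479463445 (.cons c316 316 0 y316 z316 (.cons c384 384 8 y384 z384 (.cons c414 414 8 y414 z414 (.cons c386 386 2 y386 z386 (.cons c387 387 0 y387 z387 (.cons c310 310 0 y310 z310 (.cons c317 317 0 y317 z317 (.cons c371 371 0 y371 z371 (.cons c388 388 8 y388 z388 (.cons c412 412 0 y412 z412 (.cons c415 415 8 y415 z415 (.cons c373 373 0 y373 z373 (.cons c390 390 2 y390 z390 (.cons c374 374 0 y374 z374 (.cons c391 391 0 y391 z391 (.cons c318 318 0 y318 z318 (.cons c392 392 4 y392 z392 (.cons c319 319 0 y319 z319 (.cons c320 320 0 y320 z320 (.cons c393 393 4 y393 z393 (.cons c394 394 0 y394 z394 (.cons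 c416 416 4 y416 z416 (.cons c417 417 0 y417 z417 (.cons c396 396 1 y396 z396 (.cons c397 397 0 y397 z397 (.cons c400 400 1 y400 z400 (.cons c401 401 0 y401 z401 (.cons c402 402 0 y402 z402 (.cons c403 403 0 y403 z403 (.cons c413 413 0 y413 z413 (.cons c418 418 2 y418 z418 (.cons c419 419 1 y419 z419 (.cons c420 420 1 y420 z420 (.cons c421 421 0 y421 z421 .nil)))))))))))))))))))))))))))))))))) (.cons 27 479464116 (.cons c321 321 0 y321 z321 (.cons c404 404 4 y404 z404 (.cons c422 422 4 y422 z422 (.cons c406 406 1 y406 z406 (.cons c407 407 0 y407 z407 (.cons c423 423 1 y423 z423 (.cons c322 322 0 y322 z322 (.cons c409 409 8 y409 z409 (.cons c310 310 0 y310 z310 (.cons c317 317 0 y317 z317 (.cons c371 371 0 y371 z371 (.cons c388 388 8 y388 z388 (.cons c424 424 8 y424 z424 (.cons c412 412 0 y412 z412 (.cons c415 415 8 y415 z415 (.cons c410 410 2 y410 z410 (.cons c411 411 0 y411 z411 (.cons c373 373 0 y373 z373 (.cons c390 390 2 y390 z390 (.cons c374 374 0 y374 z374 (.cons c391 391 0 y391 z391 (.cons c319 319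 0 y319 z319 (.cons c320 320 0 y320 z320 (.cons c393 393 4 y393 z393 (.cons c394 394 0 y394 z394 (.cons c416 416 4 y416 z416 (.cons c417 417 0 y417 z417 (.cons c400 400 1 y400 z400 (.cons c401 401 0 y401 z401 (.cons c402 402 0 y402 z402 (.cons c403 403 0 y403 z403 (.cons c425 425 2 y425 z425 (.cons c413 413 0 y413 z413 (.cons c418 418 2 y418 z418 (.cons c420 420 1 y420 z420 (.cons c421 421 0 y421 z421 .nil)))))))))))))))))))))))))))))))))))) (.cons 31 479485588 .nil (.cons 57 377751573 .nil (.cons 59 377752244 .nil (.cons 63 377773716 (.cons c426 426 1 y426 z426 (.cons c427 427 4 y427 z427 (.cons c428 428 2 y428 z428 (.cons c429 429 8 y429 z429 .nil)))) .nil))))))))))))))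

theorem a65 : chkA TCf 516295680 E65 = true := by decide +kernel

theorem b65 : chkB row E65 = true := by decide +kernel

theorem d65 : chkC E65 = true := by decide +kernel

end Vale.Agent.P032.H532.T
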