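import Vale.Agent.P032.H532.TTab

/-!
# Tile windows: closures 9 .. 64
-/

set_option maxRecDepth 20000

namespace Vale.Agent.P032.H532.T

/-- windows 0:2 2:1 3:1 4:0 4:2 0:0 -/
def E9 : Es :=
  (.cons 0 19412258 (.cons c73 73 3 y73 z73 (.cons c74 74 3 y74 z74 (.cons c75 75 4 y75 z75 (.cons c10 10 8 y10 z10 (.cons c76 76 48 y76 z76 (.cons c77 77 48 y77 z77 .nil)))))) (.cons 2 19412161 (.cons c78 78 0 y78 z78 (.cons c73 73 3 y73 z73 (.cons c79 79 0 y79 z79 (.cons c80 80 0 y80 z80 (.cons c74 74 3 y74 z74 (.cons c75 75 4 y75 z75 (.cons c81 81 0 y81 z81 (.cons c82 82 0 y82 z82 (.cons c83 83 0 y83 z83 (.cons c84 84 0 y84 z84 (.cons c85 85 0 y85 z85 (.cons c86 86 0 y86 z86 (.cons c87 87 0 y87 z87 (.cons c88 88 0 y88 z88 (.cons c89 89 0 y89 z89 (.cons c90 90 0 y90 z90 (.cons c91 91 0 y91 z91 (.cons c68 68 0 y68 z68 (.cons c92 92 0 y92 z92 (.cons c93 93 0 y93 z93 (.cons c10 10 8 y10 z10 (.cons c76 76 48 y76 z76 (.cons c77 77 48 y77 z77 (.cons c69 69 0 y69 z69 (.cons c94 94 0 y94 z94 (.cons c95 95 0 y95 z95 (.cons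 c70 70 0 y70 z70 (.cons c96 96 0 y96 z96 (.cons c97 97 0 y97 z97 (.cons c71 71 0 y71 z71 (.cons c72 72 0 y72 z72 (.cons c98 98 0 y98 z98 (.cons c99 99 0 y99 z99 (.cons c100 100 0 y100 z100 .nil)))))))))))))))))))))))))))))))))) (.cons 4 19409154 (.cons c10 10 8 y10 z10 .nil) (.cons 6 19409057 (.cons c68 68 0 y68 z68 (.cons c10 10 8 y10 z10 (.cons c69 69 0 y69 z69 (.cons c70 70 0 y70 z70 (.cons c71 71 0 y71 z71 (.cons c72 72 0 y72 z72 .nil)))))) (.cons 8 19312930 (.cons c74 74 3 y74 z74 (.cons c4 4 3 y4 z4 (.cons c101 101 3 y101 z101 (.cons c75 75 4 y75 z75 (.cons c10 10 8 y10 z10 (.cons c12 12 3 y12 z12 (.cons c77 77 48 y77 z77 (.cons c14 14 48 y14 z14 (.cons c16 16 48 y16 z16 (.cons c18 18 0 y18 z18 (.cons c102 102 48 y102 z102 .nil))))))))))) (.cons 10 19312833 (.cons c79 79 0 y79 z79 (.cons c103 103 0 y103 z103 (.cons c80 80 0 y80 z80 (.cons c74 74 3 y74 z74 (.cons c101 101 3 y101 z101 (.cons c75 75 4 y75 z75 (.cons c81 81 0 y81 z81 (.cons c104 104 0 y104 z104 (.cons c82 82 0 y82 z82 (.cons c86 86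 0 y86 z86 (.cons c105 105 0 y105 z105 (.cons c87 87 0 y87 z87 (.cons c88 88 0 y88 z88 (.cons c89 89 0 y89 z89 (.cons c106 106 0 y106 z106 (.cons c107 107 0 y107 z107 (.cons c90 90 0 y90 z90 (.cons c91 91 0 y91 z91 (.cons c68 68 0 y68 z68 (.cons c93 93 0 y93 z93 (.cons c10 10 8 y10 z10 (.cons c77 77 48 y77 z77 (.cons c108 108 0 y108 z108 (.cons c102 102 48 y102 z102 (.cons c69 69 0 y69 z69 (.cons c95 95 0 y95 z95 (.cons c109 109 0 y109 z109 (.cons c70 70 0 y70 z70 (.cons c97 97 0 y97 z97 (.cons c71 71 0 y71 z71 (.cons c72 72 0 y72 z72 (.cons c99 99 0 y99 z99 (.cons c100 100 0 y100 z100 (.cons c110 110 0 y110 z110 (.cons c111 111 0 y111 z111 (.cons c112 112 0 y112 z112 .nil)))))))))))))))))))))))))))))))))))) (.cons 12 19309826 (.cons c10 10 8 y10 z10 (.cons c12 12 3 y12 z12 (.cons c40 40 3 y40 z40 (.cons c16 16 48 y16 z16 (.cons c18 18 0 y18 z18 (.cons c44 44 48 y44 z44 .nil)))))) (.cons 14 19309729 (.cons c68 68 0 y68 z68 (.cons c10 10 8 y10 z10 (.cons c69 69 0 y69 z69 (.cons c70 70 0 y70 z70 (.cons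 c71 71 0 y71 z71 (.cons c72 72 0 y72 z72 .nil)))))) (.cons 24 16134434 .nil (.cons 26 16134337 .nil (.cons 28 16131330 .nil (.cons 30 16131233 .nil (.cons 32 723006754 (.cons c73 73 3 y73 z73 (.cons c74 74 3 y74 z74 (.cons c75 75 4 y75 z75 (.cons c10 10 8 y10 z10 (.cons c114 114 48 y114 z114 (.cons c76 76 48 y76 z76 (.cons c77 77 48 y77 z77 (.cons c118 118 48 y118 z118 (.cons c116 116 3 y116 z116 (.cons c119 119 3 y119 z119 (.cons c117 117 0 y117 z117 .nil))))))))))) (.cons 33 689452343 .nil (.cons 34 723006657 (.cons c73 73 3 y73 z73 (.cons c74 74 3 y74 z74 (.cons c75 75 4 y75 z75 (.cons c10 10 8 y10 z10 (.cons c114 114 48 y114 z114 (.cons c76 76 48 y76 z76 (.cons c77 77 48 y77 z77 (.cons c118 118 48 y118 z118 (.cons c116 116 3 y116 z116 (.cons c119 119 3 y119 z119 (.cons c117 117 0 y117 z117 .nil))))))))))) (.cons 35 689452246 .nil (.cons 36 723003650 (.cons c10 10 8 y10 z10 (.cons c114 114 48 y114 z114 (.cons c118 118 48 y118 z118 (.cons c116 116 3 y116 z116 (.cons c119 119 3 y119 z119 (.cons c117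 117 0 y117 z117 .nil)))))) (.cons 37 689449239 .nil (.cons 38 723003553 (.cons c10 10 8 y10 z10 (.cons c114 114 48 y114 z114 (.cons c118 118 48 y118 z118 (.cons c116 116 3 y116 z116 (.cons c119 119 3 y119 z119 (.cons c117 117 0 y117 z117 .nil)))))) (.cons 39 689449142 .nil (.cons 40 722907426 (.cons c74 74 3 y74 z74 (.cons c4 4 3 y4 z4 (.cons c101 101 3 y101 z101 (.cons c75 75 4 y75 z75 (.cons c10 10 8 y10 z10 (.cons c12 12 3 y12 z12 (.cons c77 77 48 y77 z77 (.cons c14 14 48 y14 z14 (.cons c16 16 48 y16 z16 (.cons c18 18 0 y18 z18 (.cons c102 102 48 y102 z102 .nil))))))))))) (.cons 41 689353015 .nil (.cons 42 722907329 (.cons c74 74 3 y74 z74 (.cons c101 101 3 y101 z101 (.cons c75 75 4 y75 z75 (.cons c10 10 8 y10 z10 (.cons c77 77 48 y77 z77 (.cons c102 102 48 y102 z102 .nil)))))) (.cons 43 689352918 .nil (.cons 44 722904322 (.cons c10 10 8 y10 z10 (.cons c12 12 3 y12 z12 (.cons c40 40 3 y40 z40 (.cons c16 16 48 y16 z16 (.cons c18 18 0 y18 z18 (.cons c44 44 48 y44 z44 .nil)))))) (.cons 45 689349911 .nil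 (.cons 46 722904225 (.cons c10 10 8 y10 z10 (.cons c120 120 0 y120 z120 (.cons c121 121 11 y121 z121 (.cons c122 122 0 y122 z122 .nil)))) (.cons 47 689349814 (.cons c122 122 0 y122 z122 (.cons c123 123 0 y123 z123 (.cons c124 124 0 y124 z124 (.cons c125 125 0 y125 z125 (.cons c126 126 0 y126 z126 (.cons c127 127 0 y127 z127 .nil)))))) (.cons 56 719728930 .nil (.cons 57 686174519 .nil (.cons 58 719728833 .nil (.cons 59 686174422 .nil (.cons 60 719725826 .nil (.cons 61 686171415 .nil (.cons 62 719725729 (.cons c182 182 0 y182 z182 (.cons c122 122 0 y122 z122 (.cons c183 183 0 y183 z183 (.cons c184 184 0 y184 z184 (.cons c185 185 0 y185 z185 (.cons c186 186 0 y186 z186 .nil)))))) (.cons 63 686171318 (.cons c182 182 0 y182 z182 (.cons c122 122 0 y122 z122 (.cons c183 183 0 y183 z183 (.cons c184 184 0 y184 z184 (.cons c185 185 0 y185 z185 (.cons c186 186 0 y186 z186 .nil)))))) .nil))))))))))))))))))))))))))))))))))))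

theorem a9 : chkA TCf 19412258 E9 = true := by decide +kernel

theorem b9 : chkB row E9 = true := by decide +kernel

theorem d9 : chkC E9 = true := by decide +kernel

/-- windows 0:2 2:1 3:0 3:1 4:1 5:1 -/
def E30 : Es :=
  (.cons 0 722907426 (.cons c74 74 39 y74 z74 (.cons c4 4 39 y4 z4 (.cons c101 101 39 y101 z101 (.cons c75 75 8 y75 z75 (.cons c10 10 16 y10 z10 (.cons c12 12 39 y12 z12 (.cons c77 77 1472 y77 z77 (.cons c14 14 1472 y14 z14 (.cons c16 16 1472 y16 z16 (.cons c18 18 512 y18 z18 (.cons c102 102 1472 y102 z102 .nil))))))))))) (.cons 1 689353015 .nil (.cons 2 722907329 (.cons c74 74 39 y74 z74 (.cons c101 101 39 y101 z101 (.cons c75 75 8 y75 z75 (.cons c10 10 16 y10 z10 (.cons c77 77 1472 y77 z77 (.cons c102 102 1472 y102 z102 .nil)))))) (.cons 3 689352918 .nil (.cons 4 722904322 (.cons c10 10 16 y10 z10 (.cons c12 12 39 y12 z12 (.cons c40 40 39 y40 z40 (.cons c16 16 1472 y16 z16 (.cons c18 18 512 y18 z18 (.cons c44 44 1472 y44 z44 .nil)))))) (.cons 5 689349911 .nil (.cons 6 722904225 (.cons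 c10 10 16 y10 z10 (.cons c120 120 0 y120 z120 (.cons c121 121 55 y121 z121 (.cons c122 122 0 y122 z122 .nil)))) (.cons 7 689349814 (.cons c122 122 0 y122 z122 (.cons c123 123 0 y123 z123 (.cons c124 124 0 y124 z124 (.cons c125 125 0 y125 z125 (.cons c126 126 0 y126 z126 (.cons c127 127 0 y127 z127 .nil)))))) (.cons 12 722804994 .nil (.cons 13 689250583 .nil (.cons 14 722804897 (.cons c122 122 0 y122 z122 (.cons c142 142 0 y142 z142 (.cons c143 143 0 y143 z143 (.cons c144 144 0 y144 z144 (.cons c145 145 0 y145 z145 (.cons c146 146 0 y146 z146 .nil)))))) (.cons 15 689250486 (.cons c122 122 0 y122 z122 (.cons c123 123 0 y123 z123 (.cons c124 124 0 y124 z124 (.cons c142 142 0 y142 z142 (.cons c143 143 0 y143 z143 (.cons c147 147 512 y147 z147 (.cons c148 148 512 y148 z148 (.cons c149 149 512 y149 z149 (.cons c150 150 512 y150 z150 (.cons c144 144 0 y144 z144 (.cons c151 151 1535 y151 z151 (.cons c152 152 1535 y152 z152 (.cons c145 145 0 y145 z145 (.cons c153 153 1535 y153 z153 (.cons c154 154 1535 y154 z154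 (.cons c146 146 0 y146 z146 (.cons c155 155 0 y155 z155 (.cons c156 156 0 y156 z156 (.cons c125 125 0 y125 z125 (.cons c126 126 0 y126 z126 (.cons c157 157 0 y157 z157 (.cons c158 158 0 y158 z158 (.cons c159 159 0 y159 z159 (.cons c160 160 0 y160 z160 (.cons c127 127 0 y127 z127 (.cons c161 161 0 y161 z161 (.cons c162 162 0 y162 z162 (.cons c163 163 0 y163 z163 (.cons c164 164 0 y164 z164 (.cons c165 165 0 y165 z165 (.cons c166 166 0 y166 z166 (.cons c167 167 0 y167 z167 (.cons c168 168 0 y168 z168 (.cons c169 169 0 y169 z169 (.cons c170 170 0 y170 z170 (.cons c171 171 0 y171 z171 .nil)))))))))))))))))))))))))))))))))))) (.cons 16 719728930 .nil (.cons 17 686174519 .nil (.cons 18 719728833 .nil (.cons 19 686174422 .nil (.cons 20 719725826 .nil (.cons 21 686171415 .nil (.cons 22 719725729 (.cons c182 182 0 y182 z182 (.cons c122 122 0 y122 z122 (.cons c183 183 0 y183 z183 (.cons c184 184 0 y184 z184 (.cons c185 185 0 y185 z185 (.cons c186 186 0 y186 z186 .nil)))))) (.cons 23 686171318 (.cons c182 182 0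 y182 z182 (.cons c122 122 0 y122 z122 (.cons c183 183 0 y183 z183 (.cons c184 184 0 y184 z184 (.cons c185 185 0 y185 z185 (.cons c186 186 0 y186 z186 .nil)))))) (.cons 28 719626498 .nil (.cons 29 686072087 .nil (.cons 30 719626401 (.cons c122 122 0 y122 z122 (.cons c183 183 0 y183 z183 (.cons c142 142 0 y142 z142 (.cons c143 143 0 y143 z143 (.cons c224 224 0 y224 z224 (.cons c185 185 0 y185 z185 (.cons c186 186 0 y186 z186 (.cons c144 144 0 y144 z144 (.cons c145 145 0 y145 z145 (.cons c146 146 0 y146 z146 (.cons c225 225 0 y225 z225 .nil))))))))))) (.cons 31 686071990 (.cons c122 122 0 y122 z122 (.cons c183 183 0 y183 z183 (.cons c142 142 0 y142 z142 (.cons c143 143 0 y143 z143 (.cons c224 224 0 y224 z224 (.cons c185 185 0 y185 z185 (.cons c186 186 0 y186 z186 (.cons c144 144 0 y144 z144 (.cons c145 145 0 y145 z145 (.cons c146 146 0 y146 z146 (.cons c225 225 0 y225 z225 .nil))))))))))) (.cons 32 621195554 .nil (.cons 33 587641143 .nil (.cons 34 621195457 .nil (.cons 35 587641046 .nil (.cons 36 621192450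 .nil (.cons 37 587638039 .nil (.cons 38 621192353 (.cons c242 242 0 y242 z242 (.cons c243 243 0 y243 z243 (.cons c244 244 0 y244 z244 (.cons c122 122 0 y122 z122 (.cons c245 245 0 y245 z245 (.cons c246 246 0 y246 z246 .nil)))))) (.cons 39 587637942 (.cons c242 242 0 y242 z242 (.cons c243 243 0 y243 z243 (.cons c244 244 0 y244 z244 (.cons c122 122 0 y122 z122 (.cons c123 123 0 y123 z123 (.cons c245 245 0 y245 z245 (.cons c246 246 0 y246 z246 (.cons c247 247 0 y247 z247 (.cons c125 125 0 y125 z125 (.cons c248 248 0 y248 z248 (.cons c126 126 0 y126 z126 .nil))))))))))) (.cons 44 621093122 .nil (.cons 45 587538711 .nil (.cons 46 621093025 (.cons c122 122 0 y122 z122 (.cons c142 142 0 y142 z142 (.cons c143 143 0 y143 z143 (.cons c144 144 0 y144 z144 (.cons c145 145 0 y145 z145 (.cons c146 146 0 y146 z146 .nil)))))) (.cons 47 587538614 (.cons c122 122 0 y122 z122 (.cons c123 123 0 y123 z123 (.cons c142 142 0 y142 z142 (.cons c143 143 0 y143 z143 (.cons c147 147 512 y147 z147 (.cons c149 149 512 y149 z149 (.cons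 c247 247 0 y247 z247 (.cons c282 282 512 y282 z282 (.cons c283 283 512 y283 z283 (.cons c144 144 0 y144 z144 (.cons c151 151 1535 y151 z151 (.cons c145 145 0 y145 z145 (.cons c153 153 1535 y153 z153 (.cons c146 146 0 y146 z146 (.cons c155 155 0 y155 z155 (.cons c284 284 1535 y284 z284 (.cons c285 285 0 y285 z285 (.cons c125 125 0 y125 z125 (.cons c248 248 0 y248 z248 (.cons c126 126 0 y126 z126 (.cons c157 157 0 y157 z157 (.cons c158 158 0 y158 z158 (.cons c286 286 0 y286 z286 (.cons c159 159 0 y159 z159 (.cons c160 160 0 y160 z160 (.cons c163 163 0 y163 z163 (.cons c287 287 0 y287 z287 (.cons c164 164 0 y164 z164 (.cons c165 165 0 y165 z165 (.cons c288 288 0 y288 z288 (.cons c166 166 0 y166 z166 (.cons c167 167 0 y167 z167 (.cons c289 289 0 y289 z289 (.cons c168 168 0 y168 z168 .nil)))))))))))))))))))))))))))))))))) (.cons 48 618017058 .nil (.cons 49 584462647 .nil (.cons 50 618016961 .nil (.cons 51 584462550 .nil (.cons 52 618013954 .nil (.cons 53 584459543 .nil (.cons 54 618013857 (.cons c243 243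 0 y243 z243 (.cons c182 182 0 y182 z182 (.cons c294 294 0 y294 z294 (.cons c244 244 0 y244 z244 (.cons c122 122 0 y122 z122 (.cons c183 183 0 y183 z183 (.cons c246 246 0 y246 z246 (.cons c184 184 0 y184 z184 (.cons c185 185 0 y185 z185 (.cons c186 186 0 y186 z186 (.cons c295 295 0 y295 z295 .nil))))))))))) (.cons 55 584459446 (.cons c243 243 0 y243 z243 (.cons c182 182 0 y182 z182 (.cons c294 294 0 y294 z294 (.cons c244 244 0 y244 z244 (.cons c122 122 0 y122 z122 (.cons c183 183 0 y183 z183 (.cons c246 246 0 y246 z246 (.cons c184 184 0 y184 z184 (.cons c185 185 0 y185 z185 (.cons c186 186 0 y186 z186 (.cons c295 295 0 y295 z295 .nil))))))))))) (.cons 60 617914626 .nil (.cons 61 584360215 .nil (.cons 62 617914529 (.cons c122 122 0 y122 z122 (.cons c183 183 0 y183 z183 (.cons c142 142 0 y142 z142 (.cons c143 143 0 y143 z143 (.cons c224 224 0 y224 z224 (.cons c185 185 0 y185 z185 (.cons c186 186 0 y186 z186 (.cons c144 144 0 y144 z144 (.cons c145 145 0 y145 z145 (.cons c146 146 0 y146 z146 (.cons c225 225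 0 y225 z225 .nil))))))))))) (.cons 63 584360118 (.cons c122 122 0 y122 z122 (.cons c183 183 0 y183 z183 (.cons c142 142 0 y142 z142 (.cons c143 143 0 y143 z143 (.cons c224 224 0 y224 z224 (.cons c185 185 0 y185 z185 (.cons c186 186 0 y186 z186 (.cons c144 144 0 y144 z144 (.cons c145 145 0 y145 z145 (.cons c146 146 0 y146 z146 (.cons c225 225 0 y225 z225 .nil))))))))))) .nil))))))))))))))))))))))))))))))))))))))))))))))))

theorem a30 : chkA TCf 722907426 E30 = true := by decide +kernel

theorem b30 : chkB row E30 = true := by decide +kernel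

theorem d30 : chkC E30 = true := by decide +kernel

/-- windows 0:0 0:2 2:1 3:0 3:2 5:1 -/
def E42 : Es :=
  (.cons 0 719725632 (.cons c191 191 268435601 y191 z191 (.cons c192 192 69642 y192 z192 (.cons c193 193 32772 y193 z193 (.cons c194 194 69642 y194 z194 (.cons c195 195 268435601 y195 z195 (.cons c182 182 536870944 y182 z182 (.cons c128 128 67108928 y128 z128 (.cons c196 196 268435601 y196 z196 (.cons c197 197 5368709888 y197 z197 (.cons c198 198 5368709888 y198 z198 (.cons c199 199 17179870208 y199 z199 (.cons c129 129 18432 y129 z129 (.cons c200 200 69642 y200 z200 (.cons c130 130 8192 y130 z130 (.cons c131 131 18432 y131 z131 (.cons c201 201 32772 y201 z201 (.cons c202 202 69642 y202 z202 (.cons c203 203 10878976 y203 z203 (.cons c204 204 10878976 y204 z204 (.cons c205 205 34078720 y205 z205 (.cons c206 206 5242880 y206 z206 (.cons c207 207 10878976 y207 z207 (.cons c208 208 5242880 y208 z208 (.cons c209 209 10878976 y209 z209 (.cons c210 210 16777216 y210 z210 (.cons c211 211 34078720 y211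 z211 (.cons c132 132 67108928 y132 z132 (.cons c122 122 134217728 y122 z122 (.cons c212 212 268435601 y212 z212 (.cons c183 183 536870944 y183 z183 (.cons c213 213 5368709888 y213 z213 (.cons c184 184 10737418240 y184 z184 (.cons c214 214 5368709888 y214 z214 (.cons c185 185 10737418240 y185 z185 (.cons c215 215 17179870208 y215 z215 (.cons c186 186 34359738368 y186 z186 .nil)))))))))))))))))))))))))))))))))))) (.cons 1 686171221 (.cons c193 193 32772 y193 z193 (.cons c194 194 69642 y194 z194 (.cons c195 195 268435601 y195 z195 (.cons c182 182 536870944 y182 z182 (.cons c216 216 268435601 y216 z216 (.cons c130 130 8192 y130 z130 (.cons c131 131 18432 y131 z131 (.cons c201 201 32772 y201 z201 (.cons c202 202 69642 y202 z202 (.cons c206 206 5242880 y206 z206 (.cons c207 207 10878976 y207 z207 (.cons c208 208 5242880 y208 z208 (.cons c209 209 10878976 y209 z209 (.cons c210 210 16777216 y210 z210 (.cons c211 211 34078720 y211 z211 (.cons c132 132 67108928 y132 z132 (.cons c122 122 134217728 y122 z122 (.cons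 c212 212 268435601 y212 z212 (.cons c183 183 536870944 y183 z183 (.cons c133 133 67108928 y133 z133 (.cons c217 217 268435601 y217 z217 (.cons c213 213 5368709888 y213 z213 (.cons c184 184 10737418240 y184 z184 (.cons c214 214 5368709888 y214 z214 (.cons c185 185 10737418240 y185 z185 (.cons c215 215 17179870208 y215 z215 (.cons c186 186 34359738368 y186 z186 (.cons c218 218 5368709888 y218 z218 (.cons c219 219 17179870208 y219 z219 (.cons c134 134 18432 y134 z134 (.cons c220 220 69642 y220 z220 (.cons c221 221 10878976 y221 z221 (.cons c222 222 10878976 y222 z222 (.cons c223 223 34078720 y223 z223 .nil)))))))))))))))))))))))))))))))))) (.cons 3 686171892 .nil (.cons 4 719722528 (.cons c140 140 67108928 y140 z140 (.cons c128 128 67108928 y128 z128 (.cons c136 136 67108928 y136 z136 (.cons c137 137 0 y137 z137 (.cons c141 141 18432 y141 z141 (.cons c129 129 18432 y129 z129 (.cons c130 130 8192 y130 z130 (.cons c131 131 18432 y131 z131 (.cons c132 132 67108928 y132 z132 (.cons c122 122 134217728 y122 z122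 (.cons c139 139 18432 y139 z139 .nil))))))))))) (.cons 5 686168117 (.cons c130 130 8192 y130 z130 (.cons c131 131 18432 y131 z131 (.cons c132 132 67108928 y132 z132 (.cons c122 122 134217728 y122 z122 (.cons c133 133 67108928 y133 z133 (.cons c134 134 18432 y134 z134 .nil)))))) (.cons 7 686168788 .nil (.cons 8 719626304 (.cons c128 128 67108928 y128 z128 (.cons c196 196 268435601 y196 z196 (.cons c226 226 268435601 y226 z226 (.cons c198 198 5368709888 y198 z198 (.cons c199 199 17179870208 y199 z199 (.cons c129 129 18432 y129 z129 (.cons c200 200 69642 y200 z200 (.cons c130 130 8192 y130 z130 (.cons c131 131 18432 y131 z131 (.cons c201 201 32772 y201 z201 (.cons c202 202 69642 y202 z202 (.cons c227 227 32772 y227 z227 (.cons c228 228 69642 y228 z228 (.cons c204 204 10878976 y204 z204 (.cons c205 205 34078720 y205 z205 (.cons c208 208 5242880 y208 z208 (.cons c209 209 10878976 y209 z209 (.cons c210 210 16777216 y210 z210 (.cons c211 211 34078720 y211 z211 (.cons c132 132 67108928 y132 z132 (.cons c122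 122 134217728 y122 z122 (.cons c212 212 268435601 y212 z212 (.cons c183 183 536870944 y183 z183 (.cons c229 229 268435601 y229 z229 (.cons c224 224 536870944 y224 z224 (.cons c214 214 5368709888 y214 z214 (.cons c185 185 10737418240 y185 z185 (.cons c215 215 17179870208 y215 z215 (.cons c186 186 34359738368 y186 z186 (.cons c230 230 10878976 y230 z230 (.cons c231 231 5242880 y231 z231 (.cons c232 232 10878976 y232 z232 (.cons c233 233 5368709888 y233 z233 (.cons c225 225 10737418240 y225 z225 .nil)))))))))))))))))))))))))))))))))) (.cons 9 686071893 (.cons c130 130 8192 y130 z130 (.cons c131 131 18432 y131 z131 (.cons c201 201 32772 y201 z201 (.cons c202 202 69642 y202 z202 (.cons c227 227 32772 y227 z227 (.cons c228 228 69642 y228 z228 (.cons c208 208 5242880 y208 z208 (.cons c209 209 10878976 y209 z209 (.cons c210 210 16777216 y210 z210 (.cons c211 211 34078720 y211 z211 (.cons c132 132 67108928 y132 z132 (.cons c122 122 134217728 y122 z122 (.cons c212 212 268435601 y212 z212 (.cons c183 183 536870944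 y183 z183 (.cons c133 133 67108928 y133 z133 (.cons c217 217 268435601 y217 z217 (.cons c229 229 268435601 y229 z229 (.cons c224 224 536870944 y224 z224 (.cons c234 234 268435601 y234 z234 (.cons c214 214 5368709888 y214 z214 (.cons c185 185 10737418240 y185 z185 (.cons c215 215 17179870208 y215 z215 (.cons c186 186 34359738368 y186 z186 (.cons c218 218 5368709888 y218 z218 (.cons c219 219 17179870208 y219 z219 (.cons c231 231 5242880 y231 z231 (.cons c232 232 10878976 y232 z232 (.cons c233 233 5368709888 y233 z233 (.cons c225 225 10737418240 y225 z225 (.cons c235 235 5368709888 y235 z235 (.cons c134 134 18432 y134 z134 (.cons c220 220 69642 y220 z220 (.cons c236 236 69642 y236 z236 (.cons c222 222 10878976 y222 z222 (.cons c223 223 34078720 y223 z223 (.cons c237 237 10878976 y237 z237 .nil)))))))))))))))))))))))))))))))))))) (.cons 11 686072564 .nil (.cons 12 719623200 (.cons c140 140 67108928 y140 z140 (.cons c128 128 67108928 y128 z128 (.cons c136 136 67108928 y136 z136 (.cons c137 137 0 y137 z137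 (.cons c141 141 18432 y141 z141 (.cons c129 129 18432 y129 z129 (.cons c130 130 8192 y130 z130 (.cons c131 131 18432 y131 z131 (.cons c132 132 67108928 y132 z132 (.cons c122 122 134217728 y122 z122 (.cons c139 139 18432 y139 z139 .nil))))))))))) (.cons 13 686068789 (.cons c130 130 8192 y130 z130 (.cons c131 131 18432 y131 z131 (.cons c132 132 67108928 y132 z132 (.cons c122 122 134217728 y122 z122 (.cons c133 133 67108928 y133 z133 (.cons c134 134 18432 y134 z134 .nil)))))) (.cons 15 686069460 .nil (.cons 24 716447808 .nil (.cons 25 682893397 .nil (.cons 27 682894068 (.cons c238 238 5368709888 y238 z238 (.cons c239 239 268435601 y239 z239 (.cons c240 240 10878976 y240 z240 (.cons c241 241 69642 y241 z241 .nil)))) (.cons 28 716444704 .nil (.cons 29 682890293 .nil (.cons 31 682890964 .nil (.cons 32 618013760 (.cons c243 243 536870944 y243 z243 (.cons c182 182 536870944 y182 z182 (.cons c294 294 536870944 y294 z294 (.cons c244 244 0 y244 z244 (.cons c122 122 134217728 y122 z122 (.cons c183 183 536870944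 y183 z183 (.cons c246 246 10737418240 y246 z246 (.cons c184 184 10737418240 y184 z184 (.cons c185 185 10737418240 y185 z185 (.cons c186 186 34359738368 y186 z186 (.cons c295 295 10737418240 y295 z295 .nil))))))))))) (.cons 33 584459349 (.cons c243 243 536870944 y243 z243 (.cons c182 182 536870944 y182 z182 (.cons c294 294 536870944 y294 z294 (.cons c244 244 0 y244 z244 (.cons c122 122 134217728 y122 z122 (.cons c183 183 536870944 y183 z183 (.cons c246 246 10737418240 y246 z246 (.cons c184 184 10737418240 y184 z184 (.cons c185 185 10737418240 y185 z185 (.cons c186 186 34359738368 y186 z186 (.cons c295 295 10737418240 y295 z295 .nil))))))))))) (.cons 35 584460020 .nil (.cons 36 618010656 (.cons c275 275 268435601 y275 z275 (.cons c254 254 268435601 y254 z254 (.cons c304 304 268435601 y304 z304 (.cons c297 297 268435601 y297 z297 (.cons c276 276 0 y276 z276 (.cons c255 255 0 y255 z255 (.cons c256 256 0 y256 z256 (.cons c298 298 0 y298 z298 (.cons c257 257 0 y257 z257 (.cons c277 277 69642 y277 z277 (.cons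 c305 305 69642 y305 z305 (.cons c278 278 0 y278 z278 (.cons c243 243 536870944 y243 z243 (.cons c294 294 536870944 y294 z294 (.cons c244 244 0 y244 z244 (.cons c261 261 69642 y261 z261 (.cons c299 299 69642 y299 z299 (.cons c263 263 0 y263 z263 (.cons c140 140 67108928 y140 z140 (.cons c136 136 67108928 y136 z136 (.cons c279 279 5368709888 y279 z279 (.cons c267 267 5368709888 y267 z267 (.cons c137 137 0 y137 z137 (.cons c269 269 0 y269 z269 (.cons c306 306 5368709888 y306 z306 (.cons c300 300 5368709888 y300 z300 (.cons c301 301 0 y301 z301 (.cons c141 141 18432 y141 z141 (.cons c281 281 10878976 y281 z281 (.cons c307 307 10878976 y307 z307 (.cons c122 122 134217728 y122 z122 (.cons c246 246 10737418240 y246 z246 (.cons c139 139 18432 y139 z139 (.cons c273 273 10878976 y273 z273 (.cons c295 295 10737418240 y295 z295 (.cons c303 303 10878976 y303 z303 .nil)))))))))))))))))))))))))))))))))))) (.cons 37 584456245 (.cons c243 243 536870944 y243 z243 (.cons c294 294 536870944 y294 z294 (.cons c244 244 0 y244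 z244 (.cons c122 122 134217728 y122 z122 (.cons c246 246 10737418240 y246 z246 (.cons c295 295 10737418240 y295 z295 .nil)))))) (.cons 39 584456916 .nil (.cons 40 617914432 (.cons c122 122 134217728 y122 z122 (.cons c183 183 536870944 y183 z183 (.cons c224 224 536870944 y224 z224 (.cons c185 185 10737418240 y185 z185 (.cons c186 186 34359738368 y186 z186 (.cons c225 225 10737418240 y225 z225 .nil)))))) (.cons 41 584360021 (.cons c122 122 134217728 y122 z122 (.cons c183 183 536870944 y183 z183 (.cons c224 224 536870944 y224 z224 (.cons c185 185 10737418240 y185 z185 (.cons c186 186 34359738368 y186 z186 (.cons c225 225 10737418240 y225 z225 .nil)))))) (.cons 43 584360692 .nil (.cons 44 617911328 (.cons c140 140 67108928 y140 z140 (.cons c136 136 67108928 y136 z136 (.cons c137 137 0 y137 z137 (.cons c141 141 18432 y141 z141 (.cons c122 122 134217728 y122 z122 (.cons c139 139 18432 y139 z139 .nil)))))) (.cons 45 584356917 (.cons c122 122 134217728 y122 z122 (.cons c308 308 5368709888 y308 z308 (.cons c309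 309 671176746 y309 z309 (.cons c310 310 5368709888 y310 z310 .nil)))) (.cons 47 584357588 (.cons c311 311 5368709888 y311 z311 (.cons c312 312 5379588864 y312 z312 (.cons c313 313 5368709888 y313 z313 (.cons c314 314 5368709888 y314 z314 (.cons c315 315 5368709888 y315 z315 (.cons c310 310 5368709888 y310 z310 .nil)))))) (.cons 56 614735936 .nil (.cons 57 581181525 .nil (.cons 59 581182196 .nil (.cons 60 614732832 .nil (.cons 61 581178421 (.cons c310 310 5368709888 y310 z310 (.cons c330 330 5368709888 y330 z330 (.cons c331 331 5368709888 y331 z331 (.cons c332 332 5368709888 y332 z332 (.cons c333 333 5368709888 y333 z333 (.cons c334 334 5637145489 y334 z334 .nil)))))) (.cons 63 581179092 (.cons c311 311 5368709888 y311 z311 (.cons c335 335 5385487104 y335 z335 (.cons c336 336 5385487104 y336 z336 (.cons c312 312 5379588864 y312 z312 (.cons c313 313 5368709888 y313 z313 (.cons c337 337 10878976 y337 z337 (.cons c338 338 10878976 y338 z338 (.cons c339 339 5385487104 y339 z339 (.cons c340 340 5385487104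 y340 z340 (.cons c341 341 268476565 y341 z341 (.cons c342 342 268476565 y342 z342 (.cons c343 343 268435601 y343 z343 (.cons c344 344 268435601 y344 z344 (.cons c345 345 268476565 y345 z345 (.cons c346 346 268435601 y346 z346 (.cons c347 347 268476565 y347 z347 (.cons c348 348 69642 y348 z348 (.cons c349 349 268435601 y349 z349 (.cons c314 314 5368709888 y314 z314 (.cons c315 315 5368709888 y315 z315 (.cons c310 310 5368709888 y310 z310 (.cons c350 350 34404696064 y350 z350 (.cons c351 351 34404696064 y351 z351 (.cons c352 352 34404696064 y352 z352 (.cons c353 353 34404696064 y353 z353 (.cons c330 330 5368709888 y330 z330 (.cons c331 331 5368709888 y331 z331 (.cons c354 354 11475703914 y354 z354 (.cons c355 355 11475703914 y355 z355 (.cons c332 332 5368709888 y332 z332 (.cons c356 356 11475703914 y356 z356 (.cons c357 357 11475703914 y357 z357 (.cons c333 333 5368709888 y333 z333 (.cons c358 358 10878976 y358 z358 (.cons c359 359 10878976 y359 z359 (.cons c334 334 5637145489 y334 z334 .nil))))))))))))))))))))))))))))))))))))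 .nil))))))))))))))))))))))))))))))))))))

theorem a42 : chkA TCf 719725632 E42 = true := by decide +kernel

theorem b42 : chkB row E42 = true := by decide +kernel

theorem d42 : chkC E42 = true := by decide +kernel

/-- windows 0:0 0:1 1:2 3:0 3:2 5:1 -/
def E44 : Es :=
  (.cons 0 719722528 (.cons c140 140 263 y140 z140 (.cons c128 128 263 y128 z128 (.cons c136 136 263 y136 z136 (.cons c137 137 8 y137 z137 (.cons c141 141 1200 y141 z141 (.cons c129 129 1200 y129 z129 (.cons c130 130 64 y130 z130 (.cons c131 131 1200 y131 z131 (.cons c132 132 263 y132 z132 (.cons c122 122 512 y122 z122 (.cons c139 139 1200 y139 z139 .nil))))))))))) (.cons 1 686168117 (.cons c130 130 64 y130 z130 (.cons c131 131 1200 y131 z131 (.cons c132 132 263 y132 z132 (.cons c122 122 512 y122 z122 (.cons c133 133 263 y133 z133 (.cons c134 134 1200 y134 z134 .nil)))))) (.cons 3 686168788 .nil (.cons 4 719719424 .nil (.cons 5 686165013 .nil (.cons 7 686165684 .nil (.cons 8 719623200 (.cons c140 140 263 y140 z140 (.cons c128 128 263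 y128 z128 (.cons c136 136 263 y136 z136 (.cons c137 137 8 y137 z137 (.cons c141 141 1200 y141 z141 (.cons c129 129 1200 y129 z129 (.cons c130 130 64 y130 z130 (.cons c131 131 1200 y131 z131 (.cons c132 132 263 y132 z132 (.cons c122 122 512 y122 z122 (.cons c139 139 1200 y139 z139 .nil))))))))))) (.cons 9 686068789 (.cons c130 130 64 y130 z130 (.cons c131 131 1200 y131 z131 (.cons c132 132 263 y132 z132 (.cons c122 122 512 y122 z122 (.cons c133 133 263 y133 z133 (.cons c134 134 1200 y134 z134 .nil)))))) (.cons 11 686069460 .nil (.cons 12 719620096 .nil (.cons 13 686065685 .nil (.cons 15 686066356 .nil (.cons 24 716444704 .nil (.cons 25 682890293 .nil (.cons 27 682890964 .nil (.cons 28 716441600 .nil (.cons 29 682887189 .nil (.cons 31 682887860 .nil (.cons 32 618010656 (.cons c275 275 0 y275 z275 (.cons c254 254 0 y254 z254 (.cons c304 304 0 y304 z304 (.cons c297 297 0 y297 z297 (.cons c276 276 0 y276 z276 (.cons c255 255 0 y255 z255 (.cons c256 256 0 y256 z256 (.cons c298 298 0 y298 z298 (.cons c257 257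 0 y257 z257 (.cons c277 277 0 y277 z277 (.cons c305 305 0 y305 z305 (.cons c278 278 0 y278 z278 (.cons c243 243 0 y243 z243 (.cons c294 294 0 y294 z294 (.cons c244 244 0 y244 z244 (.cons c261 261 0 y261 z261 (.cons c299 299 0 y299 z299 (.cons c263 263 0 y263 z263 (.cons c140 140 263 y140 z140 (.cons c136 136 263 y136 z136 (.cons c279 279 0 y279 z279 (.cons c267 267 0 y267 z267 (.cons c137 137 8 y137 z137 (.cons c269 269 0 y269 z269 (.cons c306 306 0 y306 z306 (.cons c300 300 0 y300 z300 (.cons c301 301 0 y301 z301 (.cons c141 141 1200 y141 z141 (.cons c281 281 0 y281 z281 (.cons c307 307 0 y307 z307 (.cons c122 122 512 y122 z122 (.cons c246 246 0 y246 z246 (.cons c139 139 1200 y139 z139 (.cons c273 273 0 y273 z273 (.cons c295 295 0 y295 z295 (.cons c303 303 0 y303 z303 .nil)))))))))))))))))))))))))))))))))))) (.cons 33 584456245 (.cons c243 243 0 y243 z243 (.cons c294 294 0 y294 z294 (.cons c244 244 0 y244 z244 (.cons c122 122 512 y122 z122 (.cons c246 246 0 y246 z246 (.cons c295 295 0 y295 z295 .nil))))))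 (.cons 35 584456916 .nil (.cons 36 618007552 .nil (.cons 37 584453141 .nil (.cons 39 584453812 .nil (.cons 40 617911328 (.cons c140 140 263 y140 z140 (.cons c136 136 263 y136 z136 (.cons c137 137 8 y137 z137 (.cons c141 141 1200 y141 z141 (.cons c122 122 512 y122 z122 (.cons c139 139 1200 y139 z139 .nil)))))) (.cons 41 584356917 (.cons c122 122 512 y122 z122 (.cons c308 308 0 y308 z308 (.cons c309 309 1712 y309 z309 (.cons c310 310 0 y310 z310 .nil)))) (.cons 43 584357588 (.cons c311 311 0 y311 z311 (.cons c312 312 0 y312 z312 (.cons c313 313 0 y313 z313 (.cons c314 314 0 y314 z314 (.cons c315 315 0 y315 z315 (.cons c310 310 0 y310 z310 .nil)))))) (.cons 44 617908224 .nil (.cons 45 584353813 (.cons c316 316 0 y316 z316 (.cons c310 310 0 y310 z310 (.cons c317 317 0 y317 z317 (.cons c318 318 0 y318 z318 (.cons c319 319 0 y319 z319 (.cons c320 320 0 y320 z320 .nil)))))) (.cons 47 584354484 (.cons c321 321 0 y321 z321 (.cons c311 311 0 y311 z311 (.cons c312 312 0 y312 z312 (.cons c313 313 0 y313 z313 (.cons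 c322 322 0 y322 z322 (.cons c314 314 0 y314 z314 (.cons c315 315 0 y315 z315 (.cons c310 310 0 y310 z310 (.cons c317 317 0 y317 z317 (.cons c319 319 0 y319 z319 (.cons c320 320 0 y320 z320 .nil))))))))))) (.cons 56 614732832 .nil (.cons 57 581178421 (.cons c310 310 0 y310 z310 (.cons c330 330 0 y330 z330 (.cons c331 331 0 y331 z331 (.cons c332 332 0 y332 z332 (.cons c333 333 0 y333 z333 (.cons c334 334 0 y334 z334 .nil)))))) (.cons 59 581179092 (.cons c311 311 0 y311 z311 (.cons c335 335 0 y335 z335 (.cons c336 336 0 y336 z336 (.cons c312 312 0 y312 z312 (.cons c313 313 0 y313 z313 (.cons c337 337 0 y337 z337 (.cons c338 338 0 y338 z338 (.cons c339 339 0 y339 z339 (.cons c340 340 0 y340 z340 (.cons c341 341 64 y341 z341 (.cons c342 342 64 y342 z342 (.cons c343 343 0 y343 z343 (.cons c344 344 0 y344 z344 (.cons c345 345 64 y345 z345 (.cons c346 346 0 y346 z346 (.cons c347 347 64 y347 z347 (.cons c348 348 0 y348 z348 (.cons c349 349 0 y349 z349 (.cons c314 314 0 y314 z314 (.cons c315 315 0 y315 z315 (.cons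 c310 310 0 y310 z310 (.cons c350 350 0 y350 z350 (.cons c351 351 0 y351 z351 (.cons c352 352 0 y352 z352 (.cons c353 353 0 y353 z353 (.cons c330 330 0 y330 z330 (.cons c331 331 0 y331 z331 (.cons c354 354 1983 y354 z354 (.cons c355 355 1983 y355 z355 (.cons c332 332 0 y332 z332 (.cons c356 356 1983 y356 z356 (.cons c357 357 1983 y357 z357 (.cons c333 333 0 y333 z333 (.cons c358 358 0 y358 z358 (.cons c359 359 0 y359 z359 (.cons c334 334 0 y334 z334 .nil)))))))))))))))))))))))))))))))))))) (.cons 60 614729728 .nil (.cons 61 581175317 (.cons c316 316 0 y316 z316 (.cons c310 310 0 y310 z310 (.cons c317 317 0 y317 z317 (.cons c318 318 0 y318 z318 (.cons c319 319 0 y319 z319 (.cons c320 320 0 y320 z320 .nil)))))) (.cons 63 581175988 (.cons c321 321 0 y321 z321 (.cons c311 311 0 y311 z311 (.cons c312 312 0 y312 z312 (.cons c313 313 0 y313 z313 (.cons c322 322 0 y322 z322 (.cons c314 314 0 y314 z314 (.cons c315 315 0 y315 z315 (.cons c310 310 0 y310 z310 (.cons c317 317 0 y317 z317 (.cons c319 319 0 y319 z319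 (.cons c320 320 0 y320 z320 .nil))))))))))) .nil))))))))))))))))))))))))))))))))))))

theorem a44 : chkA TCf 719722528 E44 = true := by decide +kernel

theorem b44 : chkB row E44 = true := by decide +kernel

theorem d44 : chkC E44 = true := by decide +kernel

/-- windows 0:1 1:1 2:0 2:1 3:2 5:1 -/
def E45 : Es :=
  (.cons 0 719626401 (.cons c122 122 1 y122 z122 (.cons c183 183 30 y183 z183 (.cons c142 142 30 y142 z142 (.cons c143 143 30 y143 z143 (.cons c224 224 30 y224 z224 (.cons c185 185 1440 y185 z185 (.cons c186 186 64 y186 z186 (.cons c144 144 1440 y144 z144 (.cons c145 145 1440 y145 z145 (.cons c146 146 512 y146 z146 (.cons c225 225 1440 y225 z225 .nil))))))))))) (.cons 1 686071990 (.cons c122 122 1 y122 z122 (.cons c183 183 30 y183 z183 (.cons c142 142 30 y142 z142 (.cons c143 143 30 y143 z143 (.cons c224 224 30 y224 z224 (.cons c185 185 1440 y185 z185 (.cons c186 186 64 y186 z186 (.cons c144 144 1440 y144 z144 (.cons c145 145 1440 y145 z145 (.cons c146 146 512 y146 z146 (.cons c225 225 1440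 y225 z225 .nil))))))))))) (.cons 2 719626304 (.cons c128 128 0 y128 z128 (.cons c196 196 0 y196 z196 (.cons c226 226 0 y226 z226 (.cons c198 198 0 y198 z198 (.cons c199 199 0 y199 z199 (.cons c129 129 0 y129 z129 (.cons c200 200 0 y200 z200 (.cons c130 130 0 y130 z130 (.cons c131 131 0 y131 z131 (.cons c201 201 0 y201 z201 (.cons c202 202 0 y202 z202 (.cons c227 227 0 y227 z227 (.cons c228 228 0 y228 z228 (.cons c204 204 0 y204 z204 (.cons c205 205 0 y205 z205 (.cons c208 208 0 y208 z208 (.cons c209 209 0 y209 z209 (.cons c210 210 0 y210 z210 (.cons c211 211 0 y211 z211 (.cons c132 132 0 y132 z132 (.cons c122 122 1 y122 z122 (.cons c212 212 0 y212 z212 (.cons c183 183 30 y183 z183 (.cons c229 229 0 y229 z229 (.cons c224 224 30 y224 z224 (.cons c214 214 0 y214 z214 (.cons c185 185 1440 y185 z185 (.cons c215 215 0 y215 z215 (.cons c186 186 64 y186 z186 (.cons c230 230 0 y230 z230 (.cons c231 231 0 y231 z231 (.cons c232 232 0 y232 z232 (.cons c233 233 0 y233 z233 (.cons c225 225 1440 y225 z225 .nil))))))))))))))))))))))))))))))))))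 (.cons 3 686071893 (.cons c130 130 0 y130 z130 (.cons c131 131 0 y131 z131 (.cons c201 201 0 y201 z201 (.cons c202 202 0 y202 z202 (.cons c227 227 0 y227 z227 (.cons c228 228 0 y228 z228 (.cons c208 208 0 y208 z208 (.cons c209 209 0 y209 z209 (.cons c210 210 0 y210 z210 (.cons c211 211 0 y211 z211 (.cons c132 132 0 y132 z132 (.cons c122 122 1 y122 z122 (.cons c212 212 0 y212 z212 (.cons c183 183 30 y183 z183 (.cons c133 133 0 y133 z133 (.cons c217 217 0 y217 z217 (.cons c229 229 0 y229 z229 (.cons c224 224 30 y224 z224 (.cons c234 234 0 y234 z234 (.cons c214 214 0 y214 z214 (.cons c185 185 1440 y185 z185 (.cons c215 215 0 y215 z215 (.cons c186 186 64 y186 z186 (.cons c218 218 0 y218 z218 (.cons c219 219 0 y219 z219 (.cons c231 231 0 y231 z231 (.cons c232 232 0 y232 z232 (.cons c233 233 0 y233 z233 (.cons c225 225 1440 y225 z225 (.cons c235 235 0 y235 z235 (.cons c134 134 0 y134 z134 (.cons c220 220 0 y220 z220 (.cons c236 236 0 y236 z236 (.cons c222 222 0 y222 z222 (.cons c223 223 0 y223 z223 (.cons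 c237 237 0 y237 z237 .nil)))))))))))))))))))))))))))))))))))) (.cons 4 719623297 (.cons c135 135 1440 y135 z135 (.cons c136 136 1440 y136 z136 (.cons c137 137 0 y137 z137 (.cons c122 122 1 y122 z122 (.cons c143 143 30 y143 z143 (.cons c138 138 30 y138 z138 (.cons c139 139 30 y139 z139 (.cons c172 172 30 y172 z172 (.cons c145 145 1440 y145 z145 (.cons c173 173 1440 y173 z173 (.cons c146 146 512 y146 z146 .nil))))))))))) (.cons 5 686068886 (.cons c122 122 1 y122 z122 (.cons c143 143 30 y143 z143 (.cons c172 172 30 y172 z172 (.cons c145 145 1440 y145 z145 (.cons c173 173 1440 y173 z173 (.cons c146 146 512 y146 z146 .nil)))))) (.cons 6 719623200 (.cons c140 140 1440 y140 z140 (.cons c128 128 1440 y128 z128 (.cons c136 136 1440 y136 z136 (.cons c137 137 0 y137 z137 (.cons c141 141 30 y141 z141 (.cons c129 129 30 y129 z129 (.cons c130 130 0 y130 z130 (.cons c131 131 30 y131 z131 (.cons c132 132 1440 y132 z132 (.cons c122 122 1 y122 z122 (.cons c139 139 30 y139 z139 .nil))))))))))) (.cons 7 686068789 (.cons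 c130 130 0 y130 z130 (.cons c131 131 30 y131 z131 (.cons c132 132 1440 y132 z132 (.cons c122 122 1 y122 z122 (.cons c133 133 1440 y133 z133 (.cons c134 134 30 y134 z134 .nil)))))) (.cons 12 719523969 .nil (.cons 13 685969558 .nil (.cons 14 719523872 .nil (.cons 15 685969461 .nil (.cons 16 716447905 .nil (.cons 17 682893494 .nil (.cons 18 716447808 .nil (.cons 19 682893397 .nil (.cons 20 716444801 .nil (.cons 21 682890390 .nil (.cons 22 716444704 .nil (.cons 23 682890293 .nil (.cons 28 716345473 .nil (.cons 29 682791062 .nil (.cons 30 716345376 .nil (.cons 31 682790965 .nil (.cons 32 617914529 (.cons c122 122 1 y122 z122 (.cons c183 183 30 y183 z183 (.cons c142 142 30 y142 z142 (.cons c143 143 30 y143 z143 (.cons c224 224 30 y224 z224 (.cons c185 185 1440 y185 z185 (.cons c186 186 64 y186 z186 (.cons c144 144 1440 y144 z144 (.cons c145 145 1440 y145 z145 (.cons c146 146 512 y146 z146 (.cons c225 225 1440 y225 z225 .nil))))))))))) (.cons 33 584360118 (.cons c122 122 1 y122 z122 (.cons c183 183 30 y183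 z183 (.cons c142 142 30 y142 z142 (.cons c143 143 30 y143 z143 (.cons c224 224 30 y224 z224 (.cons c185 185 1440 y185 z185 (.cons c186 186 64 y186 z186 (.cons c144 144 1440 y144 z144 (.cons c145 145 1440 y145 z145 (.cons c146 146 512 y146 z146 (.cons c225 225 1440 y225 z225 .nil))))))))))) (.cons 34 617914432 (.cons c122 122 1 y122 z122 (.cons c183 183 30 y183 z183 (.cons c224 224 30 y224 z224 (.cons c185 185 1440 y185 z185 (.cons c186 186 64 y186 z186 (.cons c225 225 1440 y225 z225 .nil)))))) (.cons 35 584360021 (.cons c122 122 1 y122 z122 (.cons c183 183 30 y183 z183 (.cons c224 224 30 y224 z224 (.cons c185 185 1440 y185 z185 (.cons c186 186 64 y186 z186 (.cons c225 225 1440 y225 z225 .nil)))))) (.cons 36 617911425 (.cons c135 135 1440 y135 z135 (.cons c136 136 1440 y136 z136 (.cons c137 137 0 y137 z137 (.cons c122 122 1 y122 z122 (.cons c143 143 30 y143 z143 (.cons c138 138 30 y138 z138 (.cons c139 139 30 y139 z139 (.cons c172 172 30 y172 z172 (.cons c145 145 1440 y145 z145 (.cons c173 173 1440 y173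 z173 (.cons c146 146 512 y146 z146 .nil))))))))))) (.cons 37 584357014 (.cons c122 122 1 y122 z122 (.cons c143 143 30 y143 z143 (.cons c172 172 30 y172 z172 (.cons c145 145 1440 y145 z145 (.cons c173 173 1440 y173 z173 (.cons c146 146 512 y146 z146 .nil)))))) (.cons 38 617911328 (.cons c140 140 1440 y140 z140 (.cons c136 136 1440 y136 z136 (.cons c137 137 0 y137 z137 (.cons c141 141 30 y141 z141 (.cons c122 122 1 y122 z122 (.cons c139 139 30 y139 z139 .nil)))))) (.cons 39 584356917 (.cons c122 122 1 y122 z122 (.cons c308 308 0 y308 z308 (.cons c309 309 31 y309 z309 (.cons c310 310 0 y310 z310 .nil)))) (.cons 44 617812097 .nil (.cons 45 584257686 .nil (.cons 46 617812000 .nil (.cons 47 584257589 (.cons c323 323 0 y323 z323 (.cons c324 324 0 y324 z324 (.cons c325 325 0 y325 z325 (.cons c310 310 0 y310 z310 (.cons c326 326 0 y326 z326 (.cons c327 327 0 y327 z327 .nil)))))) (.cons 48 614736033 .nil (.cons 49 581181622 .nil (.cons 50 614735936 .nil (.cons 51 581181525 .nil (.cons 52 614732929 .nil (.cons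 53 581178518 .nil (.cons 54 614732832 .nil (.cons 55 581178421 (.cons c310 310 0 y310 z310 (.cons c330 330 0 y330 z330 (.cons c331 331 0 y331 z331 (.cons c332 332 0 y332 z332 (.cons c333 333 0 y333 z333 (.cons c334 334 0 y334 z334 .nil)))))) (.cons 60 614633601 .nil (.cons 61 581079190 .nil (.cons 62 614633504 .nil (.cons 63 581079093 (.cons c323 323 0 y323 z323 (.cons c324 324 0 y324 z324 (.cons c325 325 0 y325 z325 (.cons c310 310 0 y310 z310 (.cons c331 331 0 y331 z331 (.cons c326 326 0 y326 z326 (.cons c327 327 0 y327 z327 (.cons c360 360 0 y360 z360 (.cons c333 333 0 y333 z333 (.cons c361 361 0 y361 z361 (.cons c334 334 0 y334 z334 .nil))))))))))) .nil))))))))))))))))))))))))))))))))))))))))))))))))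

theorem a45 : chkA TCf 719626401 E45 = true := by decide +kernel

theorem b45 : chkB row E45 = true := by decide +kernel

theorem d45 : chkC E45 = true := by decide +kernel

/-- windows 0:1 1:1 2:1 3:1 4:0 4:2 -/
def E49 : Es :=
  (.cons 0 621192353 (.cons c242 242 3 y242 z242 (.cons c243 243 3 y243 z243 (.cons c244 244 4 y244 z244 (.cons c122 122 8 y122 z122 (.cons c245 245 48 y245 z245 (.cons c246 246 48 y246 z246 .nil)))))) (.cons 1 587637942 (.cons c242 242 3 y242 z242 (.cons c243 243 3 y243 z243 (.cons c244 244 4 y244 z244 (.cons c122 122 8 y122 z122 (.cons c123 123 48 y123 z123 (.cons c245 245 48 y245 z245 (.cons c246 246 48 y246 z246 (.cons c247 247 48 y247 z247 (.cons c125 125 3 y125 z125 (.cons c248 248 3 y248 z248 (.cons c126 126 0 y126 z126 .nil))))))))))) (.cons 2 621192256 (.cons c242 242 3 y242 z242 (.cons c243 243 3 y243 z243 (.cons c244 244 4 y244 z244 (.cons c122 122 8 y122 z122 (.cons c245 245 48 y245 z245 (.cons c246 246 48 y246 z246 .nil)))))) (.cons 3 587637845 (.cons c242 242 3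 y242 z242 (.cons c243 243 3 y243 z243 (.cons c244 244 4 y244 z244 (.cons c122 122 8 y122 z122 (.cons c123 123 48 y123 z123 (.cons c245 245 48 y245 z245 (.cons c246 246 48 y246 z246 (.cons c247 247 48 y247 z247 (.cons c125 125 3 y125 z125 (.cons c248 248 3 y248 z248 (.cons c126 126 0 y126 z126 .nil))))))))))) (.cons 4 621189249 (.cons c249 249 0 y249 z249 (.cons c250 250 0 y250 z250 (.cons c251 251 0 y251 z251 (.cons c252 252 0 y252 z252 (.cons c253 253 0 y253 z253 (.cons c254 254 0 y254 z254 (.cons c255 255 0 y255 z255 (.cons c256 256 0 y256 z256 (.cons c257 257 0 y257 z257 (.cons c242 242 3 y242 z242 (.cons c258 258 0 y258 z258 (.cons c259 259 0 y259 z259 (.cons c243 243 3 y243 z243 (.cons c244 244 4 y244 z244 (.cons c260 260 0 y260 z260 (.cons c261 261 0 y261 z261 (.cons c262 262 0 y262 z262 (.cons c263 263 0 y263 z263 (.cons c135 135 0 y135 z135 (.cons c264 264 0 y264 z264 (.cons c265 265 0 y265 z265 (.cons c136 136 0 y136 z136 (.cons c266 266 0 y266 z266 (.cons c267 267 0 y267 z267 (.cons c137 137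 0 y137 z137 (.cons c268 268 0 y268 z268 (.cons c269 269 0 y269 z269 (.cons c122 122 8 y122 z122 (.cons c245 245 48 y245 z245 (.cons c246 246 48 y246 z246 (.cons c138 138 0 y138 z138 (.cons c139 139 0 y139 z139 (.cons c270 270 0 y270 z270 (.cons c271 271 0 y271 z271 (.cons c272 272 0 y272 z272 (.cons c273 273 0 y273 z273 .nil)))))))))))))))))))))))))))))))))))) (.cons 5 587634838 (.cons c242 242 3 y242 z242 (.cons c243 243 3 y243 z243 (.cons c244 244 4 y244 z244 (.cons c122 122 8 y122 z122 (.cons c123 123 48 y123 z123 (.cons c245 245 48 y245 z245 (.cons c246 246 48 y246 z246 (.cons c247 247 48 y247 z247 (.cons c125 125 3 y125 z125 (.cons c248 248 3 y248 z248 (.cons c126 126 0 y126 z126 .nil))))))))))) (.cons 6 621189152 (.cons c274 274 0 y274 z274 (.cons c250 250 0 y250 z250 (.cons c251 251 0 y251 z251 (.cons c275 275 0 y275 z275 (.cons c254 254 0 y254 z254 (.cons c276 276 0 y276 z276 (.cons c255 255 0 y255 z255 (.cons c256 256 0 y256 z256 (.cons c257 257 0 y257 z257 (.cons c277 277 0 y277 z277 (.cons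 c278 278 0 y278 z278 (.cons c242 242 3 y242 z242 (.cons c259 259 0 y259 z259 (.cons c243 243 3 y243 z243 (.cons c244 244 4 y244 z244 (.cons c261 261 0 y261 z261 (.cons c263 263 0 y263 z263 (.cons c140 140 0 y140 z140 (.cons c136 136 0 y136 z136 (.cons c279 279 0 y279 z279 (.cons c266 266 0 y266 z266 (.cons c267 267 0 y267 z267 (.cons c137 137 0 y137 z137 (.cons c268 268 0 y268 z268 (.cons c269 269 0 y269 z269 (.cons c141 141 0 y141 z141 (.cons c280 280 0 y280 z280 (.cons c281 281 0 y281 z281 (.cons c122 122 8 y122 z122 (.cons c245 245 48 y245 z245 (.cons c246 246 48 y246 z246 (.cons c139 139 0 y139 z139 (.cons c272 272 0 y272 z272 (.cons c273 273 0 y273 z273 .nil)))))))))))))))))))))))))))))))))) (.cons 7 587634741 (.cons c242 242 3 y242 z242 (.cons c243 243 3 y243 z243 (.cons c244 244 4 y244 z244 (.cons c122 122 8 y122 z122 (.cons c123 123 48 y123 z123 (.cons c245 245 48 y245 z245 (.cons c246 246 48 y246 z246 (.cons c247 247 48 y247 z247 (.cons c125 125 3 y125 z125 (.cons c248 248 3 y248 z248 (.cons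 c126 126 0 y126 z126 .nil))))))))))) (.cons 8 621093025 (.cons c122 122 8 y122 z122 (.cons c142 142 0 y142 z142 (.cons c143 143 0 y143 z143 (.cons c144 144 0 y144 z144 (.cons c145 145 0 y145 z145 (.cons c146 146 0 y146 z146 .nil)))))) (.cons 9 587538614 (.cons c122 122 8 y122 z122 (.cons c123 123 48 y123 z123 (.cons c142 142 0 y142 z142 (.cons c143 143 0 y143 z143 (.cons c147 147 0 y147 z147 (.cons c149 149 0 y149 z149 (.cons c247 247 48 y247 z247 (.cons c282 282 0 y282 z282 (.cons c283 283 0 y283 z283 (.cons c144 144 0 y144 z144 (.cons c151 151 0 y151 z151 (.cons c145 145 0 y145 z145 (.cons c153 153 0 y153 z153 (.cons c146 146 0 y146 z146 (.cons c155 155 0 y155 z155 (.cons c284 284 0 y284 z284 (.cons c285 285 0 y285 z285 (.cons c125 125 3 y125 z125 (.cons c248 248 3 y248 z248 (.cons c126 126 0 y126 z126 (.cons c157 157 0 y157 z157 (.cons c158 158 0 y158 z158 (.cons c286 286 0 y286 z286 (.cons c159 159 0 y159 z159 (.cons c160 160 0 y160 z160 (.cons c163 163 0 y163 z163 (.cons c287 287 0 y287 z287 (.cons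 c164 164 0 y164 z164 (.cons c165 165 0 y165 z165 (.cons c288 288 0 y288 z288 (.cons c166 166 0 y166 z166 (.cons c167 167 0 y167 z167 (.cons c289 289 0 y289 z289 (.cons c168 168 0 y168 z168 .nil)))))))))))))))))))))))))))))))))) (.cons 10 621092928 (.cons c122 122 8 y122 z122 .nil) (.cons 11 587538517 (.cons c122 122 8 y122 z122 (.cons c123 123 48 y123 z123 (.cons c247 247 48 y247 z247 (.cons c125 125 3 y125 z125 (.cons c248 248 3 y248 z248 (.cons c126 126 0 y126 z126 .nil)))))) (.cons 12 621089921 (.cons c135 135 0 y135 z135 (.cons c136 136 0 y136 z136 (.cons c137 137 0 y137 z137 (.cons c122 122 8 y122 z122 (.cons c143 143 0 y143 z143 (.cons c138 138 0 y138 z138 (.cons c139 139 0 y139 z139 (.cons c172 172 0 y172 z172 (.cons c145 145 0 y145 z145 (.cons c173 173 0 y173 z173 (.cons c146 146 0 y146 z146 .nil))))))))))) (.cons 13 587535510 (.cons c122 122 8 y122 z122 (.cons c123 123 48 y123 z123 (.cons c143 143 0 y143 z143 (.cons c149 149 0 y149 z149 (.cons c247 247 48 y247 z247 (.cons c283 283 0 y283 z283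 (.cons c172 172 0 y172 z172 (.cons c174 174 0 y174 z174 (.cons c290 290 0 y290 z290 (.cons c145 145 0 y145 z145 (.cons c173 173 0 y173 z173 (.cons c153 153 0 y153 z153 (.cons c176 176 0 y176 z176 (.cons c146 146 0 y146 z146 (.cons c155 155 0 y155 z155 (.cons c284 284 0 y284 z284 (.cons c291 291 0 y291 z291 (.cons c285 285 0 y285 z285 (.cons c125 125 3 y125 z125 (.cons c248 248 3 y248 z248 (.cons c126 126 0 y126 z126 (.cons c158 158 0 y158 z158 (.cons c286 286 0 y286 z286 (.cons c160 160 0 y160 z160 (.cons c177 177 0 y177 z177 (.cons c292 292 0 y292 z292 (.cons c178 178 0 y178 z178 (.cons c165 165 0 y165 z165 (.cons c179 179 0 y179 z179 (.cons c288 288 0 y288 z288 (.cons c293 293 0 y293 z293 (.cons c166 166 0 y166 z166 (.cons c180 180 0 y180 z180 (.cons c167 167 0 y167 z167 (.cons c289 289 0 y289 z289 (.cons c168 168 0 y168 z168 .nil)))))))))))))))))))))))))))))))))))) (.cons 14 621089824 (.cons c140 140 0 y140 z140 (.cons c136 136 0 y136 z136 (.cons c137 137 0 y137 z137 (.cons c141 141 0 y141 z141 (.cons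 c122 122 8 y122 z122 (.cons c139 139 0 y139 z139 .nil)))))) (.cons 15 587535413 (.cons c122 122 8 y122 z122 (.cons c123 123 48 y123 z123 (.cons c247 247 48 y247 z247 (.cons c125 125 3 y125 z125 (.cons c248 248 3 y248 z248 (.cons c126 126 0 y126 z126 .nil)))))) (.cons 16 618013857 (.cons c243 243 3 y243 z243 (.cons c182 182 3 y182 z182 (.cons c294 294 3 y294 z294 (.cons c244 244 4 y244 z244 (.cons c122 122 8 y122 z122 (.cons c183 183 3 y183 z183 (.cons c246 246 48 y246 z246 (.cons c184 184 48 y184 z184 (.cons c185 185 48 y185 z185 (.cons c186 186 0 y186 z186 (.cons c295 295 48 y295 z295 .nil))))))))))) (.cons 17 584459446 (.cons c243 243 3 y243 z243 (.cons c182 182 3 y182 z182 (.cons c294 294 3 y294 z294 (.cons c244 244 4 y244 z244 (.cons c122 122 8 y122 z122 (.cons c183 183 3 y183 z183 (.cons c246 246 48 y246 z246 (.cons c184 184 48 y184 z184 (.cons c185 185 48 y185 z185 (.cons c186 186 0 y186 z186 (.cons c295 295 48 y295 z295 .nil))))))))))) (.cons 18 618013760 (.cons c243 243 3 y243 z243 (.cons c182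 182 3 y182 z182 (.cons c294 294 3 y294 z294 (.cons c244 244 4 y244 z244 (.cons c122 122 8 y122 z122 (.cons c183 183 3 y183 z183 (.cons c246 246 48 y246 z246 (.cons c184 184 48 y184 z184 (.cons c185 185 48 y185 z185 (.cons c186 186 0 y186 z186 (.cons c295 295 48 y295 z295 .nil))))))))))) (.cons 19 584459349 (.cons c243 243 3 y243 z243 (.cons c182 182 3 y182 z182 (.cons c294 294 3 y294 z294 (.cons c244 244 4 y244 z244 (.cons c122 122 8 y122 z122 (.cons c183 183 3 y183 z183 (.cons c246 246 48 y246 z246 (.cons c184 184 48 y184 z184 (.cons c185 185 48 y185 z185 (.cons c186 186 0 y186 z186 (.cons c295 295 48 y295 z295 .nil))))))))))) (.cons 20 618010753 (.cons c252 252 0 y252 z252 (.cons c296 296 0 y296 z296 (.cons c253 253 0 y253 z253 (.cons c254 254 0 y254 z254 (.cons c297 297 0 y297 z297 (.cons c255 255 0 y255 z255 (.cons c256 256 0 y256 z256 (.cons c298 298 0 y298 z298 (.cons c257 257 0 y257 z257 (.cons c243 243 3 y243 z243 (.cons c294 294 3 y294 z294 (.cons c244 244 4 y244 z244 (.cons c260 260 0 y260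 z260 (.cons c261 261 0 y261 z261 (.cons c299 299 0 y299 z299 (.cons c262 262 0 y262 z262 (.cons c263 263 0 y263 z263 (.cons c135 135 0 y135 z135 (.cons c265 265 0 y265 z265 (.cons c136 136 0 y136 z136 (.cons c267 267 0 y267 z267 (.cons c137 137 0 y137 z137 (.cons c269 269 0 y269 z269 (.cons c300 300 0 y300 z300 (.cons c301 301 0 y301 z301 (.cons c122 122 8 y122 z122 (.cons c246 246 48 y246 z246 (.cons c138 138 0 y138 z138 (.cons c139 139 0 y139 z139 (.cons c271 271 0 y271 z271 (.cons c273 273 0 y273 z273 (.cons c295 295 48 y295 z295 (.cons c302 302 0 y302 z302 (.cons c303 303 0 y303 z303 .nil)))))))))))))))))))))))))))))))))) (.cons 21 584456342 (.cons c243 243 3 y243 z243 (.cons c294 294 3 y294 z294 (.cons c244 244 4 y244 z244 (.cons c122 122 8 y122 z122 (.cons c246 246 48 y246 z246 (.cons c295 295 48 y295 z295 .nil)))))) (.cons 22 618010656 (.cons c275 275 0 y275 z275 (.cons c254 254 0 y254 z254 (.cons c304 304 0 y304 z304 (.cons c297 297 0 y297 z297 (.cons c276 276 0 y276 z276 (.cons c255 255 0 y255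 z255 (.cons c256 256 0 y256 z256 (.cons c298 298 0 y298 z298 (.cons c257 257 0 y257 z257 (.cons c277 277 0 y277 z277 (.cons c305 305 0 y305 z305 (.cons c278 278 0 y278 z278 (.cons c243 243 3 y243 z243 (.cons c294 294 3 y294 z294 (.cons c244 244 4 y244 z244 (.cons c261 261 0 y261 z261 (.cons c299 299 0 y299 z299 (.cons c263 263 0 y263 z263 (.cons c140 140 0 y140 z140 (.cons c136 136 0 y136 z136 (.cons c279 279 0 y279 z279 (.cons c267 267 0 y267 z267 (.cons c137 137 0 y137 z137 (.cons c269 269 0 y269 z269 (.cons c306 306 0 y306 z306 (.cons c300 300 0 y300 z300 (.cons c301 301 0 y301 z301 (.cons c141 141 0 y141 z141 (.cons c281 281 0 y281 z281 (.cons c307 307 0 y307 z307 (.cons c122 122 8 y122 z122 (.cons c246 246 48 y246 z246 (.cons c139 139 0 y139 z139 (.cons c273 273 0 y273 z273 (.cons c295 295 48 y295 z295 (.cons c303 303 0 y303 z303 .nil)))))))))))))))))))))))))))))))))))) (.cons 23 584456245 (.cons c243 243 3 y243 z243 (.cons c294 294 3 y294 z294 (.cons c244 244 4 y244 z244 (.cons c122 122 8 y122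 z122 (.cons c246 246 48 y246 z246 (.cons c295 295 48 y295 z295 .nil)))))) (.cons 24 617914529 (.cons c122 122 8 y122 z122 (.cons c183 183 3 y183 z183 (.cons c142 142 3 y142 z142 (.cons c143 143 3 y143 z143 (.cons c224 224 3 y224 z224 (.cons c185 185 48 y185 z185 (.cons c186 186 0 y186 z186 (.cons c144 144 48 y144 z144 (.cons c145 145 48 y145 z145 (.cons c146 146 0 y146 z146 (.cons c225 225 48 y225 z225 .nil))))))))))) (.cons 25 584360118 (.cons c122 122 8 y122 z122 (.cons c183 183 3 y183 z183 (.cons c142 142 3 y142 z142 (.cons c143 143 3 y143 z143 (.cons c224 224 3 y224 z224 (.cons c185 185 48 y185 z185 (.cons c186 186 0 y186 z186 (.cons c144 144 48 y144 z144 (.cons c145 145 48 y145 z145 (.cons c146 146 0 y146 z146 (.cons c225 225 48 y225 z225 .nil))))))))))) (.cons 26 617914432 (.cons c122 122 8 y122 z122 (.cons c183 183 3 y183 z183 (.cons c224 224 3 y224 z224 (.cons c185 185 48 y185 z185 (.cons c186 186 0 y186 z186 (.cons c225 225 48 y225 z225 .nil)))))) (.cons 27 584360021 (.cons c122 122 8 y122 z122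 (.cons c183 183 3 y183 z183 (.cons c224 224 3 y224 z224 (.cons c185 185 48 y185 z185 (.cons c186 186 0 y186 z186 (.cons c225 225 48 y225 z225 .nil)))))) (.cons 28 617911425 (.cons c135 135 48 y135 z135 (.cons c136 136 48 y136 z136 (.cons c137 137 0 y137 z137 (.cons c122 122 8 y122 z122 (.cons c143 143 3 y143 z143 (.cons c138 138 3 y138 z138 (.cons c139 139 3 y139 z139 (.cons c172 172 3 y172 z172 (.cons c145 145 48 y145 z145 (.cons c173 173 48 y173 z173 (.cons c146 146 0 y146 z146 .nil))))))))))) (.cons 29 584357014 (.cons c122 122 8 y122 z122 (.cons c143 143 3 y143 z143 (.cons c172 172 3 y172 z172 (.cons c145 145 48 y145 z145 (.cons c173 173 48 y173 z173 (.cons c146 146 0 y146 z146 .nil)))))) (.cons 30 617911328 (.cons c140 140 48 y140 z140 (.cons c136 136 48 y136 z136 (.cons c137 137 0 y137 z137 (.cons c141 141 3 y141 z141 (.cons c122 122 8 y122 z122 (.cons c139 139 3 y139 z139 .nil)))))) (.cons 31 584356917 (.cons c122 122 8 y122 z122 (.cons c308 308 0 y308 z308 (.cons c309 309 11 y309 z309 (.cons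 c310 310 0 y310 z310 .nil)))) (.cons 48 516301985 .nil (.cons 49 482747574 .nil (.cons 50 516301888 .nil (.cons 51 482747477 .nil (.cons 52 516298881 .nil (.cons 53 482744470 .nil (.cons 54 516298784 .nil (.cons 55 482744373 .nil (.cons 56 516202657 .nil (.cons 57 482648246 .nil (.cons 58 516202560 .nil (.cons 59 482648149 .nil (.cons 60 516199553 .nil (.cons 61 482645142 .nil (.cons 62 516199456 .nil (.cons 63 482645045 (.cons c370 370 0 y370 z370 (.cons c310 310 0 y310 z310 (.cons c371 371 0 y371 z371 (.cons c372 372 0 y372 z372 (.cons c373 373 0 y373 z373 (.cons c374 374 0 y374 z374 .nil)))))) .nil))))))))))))))))))))))))))))))))))))))))))))))))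

theorem a49 : chkA TCf 621192353 E49 = true := by decide +kernel

theorem b49 : chkB row E49 = true := by decide +kernel

theorem d49 : chkC E49 = true := by decide +kernel

/-- windows 0:0 0:1 1:1 2:2 4:0 4:2 -/
def E56 : Es :=
  (.cons 0 621089824 (.cons c140 140 3 y140 z140 (.cons c136 136 3 y136 z136 (.cons c137 137 4 y137 z137 (.cons c141 141 40 y141 z141 (.cons c122 122 16 y122 z122 (.cons c139 139 40 y139 z139 .nil)))))) (.cons 1 587535413 (.cons c122 122 16 y122 z122 (.cons c123 123 0 y123 z123 (.cons c247 247 0 y247 z247 (.cons c125 125 0 y125 z125 (.cons c248 248 0 y248 z248 (.cons c126 126 0 y126 z126 .nil)))))) (.cons 3 587536084 .nil (.cons 4 621086720 .nil (.cons 5 587532309 .nil (.cons 7 587532980 .nil (.cons 8 620990496 .nil (.cons 9 587436085 .nil (.cons 11 587436756 .nil (.cons 12 620987392 .nil (.cons 13 587432981 .nil (.cons 15 587433652 .nil (.cons 16 617911328 (.cons c140 140 3 y140 z140 (.cons c136 136 3 y136 z136 (.cons c137 137 4 y137 z137 (.cons c141 141 40 y141 z141 (.cons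 c122 122 16 y122 z122 (.cons c139 139 40 y139 z139 .nil)))))) (.cons 17 584356917 (.cons c122 122 16 y122 z122 (.cons c308 308 0 y308 z308 (.cons c309 309 56 y309 z309 (.cons c310 310 0 y310 z310 .nil)))) (.cons 19 584357588 (.cons c311 311 0 y311 z311 (.cons c312 312 0 y312 z312 (.cons c313 313 0 y313 z313 (.cons c314 314 0 y314 z314 (.cons c315 315 0 y315 z315 (.cons c310 310 0 y310 z310 .nil)))))) (.cons 20 617908224 .nil (.cons 21 584353813 (.cons c316 316 0 y316 z316 (.cons c310 310 0 y310 z310 (.cons c317 317 0 y317 z317 (.cons c318 318 0 y318 z318 (.cons c319 319 0 y319 z319 (.cons c320 320 0 y320 z320 .nil)))))) (.cons 23 584354484 (.cons c321 321 0 y321 z321 (.cons c311 311 0 y311 z311 (.cons c312 312 0 y312 z312 (.cons c313 313 0 y313 z313 (.cons c322 322 0 y322 z322 (.cons c314 314 0 y314 z314 (.cons c315 315 0 y315 z315 (.cons c310 310 0 y310 z310 (.cons c317 317 0 y317 z317 (.cons c319 319 0 y319 z319 (.cons c320 320 0 y320 z320 .nil))))))))))) (.cons 24 617812000 .nil (.cons 25 584257589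 (.cons c323 323 0 y323 z323 (.cons c324 324 0 y324 z324 (.cons c325 325 0 y325 z325 (.cons c310 310 0 y310 z310 (.cons c326 326 0 y326 z326 (.cons c327 327 0 y327 z327 .nil)))))) (.cons 27 584258260 (.cons c311 311 0 y311 z311 (.cons c312 312 0 y312 z312 (.cons c313 313 0 y313 z313 (.cons c314 314 0 y314 z314 (.cons c315 315 0 y315 z315 (.cons c310 310 0 y310 z310 .nil)))))) (.cons 28 617808896 .nil (.cons 29 584254485 (.cons c324 324 0 y324 z324 (.cons c316 316 0 y316 z316 (.cons c328 328 0 y328 z328 (.cons c325 325 0 y325 z325 (.cons c310 310 0 y310 z310 (.cons c317 317 0 y317 z317 (.cons c327 327 0 y327 z327 (.cons c318 318 0 y318 z318 (.cons c319 319 0 y319 z319 (.cons c320 320 0 y320 z320 (.cons c329 329 0 y329 z329 .nil))))))))))) (.cons 31 584255156 (.cons c321 321 0 y321 z321 (.cons c311 311 0 y311 z311 (.cons c312 312 0 y312 z312 (.cons c313 313 0 y313 z313 (.cons c322 322 0 y322 z322 (.cons c314 314 0 y314 z314 (.cons c315 315 0 y315 z315 (.cons c310 310 0 y310 z310 (.cons c317 317 0 y317 z317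 (.cons c319 319 0 y319 z319 (.cons c320 320 0 y320 z320 .nil))))))))))) (.cons 48 516199456 .nil (.cons 49 482645045 (.cons c370 370 0 y370 z370 (.cons c310 310 0 y310 z310 (.cons c371 371 0 y371 z371 (.cons c372 372 0 y372 z372 (.cons c373 373 0 y373 z373 (.cons c374 374 0 y374 z374 .nil)))))) (.cons 51 482645716 (.cons c370 370 0 y370 z370 (.cons c310 310 0 y310 z310 (.cons c371 371 0 y371 z371 (.cons c372 372 0 y372 z372 (.cons c373 373 0 y373 z373 (.cons c374 374 0 y374 z374 .nil)))))) (.cons 52 516196352 .nil (.cons 53 482641941 (.cons c379 379 0 y379 z379 (.cons c370 370 0 y370 z370 (.cons c380 380 0 y380 z380 (.cons c381 381 0 y381 z381 (.cons c382 382 0 y382 z382 (.cons c383 383 0 y383 z383 (.cons c316 316 0 y316 z316 (.cons c384 384 0 y384 z384 (.cons c385 385 56 y385 z385 (.cons c386 386 56 y386 z386 (.cons c387 387 0 y387 z387 (.cons c310 310 0 y310 z310 (.cons c317 317 0 y317 z317 (.cons c371 371 0 y371 z371 (.cons c388 388 0 y388 z388 (.cons c372 372 0 y372 z372 (.cons c389 389 56 y389 z389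 (.cons c373 373 0 y373 z373 (.cons c390 390 56 y390 z390 (.cons c374 374 0 y374 z374 (.cons c391 391 0 y391 z391 (.cons c318 318 0 y318 z318 (.cons c392 392 0 y392 z392 (.cons c319 319 0 y319 z319 (.cons c320 320 0 y320 z320 (.cons c393 393 0 y393 z393 (.cons c394 394 0 y394 z394 (.cons c395 395 4 y395 z395 (.cons c396 396 4 y396 z396 (.cons c397 397 0 y397 z397 (.cons c398 398 4 y398 z398 (.cons c399 399 0 y399 z399 (.cons c400 400 4 y400 z400 (.cons c401 401 0 y401 z401 (.cons c402 402 0 y402 z402 (.cons c403 403 0 y403 z403 .nil)))))))))))))))))))))))))))))))))))) (.cons 55 482642612 (.cons c321 321 0 y321 z321 (.cons c404 404 0 y404 z404 (.cons c405 405 4 y405 z405 (.cons c406 406 4 y406 z406 (.cons c407 407 0 y407 z407 (.cons c408 408 0 y408 z408 (.cons c370 370 0 y370 z370 (.cons c380 380 0 y380 z380 (.cons c382 382 0 y382 z382 (.cons c383 383 0 y383 z383 (.cons c322 322 0 y322 z322 (.cons c409 409 0 y409 z409 (.cons c310 310 0 y310 z310 (.cons c317 317 0 y317 z317 (.cons c371 371 0 y371 z371 (.cons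 c388 388 0 y388 z388 (.cons c410 410 56 y410 z410 (.cons c411 411 0 y411 z411 (.cons c372 372 0 y372 z372 (.cons c389 389 56 y389 z389 (.cons c373 373 0 y373 z373 (.cons c390 390 56 y390 z390 (.cons c374 374 0 y374 z374 (.cons c391 391 0 y391 z391 (.cons c319 319 0 y319 z319 (.cons c320 320 0 y320 z320 (.cons c393 393 0 y393 z393 (.cons c394 394 0 y394 z394 (.cons c398 398 4 y398 z398 (.cons c399 399 0 y399 z399 (.cons c400 400 4 y400 z400 (.cons c401 401 0 y401 z401 (.cons c402 402 0 y402 z402 (.cons c403 403 0 y403 z403 .nil)))))))))))))))))))))))))))))))))) (.cons 56 516100128 .nil (.cons 57 482545717 (.cons c323 323 0 y323 z323 (.cons c324 324 0 y324 z324 (.cons c325 325 0 y325 z325 (.cons c310 310 0 y310 z310 (.cons c326 326 0 y326 z326 (.cons c327 327 0 y327 z327 .nil)))))) (.cons 59 482546388 (.cons c310 310 0 y310 z310 .nil) (.cons 60 516097024 .nil (.cons 61 482542613 (.cons c324 324 0 y324 z324 (.cons c316 316 0 y316 z316 (.cons c328 328 0 y328 z328 (.cons c325 325 0 y325 z325 (.cons c310 310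 0 y310 z310 (.cons c317 317 0 y317 z317 (.cons c327 327 0 y327 z327 (.cons c318 318 0 y318 z318 (.cons c319 319 0 y319 z319 (.cons c320 320 0 y320 z320 (.cons c329 329 0 y329 z329 .nil))))))))))) (.cons 63 482543284 (.cons c321 321 0 y321 z321 (.cons c322 322 0 y322 z322 (.cons c310 310 0 y310 z310 (.cons c317 317 0 y317 z317 (.cons c319 319 0 y319 z319 (.cons c320 320 0 y320 z320 .nil)))))) .nil))))))))))))))))))))))))))))))))))))

theorem a56 : chkA TCf 621089824 E56 = true := by decide +kernel

theorem b56 : chkB row E56 = true := by decide +kernel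

theorem d56 : chkC E56 = true := by decide +kernel

/-- windows 0:0 0:1 1:1 2:1 3:1 4:2 -/
def E64 : Es :=
  (.cons 0 617911328 (.cons c140 140 3 y140 z140 (.cons c136 136 3 y136 z136 (.cons c137 137 4 y137 z137 (.cons c141 141 40 y141 z141 (.cons c122 122 16 y122 z122 (.cons c139 139 40 y139 z139 .nil)))))) (.cons 1 584356917 (.cons c122 122 16 y122 z122 (.cons c308 308 0 y308 z308 (.cons c309 309 56 y309 z309 (.cons c310 310 0 y310 z310 .nil)))) (.cons 3 584357588 (.cons c311 311 0 y311 z311 (.cons c312 312 0 y312 z312 (.cons c313 313 0 y313 z313 (.cons c314 314 0 y314 z314 (.cons c315 315 0 y315 z315 (.cons c310 310 0 y310 z310 .nil)))))) (.cons 4 617908224 .nil (.cons 5 584353813 (.cons c316 316 0 y316 z316 (.cons c310 310 0 y310 z310 (.cons c317 317 0 y317 z317 (.cons c318 318 0 y318 z318 (.cons c319 319 0 y319 z319 (.cons c320 320 0 y320 z320 .nil)))))) (.cons 7 584354484 (.cons c321 321 0 y321 z321 (.cons c311 311 0 y311 z311 (.cons c312 312 0 y312 z312 (.cons c313 313 0 y313 z313 (.cons c322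 322 0 y322 z322 (.cons c314 314 0 y314 z314 (.cons c315 315 0 y315 z315 (.cons c310 310 0 y310 z310 (.cons c317 317 0 y317 z317 (.cons c319 319 0 y319 z319 (.cons c320 320 0 y320 z320 .nil))))))))))) (.cons 8 617812000 .nil (.cons 9 584257589 (.cons c323 323 0 y323 z323 (.cons c324 324 0 y324 z324 (.cons c325 325 0 y325 z325 (.cons c310 310 0 y310 z310 (.cons c326 326 0 y326 z326 (.cons c327 327 0 y327 z327 .nil)))))) (.cons 11 584258260 (.cons c311 311 0 y311 z311 (.cons c312 312 0 y312 z312 (.cons c313 313 0 y313 z313 (.cons c314 314 0 y314 z314 (.cons c315 315 0 y315 z315 (.cons c310 310 0 y310 z310 .nil)))))) (.cons 12 617808896 .nil (.cons 13 584254485 (.cons c324 324 0 y324 z324 (.cons c316 316 0 y316 z316 (.cons c328 328 0 y328 z328 (.cons c325 325 0 y325 z325 (.cons c310 310 0 y310 z310 (.cons c317 317 0 y317 z317 (.cons c327 327 0 y327 z327 (.cons c318 318 0 y318 z318 (.cons c319 319 0 y319 z319 (.cons c320 320 0 y320 z320 (.cons c329 329 0 y329 z329 .nil))))))))))) (.cons 15 584255156 (.cons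 c321 321 0 y321 z321 (.cons c311 311 0 y311 z311 (.cons c312 312 0 y312 z312 (.cons c313 313 0 y313 z313 (.cons c322 322 0 y322 z322 (.cons c314 314 0 y314 z314 (.cons c315 315 0 y315 z315 (.cons c310 310 0 y310 z310 (.cons c317 317 0 y317 z317 (.cons c319 319 0 y319 z319 (.cons c320 320 0 y320 z320 .nil))))))))))) (.cons 16 614732832 .nil (.cons 17 581178421 (.cons c310 310 0 y310 z310 (.cons c330 330 0 y330 z330 (.cons c331 331 0 y331 z331 (.cons c332 332 0 y332 z332 (.cons c333 333 0 y333 z333 (.cons c334 334 0 y334 z334 .nil)))))) (.cons 19 581179092 (.cons c311 311 0 y311 z311 (.cons c335 335 0 y335 z335 (.cons c336 336 0 y336 z336 (.cons c312 312 0 y312 z312 (.cons c313 313 0 y313 z313 (.cons c337 337 0 y337 z337 (.cons c338 338 0 y338 z338 (.cons c339 339 0 y339 z339 (.cons c340 340 0 y340 z340 (.cons c341 341 0 y341 z341 (.cons c342 342 0 y342 z342 (.cons c343 343 0 y343 z343 (.cons c344 344 0 y344 z344 (.cons c345 345 0 y345 z345 (.cons c346 346 0 y346 z346 (.cons c347 347 0 y347 z347 (.cons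 c348 348 0 y348 z348 (.cons c349 349 0 y349 z349 (.cons c314 314 0 y314 z314 (.cons c315 315 0 y315 z315 (.cons c310 310 0 y310 z310 (.cons c350 350 0 y350 z350 (.cons c351 351 0 y351 z351 (.cons c352 352 0 y352 z352 (.cons c353 353 0 y353 z353 (.cons c330 330 0 y330 z330 (.cons c331 331 0 y331 z331 (.cons c354 354 63 y354 z354 (.cons c355 355 63 y355 z355 (.cons c332 332 0 y332 z332 (.cons c356 356 63 y356 z356 (.cons c357 357 63 y357 z357 (.cons c333 333 0 y333 z333 (.cons c358 358 0 y358 z358 (.cons c359 359 0 y359 z359 (.cons c334 334 0 y334 z334 .nil)))))))))))))))))))))))))))))))))))) (.cons 20 614729728 .nil (.cons 21 581175317 (.cons c316 316 0 y316 z316 (.cons c310 310 0 y310 z310 (.cons c317 317 0 y317 z317 (.cons c318 318 0 y318 z318 (.cons c319 319 0 y319 z319 (.cons c320 320 0 y320 z320 .nil)))))) (.cons 23 581175988 (.cons c321 321 0 y321 z321 (.cons c311 311 0 y311 z311 (.cons c312 312 0 y312 z312 (.cons c313 313 0 y313 z313 (.cons c322 322 0 y322 z322 (.cons c314 314 0 y314 z314 (.cons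 c315 315 0 y315 z315 (.cons c310 310 0 y310 z310 (.cons c317 317 0 y317 z317 (.cons c319 319 0 y319 z319 (.cons c320 320 0 y320 z320 .nil))))))))))) (.cons 24 614633504 .nil (.cons 25 581079093 (.cons c323 323 0 y323 z323 (.cons c324 324 0 y324 z324 (.cons c325 325 0 y325 z325 (.cons c310 310 0 y310 z310 (.cons c331 331 0 y331 z331 (.cons c326 326 0 y326 z326 (.cons c327 327 0 y327 z327 (.cons c360 360 0 y360 z360 (.cons c333 333 0 y333 z333 (.cons c361 361 0 y361 z361 (.cons c334 334 0 y334 z334 .nil))))))))))) (.cons 27 581079764 (.cons c311 311 0 y311 z311 (.cons c336 336 0 y336 z336 (.cons c312 312 0 y312 z312 (.cons c313 313 0 y313 z313 (.cons c338 338 0 y338 z338 (.cons c340 340 0 y340 z340 (.cons c362 362 0 y362 z362 (.cons c363 363 0 y363 z363 (.cons c342 342 0 y342 z342 (.cons c364 364 0 y364 z364 (.cons c343 343 0 y343 z343 (.cons c346 346 0 y346 z346 (.cons c365 365 0 y365 z365 (.cons c347 347 0 y347 z347 (.cons c366 366 0 y366 z366 (.cons c348 348 0 y348 z348 (.cons c349 349 0 y349 z349 (.cons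 c314 314 0 y314 z314 (.cons c315 315 0 y315 z315 (.cons c310 310 0 y310 z310 (.cons c352 352 0 y352 z352 (.cons c353 353 0 y353 z353 (.cons c331 331 0 y331 z331 (.cons c367 367 0 y367 z367 (.cons c368 368 0 y368 z368 (.cons c360 360 0 y360 z360 (.cons c356 356 63 y356 z356 (.cons c357 357 63 y357 z357 (.cons c369 369 63 y369 z369 (.cons c333 333 0 y333 z333 (.cons c361 361 0 y361 z361 (.cons c358 358 0 y358 z358 (.cons c359 359 0 y359 z359 (.cons c334 334 0 y334 z334 .nil)))))))))))))))))))))))))))))))))) (.cons 28 614630400 .nil (.cons 29 581075989 (.cons c324 324 0 y324 z324 (.cons c316 316 0 y316 z316 (.cons c328 328 0 y328 z328 (.cons c325 325 0 y325 z325 (.cons c310 310 0 y310 z310 (.cons c317 317 0 y317 z317 (.cons c327 327 0 y327 z327 (.cons c318 318 0 y318 z318 (.cons c319 319 0 y319 z319 (.cons c320 320 0 y320 z320 (.cons c329 329 0 y329 z329 .nil))))))))))) (.cons 31 581076660 (.cons c321 321 0 y321 z321 (.cons c311 311 0 y311 z311 (.cons c312 312 0 y312 z312 (.cons c313 313 0 y313 z313 (.cons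 c322 322 0 y322 z322 (.cons c314 314 0 y314 z314 (.cons c315 315 0 y315 z315 (.cons c310 310 0 y310 z310 (.cons c317 317 0 y317 z317 (.cons c319 319 0 y319 z319 (.cons c320 320 0 y320 z320 .nil))))))))))) (.cons 32 516199456 .nil (.cons 33 482645045 (.cons c370 370 0 y370 z370 (.cons c310 310 0 y310 z310 (.cons c371 371 0 y371 z371 (.cons c372 372 0 y372 z372 (.cons c373 373 0 y373 z373 (.cons c374 374 0 y374 z374 .nil)))))) (.cons 35 482645716 (.cons c370 370 0 y370 z370 (.cons c310 310 0 y310 z310 (.cons c371 371 0 y371 z371 (.cons c372 372 0 y372 z372 (.cons c373 373 0 y373 z373 (.cons c374 374 0 y374 z374 .nil)))))) (.cons 36 516196352 .nil (.cons 37 482641941 (.cons c379 379 0 y379 z379 (.cons c370 370 0 y370 z370 (.cons c380 380 0 y380 z380 (.cons c381 381 0 y381 z381 (.cons c382 382 0 y382 z382 (.cons c383 383 0 y383 z383 (.cons c316 316 0 y316 z316 (.cons c384 384 0 y384 z384 (.cons c385 385 56 y385 z385 (.cons c386 386 56 y386 z386 (.cons c387 387 0 y387 z387 (.cons c310 310 0 y310 z310 (.cons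 c317 317 0 y317 z317 (.cons c371 371 0 y371 z371 (.cons c388 388 0 y388 z388 (.cons c372 372 0 y372 z372 (.cons c389 389 56 y389 z389 (.cons c373 373 0 y373 z373 (.cons c390 390 56 y390 z390 (.cons c374 374 0 y374 z374 (.cons c391 391 0 y391 z391 (.cons c318 318 0 y318 z318 (.cons c392 392 0 y392 z392 (.cons c319 319 0 y319 z319 (.cons c320 320 0 y320 z320 (.cons c393 393 0 y393 z393 (.cons c394 394 0 y394 z394 (.cons c395 395 4 y395 z395 (.cons c396 396 4 y396 z396 (.cons c397 397 0 y397 z397 (.cons c398 398 4 y398 z398 (.cons c399 399 0 y399 z399 (.cons c400 400 4 y400 z400 (.cons c401 401 0 y401 z401 (.cons c402 402 0 y402 z402 (.cons c403 403 0 y403 z403 .nil)))))))))))))))))))))))))))))))))))) (.cons 39 482642612 (.cons c321 321 0 y321 z321 (.cons c404 404 0 y404 z404 (.cons c405 405 4 y405 z405 (.cons c406 406 4 y406 z406 (.cons c407 407 0 y407 z407 (.cons c408 408 0 y408 z408 (.cons c370 370 0 y370 z370 (.cons c380 380 0 y380 z380 (.cons c382 382 0 y382 z382 (.cons c383 383 0 y383 z383 (.cons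 c322 322 0 y322 z322 (.cons c409 409 0 y409 z409 (.cons c310 310 0 y310 z310 (.cons c317 317 0 y317 z317 (.cons c371 371 0 y371 z371 (.cons c388 388 0 y388 z388 (.cons c410 410 56 y410 z410 (.cons c411 411 0 y411 z411 (.cons c372 372 0 y372 z372 (.cons c389 389 56 y389 z389 (.cons c373 373 0 y373 z373 (.cons c390 390 56 y390 z390 (.cons c374 374 0 y374 z374 (.cons c391 391 0 y391 z391 (.cons c319 319 0 y319 z319 (.cons c320 320 0 y320 z320 (.cons c393 393 0 y393 z393 (.cons c394 394 0 y394 z394 (.cons c398 398 4 y398 z398 (.cons c399 399 0 y399 z399 (.cons c400 400 4 y400 z400 (.cons c401 401 0 y401 z401 (.cons c402 402 0 y402 z402 (.cons c403 403 0 y403 z403 .nil)))))))))))))))))))))))))))))))))) (.cons 40 516100128 .nil (.cons 41 482545717 (.cons c323 323 0 y323 z323 (.cons c324 324 0 y324 z324 (.cons c325 325 0 y325 z325 (.cons c310 310 0 y310 z310 (.cons c326 326 0 y326 z326 (.cons c327 327 0 y327 z327 .nil)))))) (.cons 43 482546388 (.cons c310 310 0 y310 z310 .nil) (.cons 44 516097024 .nil (.cons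 45 482542613 (.cons c324 324 0 y324 z324 (.cons c316 316 0 y316 z316 (.cons c328 328 0 y328 z328 (.cons c325 325 0 y325 z325 (.cons c310 310 0 y310 z310 (.cons c317 317 0 y317 z317 (.cons c327 327 0 y327 z327 (.cons c318 318 0 y318 z318 (.cons c319 319 0 y319 z319 (.cons c320 320 0 y320 z320 (.cons c329 329 0 y329 z329 .nil))))))))))) (.cons 47 482543284 (.cons c321 321 0 y321 z321 (.cons c322 322 0 y322 z322 (.cons c310 310 0 y310 z310 (.cons c317 317 0 y317 z317 (.cons c319 319 0 y319 z319 (.cons c320 320 0 y320 z320 .nil)))))) (.cons 48 513020960 .nil (.cons 49 479466549 (.cons c310 310 0 y310 z310 (.cons c371 371 0 y371 z371 (.cons c330 330 0 y330 z330 (.cons c331 331 0 y331 z331 (.cons c412 412 0 y412 z412 (.cons c373 373 0 y373 z373 (.cons c374 374 0 y374 z374 (.cons c332 332 0 y332 z332 (.cons c333 333 0 y333 z333 (.cons c334 334 0 y334 z334 (.cons c413 413 0 y413 z413 .nil))))))))))) (.cons 51 479467220 (.cons c310 310 0 y310 z310 (.cons c371 371 0 y371 z371 (.cons c330 330 0 y330 z330 (.cons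 c331 331 0 y331 z331 (.cons c412 412 0 y412 z412 (.cons c373 373 0 y373 z373 (.cons c374 374 0 y374 z374 (.cons c332 332 0 y332 z332 (.cons c333 333 0 y333 z333 (.cons c334 334 0 y334 z334 (.cons c413 413 0 y413 z413 .nil))))))))))) (.cons 52 513017856 .nil (.cons 53 479463445 (.cons c316 316 0 y316 z316 (.cons c384 384 0 y384 z384 (.cons c414 414 0 y414 z414 (.cons c386 386 56 y386 z386 (.cons c387 387 0 y387 z387 (.cons c310 310 0 y310 z310 (.cons c317 317 0 y317 z317 (.cons c371 371 0 y371 z371 (.cons c388 388 0 y388 z388 (.cons c412 412 0 y412 z412 (.cons c415 415 0 y415 z415 (.cons c373 373 0 y373 z373 (.cons c390 390 56 y390 z390 (.cons c374 374 0 y374 z374 (.cons c391 391 0 y391 z391 (.cons c318 318 0 y318 z318 (.cons c392 392 0 y392 z392 (.cons c319 319 0 y319 z319 (.cons c320 320 0 y320 z320 (.cons c393 393 0 y393 z393 (.cons c394 394 0 y394 z394 (.cons c416 416 0 y416 z416 (.cons c417 417 0 y417 z417 (.cons c396 396 4 y396 z396 (.cons c397 397 0 y397 z397 (.cons c400 400 4 y400 z400 (.cons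 c401 401 0 y401 z401 (.cons c402 402 0 y402 z402 (.cons c403 403 0 y403 z403 (.cons c413 413 0 y413 z413 (.cons c418 418 56 y418 z418 (.cons c419 419 4 y419 z419 (.cons c420 420 4 y420 z420 (.cons c421 421 0 y421 z421 .nil)))))))))))))))))))))))))))))))))) (.cons 55 479464116 (.cons c321 321 0 y321 z321 (.cons c404 404 0 y404 z404 (.cons c422 422 0 y422 z422 (.cons c406 406 4 y406 z406 (.cons c407 407 0 y407 z407 (.cons c423 423 4 y423 z423 (.cons c322 322 0 y322 z322 (.cons c409 409 0 y409 z409 (.cons c310 310 0 y310 z310 (.cons c317 317 0 y317 z317 (.cons c371 371 0 y371 z371 (.cons c388 388 0 y388 z388 (.cons c424 424 0 y424 z424 (.cons c412 412 0 y412 z412 (.cons c415 415 0 y415 z415 (.cons c410 410 63 y410 z410 (.cons c411 411 0 y411 z411 (.cons c373 373 0 y373 z373 (.cons c390 390 63 y390 z390 (.cons c374 374 0 y374 z374 (.cons c391 391 0 y391 z391 (.cons c319 319 0 y319 z319 (.cons c320 320 0 y320 z320 (.cons c393 393 0 y393 z393 (.cons c394 394 0 y394 z394 (.cons c416 416 0 y416 z416 (.cons c417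 417 0 y417 z417 (.cons c400 400 4 y400 z400 (.cons c401 401 0 y401 z401 (.cons c402 402 0 y402 z402 (.cons c403 403 0 y403 z403 (.cons c425 425 63 y425 z425 (.cons c413 413 0 y413 z413 (.cons c418 418 63 y418 z418 (.cons c420 420 4 y420 z420 (.cons c421 421 0 y421 z421 .nil)))))))))))))))))))))))))))))))))))) (.cons 56 512921632 .nil (.cons 57 479367221 (.cons c323 323 0 y323 z323 (.cons c324 324 0 y324 z324 (.cons c325 325 0 y325 z325 (.cons c310 310 0 y310 z310 (.cons c331 331 0 y331 z331 (.cons c326 326 0 y326 z326 (.cons c327 327 0 y327 z327 (.cons c360 360 0 y360 z360 (.cons c333 333 0 y333 z333 (.cons c361 361 0 y361 z361 (.cons c334 334 0 y334 z334 .nil))))))))))) (.cons 59 479367892 (.cons c310 310 0 y310 z310 (.cons c331 331 0 y331 z331 (.cons c360 360 0 y360 z360 (.cons c333 333 0 y333 z333 (.cons c361 361 0 y361 z361 (.cons c334 334 0 y334 z334 .nil)))))) (.cons 60 512918528 .nil (.cons 61 479364117 (.cons c324 324 0 y324 z324 (.cons c316 316 0 y316 z316 (.cons c328 328 0 y328 z328 (.cons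 c325 325 0 y325 z325 (.cons c310 310 0 y310 z310 (.cons c317 317 0 y317 z317 (.cons c327 327 0 y327 z327 (.cons c318 318 0 y318 z318 (.cons c319 319 0 y319 z319 (.cons c320 320 0 y320 z320 (.cons c329 329 0 y329 z329 .nil))))))))))) (.cons 63 479364788 (.cons c321 321 0 y321 z321 (.cons c322 322 0 y322 z322 (.cons c310 310 0 y310 z310 (.cons c317 317 0 y317 z317 (.cons c319 319 0 y319 z319 (.cons c320 320 0 y320 z320 .nil)))))) .nil))))))))))))))))))))))))))))))))))))))))))))))))

theorem a64 : chkA TCf 617911328 E64 = true := by decide +kernel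

theorem b64 : chkB row E64 = true := by decide +kernel

theorem d64 : chkC E64 = true := by decide +kernel

end Vale.Agent.P032.H532.T
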