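import Vale.Agent.P032.H532.TTab

/-!
# Tile windows: closures 3 .. 41
-/

set_option maxRecDepth 20000

namespace Vale.Agent.P032.H532.T

/-- windows 0:2 2:0 2:2 4:1 5:1 0:0 -/
def E3 : Es :=
  (.cons 0 22587650 (.cons c10 10 1 y10 z10 (.cons c11 11 34 y11 z11 (.cons c20 20 20 y20 z20 (.cons c21 21 8 y21 z21 (.cons c24 24 20 y24 z24 (.cons c35 35 34 y35 z35 .nil)))))) (.cons 2 22587553 (.cons c68 68 20 y68 z68 (.cons c10 10 1 y10 z10 (.cons c11 11 34 y11 z11 (.cons c69 69 20 y69 z69 (.cons c20 20 20 y20 z20 (.cons c21 21 8 y21 z21 (.cons c24 24 20 y24 z24 (.cons c70 70 0 y70 z70 (.cons c71 71 34 y71 z71 (.cons c72 72 34 y72 z72 (.cons c35 35 34 y35 z35 .nil))))))))))) (.cons 6 22584449 .nil (.cons 8 22488322 (.cons c10 10 1 y10 z10 (.cons c11 11 34 y11 z11 (.cons c12 12 0 y12 z12 (.cons c13 13 0 y13 z13 (.cons c40 40 0 y40 z40 (.cons c41 41 0 y41 z41 (.cons c16 16 0 y16 z16 (.cons c17 17 0 y17 z17 (.cons c18 18 0 y18 z18 (.cons c19 19 0 y19 z19 (.cons c20 20 20 y20 z20 (.cons c21 21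 8 y21 z21 (.cons c22 22 0 y22 z22 (.cons c23 23 0 y23 z23 (.cons c42 42 0 y42 z42 (.cons c43 43 0 y43 z43 (.cons c24 24 20 y24 z24 (.cons c25 25 0 y25 z25 (.cons c28 28 0 y28 z28 (.cons c29 29 0 y29 z29 (.cons c30 30 0 y30 z30 (.cons c31 31 0 y31 z31 (.cons c33 33 0 y33 z33 (.cons c34 34 0 y34 z34 (.cons c44 44 0 y44 z44 (.cons c45 45 0 y45 z45 (.cons c46 46 0 y46 z46 (.cons c47 47 0 y47 z47 (.cons c48 48 0 y48 z48 (.cons c35 35 34 y35 z35 (.cons c36 36 0 y36 z36 (.cons c49 49 0 y49 z49 (.cons c38 38 0 y38 z38 (.cons c39 39 0 y39 z39 .nil)))))))))))))))))))))))))))))))))) (.cons 10 22488225 (.cons c68 68 20 y68 z68 (.cons c10 10 1 y10 z10 (.cons c11 11 34 y11 z11 (.cons c69 69 20 y69 z69 (.cons c20 20 20 y20 z20 (.cons c21 21 8 y21 z21 (.cons c24 24 20 y24 z24 (.cons c70 70 0 y70 z70 (.cons c71 71 34 y71 z71 (.cons c72 72 34 y72 z72 (.cons c35 35 34 y35 z35 .nil))))))))))) (.cons 14 22485121 .nil (.cons 16 19409154 (.cons c10 10 1 y10 z10 .nil) (.cons 18 19409057 (.cons c68 68 20 y68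 z68 (.cons c10 10 1 y10 z10 (.cons c69 69 20 y69 z69 (.cons c70 70 0 y70 z70 (.cons c71 71 34 y71 z71 (.cons c72 72 34 y72 z72 .nil)))))) (.cons 22 19405953 .nil (.cons 24 19309826 (.cons c10 10 1 y10 z10 (.cons c12 12 0 y12 z12 (.cons c40 40 0 y40 z40 (.cons c16 16 0 y16 z16 (.cons c18 18 0 y18 z18 (.cons c44 44 0 y44 z44 .nil)))))) (.cons 26 19309729 (.cons c68 68 20 y68 z68 (.cons c10 10 1 y10 z10 (.cons c69 69 20 y69 z69 (.cons c70 70 0 y70 z70 (.cons c71 71 34 y71 z71 (.cons c72 72 34 y72 z72 .nil)))))) (.cons 30 19306625 .nil (.cons 32 726182146 (.cons c10 10 1 y10 z10 (.cons c11 11 34 y11 z11 (.cons c113 113 34 y113 z113 (.cons c114 114 34 y114 z114 (.cons c51 51 34 y51 z51 (.cons c20 20 20 y20 z20 (.cons c21 21 8 y21 z21 (.cons c115 115 20 y115 z115 (.cons c116 116 20 y116 z116 (.cons c117 117 0 y117 z117 (.cons c55 55 20 y55 z55 .nil))))))))))) (.cons 33 692627735 .nil (.cons 34 726182049 (.cons c10 10 1 y10 z10 (.cons c11 11 34 y11 z11 (.cons c113 113 34 y113 z113 (.cons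 c114 114 34 y114 z114 (.cons c51 51 34 y51 z51 (.cons c20 20 20 y20 z20 (.cons c21 21 8 y21 z21 (.cons c115 115 20 y115 z115 (.cons c116 116 20 y116 z116 (.cons c117 117 0 y117 z117 (.cons c55 55 20 y55 z55 .nil))))))))))) (.cons 35 692627638 .nil (.cons 38 726178945 .nil (.cons 39 692624534 .nil (.cons 40 726082818 (.cons c10 10 1 y10 z10 (.cons c11 11 34 y11 z11 (.cons c12 12 0 y12 z12 (.cons c13 13 0 y13 z13 (.cons c51 51 34 y51 z51 (.cons c52 52 0 y52 z52 (.cons c40 40 0 y40 z40 (.cons c41 41 0 y41 z41 (.cons c60 60 0 y60 z60 (.cons c16 16 0 y16 z16 (.cons c17 17 0 y17 z17 (.cons c18 18 0 y18 z18 (.cons c19 19 0 y19 z19 (.cons c53 53 0 y53 z53 (.cons c54 54 0 y54 z54 (.cons c20 20 20 y20 z20 (.cons c21 21 8 y21 z21 (.cons c22 22 0 y22 z22 (.cons c23 23 0 y23 z23 (.cons c42 42 0 y42 z42 (.cons c43 43 0 y43 z43 (.cons c28 28 0 y28 z28 (.cons c29 29 0 y29 z29 (.cons c30 30 0 y30 z30 (.cons c31 31 0 y31 z31 (.cons c44 44 0 y44 z44 (.cons c45 45 0 y45 z45 (.cons c61 61 0 y61 z61 (.cons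 c46 46 0 y46 z46 (.cons c47 47 0 y47 z47 (.cons c55 55 20 y55 z55 (.cons c56 56 0 y56 z56 (.cons c62 62 0 y62 z62 (.cons c58 58 0 y58 z58 (.cons c59 59 0 y59 z59 (.cons c63 63 0 y63 z63 .nil)))))))))))))))))))))))))))))))))))) (.cons 41 692528407 .nil (.cons 42 726082721 (.cons c10 10 1 y10 z10 (.cons c11 11 34 y11 z11 (.cons c51 51 34 y51 z51 (.cons c20 20 20 y20 z20 (.cons c21 21 8 y21 z21 (.cons c55 55 20 y55 z55 .nil)))))) (.cons 43 692528310 .nil (.cons 46 726079617 .nil (.cons 47 692525206 .nil (.cons 48 723003650 (.cons c10 10 1 y10 z10 (.cons c114 114 34 y114 z114 (.cons c118 118 34 y118 z118 (.cons c116 116 20 y116 z116 (.cons c119 119 20 y119 z119 (.cons c117 117 0 y117 z117 .nil)))))) (.cons 49 689449239 .nil (.cons 50 723003553 (.cons c10 10 1 y10 z10 (.cons c114 114 34 y114 z114 (.cons c118 118 34 y118 z118 (.cons c116 116 20 y116 z116 (.cons c119 119 20 y119 z119 (.cons c117 117 0 y117 z117 .nil)))))) (.cons 51 689449142 .nil (.cons 54 723000449 .nil (.cons 55 689446038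 .nil (.cons 56 722904322 (.cons c10 10 1 y10 z10 (.cons c12 12 0 y12 z12 (.cons c40 40 0 y40 z40 (.cons c16 16 0 y16 z16 (.cons c18 18 0 y18 z18 (.cons c44 44 0 y44 z44 .nil)))))) (.cons 57 689349911 .nil (.cons 58 722904225 (.cons c10 10 1 y10 z10 (.cons c120 120 0 y120 z120 (.cons c121 121 21 y121 z121 (.cons c122 122 0 y122 z122 .nil)))) (.cons 59 689349814 (.cons c122 122 0 y122 z122 (.cons c123 123 0 y123 z123 (.cons c124 124 0 y124 z124 (.cons c125 125 0 y125 z125 (.cons c126 126 0 y126 z126 (.cons c127 127 0 y127 z127 .nil)))))) (.cons 62 722901121 (.cons c135 135 0 y135 z135 (.cons c136 136 0 y136 z136 (.cons c137 137 0 y137 z137 (.cons c122 122 0 y122 z122 (.cons c138 138 0 y138 z138 (.cons c139 139 0 y139 z139 .nil)))))) (.cons 63 689346710 (.cons c122 122 0 y122 z122 (.cons c123 123 0 y123 z123 (.cons c124 124 0 y124 z124 (.cons c125 125 0 y125 z125 (.cons c126 126 0 y126 z126 (.cons c127 127 0 y127 z127 .nil)))))) .nil))))))))))))))))))))))))))))))))))))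

theorem a3 : chkA TCf 22587650 E3 = true := by decide +kernel

theorem b3 : chkB row E3 = true := by decide +kernel

theorem d3 : chkC E3 = true := by decide +kernel

/-- windows 0:2 2:1 3:0 3:2 5:1 0:0 -/
def E5 : Es :=
  (.cons 0 22491426 (.cons c4 4 257 y4 z4 (.cons c5 5 4294967842 y5 z5 (.cons c6 6 2359316 y6 z6 (.cons c7 7 524296 y7 z7 (.cons c8 8 2359316 y8 z8 (.cons c9 9 4294967842 y9 z9 (.cons c10 10 64 y10 z10 (.cons c11 11 2147483776 y11 z11 (.cons c12 12 257 y12 z12 (.cons c13 13 4294967842 y13 z13 (.cons c14 14 5120 y14 z14 (.cons c15 15 25769814016 y15 z15 (.cons c16 16 5120 y16 z16 (.cons c17 17 25769814016 y17 z17 (.cons c18 18 16384 y18 z18 (.cons c19 19 34359771136 y19 z19 (.cons c20 20 1114112 y20 z20 (.cons c21 21 131072 y21 z21 (.cons c22 22 2359316 y22 z22 (.cons c23 23 524296 y23 z23 (.cons c24 24 1114112 y24 z24 (.cons c25 25 2359316 y25 z25 (.cons c26 26 826277888 y26 z26 (.cons c27 27 41943040 y27 z27 (.cons c28 28 826277888 y28 z28 (.cons c29 29 41943040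 y29 z29 (.cons c30 30 1140850688 y30 z30 (.cons c31 31 134217728 y31 z31 (.cons c32 32 826277888 y32 z32 (.cons c33 33 826277888 y33 z33 (.cons c34 34 1140850688 y34 z34 (.cons c35 35 2147483776 y35 z35 (.cons c36 36 4294967842 y36 z36 (.cons c37 37 25769814016 y37 z37 (.cons c38 38 25769814016 y38 z38 (.cons c39 39 34359771136 y39 z39 .nil)))))))))))))))))))))))))))))))))))) (.cons 2 22491329 (.cons c68 68 1114112 y68 z68 (.cons c10 10 64 y10 z10 (.cons c11 11 2147483776 y11 z11 (.cons c69 69 1114112 y69 z69 (.cons c20 20 1114112 y20 z20 (.cons c21 21 131072 y21 z21 (.cons c24 24 1114112 y24 z24 (.cons c70 70 0 y70 z70 (.cons c71 71 2147483776 y71 z71 (.cons c72 72 2147483776 y72 z72 (.cons c35 35 2147483776 y35 z35 .nil))))))))))) (.cons 4 22488322 (.cons c10 10 64 y10 z10 (.cons c11 11 2147483776 y11 z11 (.cons c12 12 257 y12 z12 (.cons c13 13 4294967842 y13 z13 (.cons c40 40 257 y40 z40 (.cons c41 41 4294967842 y41 z41 (.cons c16 16 5120 y16 z16 (.cons c17 17 25769814016 y17 z17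 (.cons c18 18 16384 y18 z18 (.cons c19 19 34359771136 y19 z19 (.cons c20 20 1114112 y20 z20 (.cons c21 21 131072 y21 z21 (.cons c22 22 2359316 y22 z22 (.cons c23 23 524296 y23 z23 (.cons c42 42 2359316 y42 z42 (.cons c43 43 524296 y43 z43 (.cons c24 24 1114112 y24 z24 (.cons c25 25 2359316 y25 z25 (.cons c28 28 826277888 y28 z28 (.cons c29 29 41943040 y29 z29 (.cons c30 30 1140850688 y30 z30 (.cons c31 31 134217728 y31 z31 (.cons c33 33 826277888 y33 z33 (.cons c34 34 1140850688 y34 z34 (.cons c44 44 5120 y44 z44 (.cons c45 45 25769814016 y45 z45 (.cons c46 46 826277888 y46 z46 (.cons c47 47 41943040 y47 z47 (.cons c48 48 826277888 y48 z48 (.cons c35 35 2147483776 y35 z35 (.cons c36 36 4294967842 y36 z36 (.cons c49 49 4294967842 y49 z49 (.cons c38 38 25769814016 y38 z38 (.cons c39 39 34359771136 y39 z39 .nil)))))))))))))))))))))))))))))))))) (.cons 6 22488225 (.cons c68 68 1114112 y68 z68 (.cons c10 10 64 y10 z10 (.cons c11 11 2147483776 y11 z11 (.cons c69 69 1114112 y69 z69 (.cons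 c20 20 1114112 y20 z20 (.cons c21 21 131072 y21 z21 (.cons c24 24 1114112 y24 z24 (.cons c70 70 0 y70 z70 (.cons c71 71 2147483776 y71 z71 (.cons c72 72 2147483776 y72 z72 (.cons c35 35 2147483776 y35 z35 .nil))))))))))) (.cons 12 22388994 .nil (.cons 14 22388897 .nil (.cons 16 19312930 (.cons c74 74 257 y74 z74 (.cons c4 4 257 y4 z4 (.cons c101 101 257 y101 z101 (.cons c75 75 0 y75 z75 (.cons c10 10 64 y10 z10 (.cons c12 12 257 y12 z12 (.cons c77 77 5120 y77 z77 (.cons c14 14 5120 y14 z14 (.cons c16 16 5120 y16 z16 (.cons c18 18 16384 y18 z18 (.cons c102 102 5120 y102 z102 .nil))))))))))) (.cons 18 19312833 (.cons c79 79 2359316 y79 z79 (.cons c103 103 2359316 y103 z103 (.cons c80 80 0 y80 z80 (.cons c74 74 257 y74 z74 (.cons c101 101 257 y101 z101 (.cons c75 75 0 y75 z75 (.cons c81 81 2359316 y81 z81 (.cons c104 104 2359316 y104 z104 (.cons c82 82 0 y82 z82 (.cons c86 86 0 y86 z86 (.cons c105 105 0 y105 z105 (.cons c87 87 0 y87 z87 (.cons c88 88 4294967842 y88 z88 (.cons c89 89 4294967842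 y89 z89 (.cons c106 106 4294967842 y106 z106 (.cons c107 107 4294967842 y107 z107 (.cons c90 90 0 y90 z90 (.cons c91 91 0 y91 z91 (.cons c68 68 1114112 y68 z68 (.cons c93 93 826277888 y93 z93 (.cons c10 10 64 y10 z10 (.cons c77 77 5120 y77 z77 (.cons c108 108 826277888 y108 z108 (.cons c102 102 5120 y102 z102 (.cons c69 69 1114112 y69 z69 (.cons c95 95 826277888 y95 z95 (.cons c109 109 826277888 y109 z109 (.cons c70 70 0 y70 z70 (.cons c97 97 0 y97 z97 (.cons c71 71 2147483776 y71 z71 (.cons c72 72 2147483776 y72 z72 (.cons c99 99 25769814016 y99 z99 (.cons c100 100 25769814016 y100 z100 (.cons c110 110 0 y110 z110 (.cons c111 111 25769814016 y111 z111 (.cons c112 112 25769814016 y112 z112 .nil)))))))))))))))))))))))))))))))))))) (.cons 20 19309826 (.cons c10 10 64 y10 z10 (.cons c12 12 257 y12 z12 (.cons c40 40 257 y40 z40 (.cons c16 16 5120 y16 z16 (.cons c18 18 16384 y18 z18 (.cons c44 44 5120 y44 z44 .nil)))))) (.cons 22 19309729 (.cons c68 68 1114112 y68 z68 (.cons c10 10 64 y10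 z10 (.cons c69 69 1114112 y69 z69 (.cons c70 70 0 y70 z70 (.cons c71 71 2147483776 y71 z71 (.cons c72 72 2147483776 y72 z72 .nil)))))) (.cons 28 19210498 .nil (.cons 30 19210401 .nil (.cons 32 726085922 (.cons c4 4 257 y4 z4 (.cons c5 5 4294967842 y5 z5 (.cons c50 50 4294967842 y50 z50 (.cons c6 6 2359316 y6 z6 (.cons c7 7 524296 y7 z7 (.cons c10 10 64 y10 z10 (.cons c11 11 2147483776 y11 z11 (.cons c12 12 257 y12 z12 (.cons c13 13 4294967842 y13 z13 (.cons c51 51 2147483776 y51 z51 (.cons c52 52 4294967842 y52 z52 (.cons c14 14 5120 y14 z14 (.cons c15 15 25769814016 y15 z15 (.cons c16 16 5120 y16 z16 (.cons c17 17 25769814016 y17 z17 (.cons c18 18 16384 y18 z18 (.cons c19 19 34359771136 y19 z19 (.cons c53 53 25769814016 y53 z53 (.cons c54 54 34359771136 y54 z54 (.cons c20 20 1114112 y20 z20 (.cons c21 21 131072 y21 z21 (.cons c22 22 2359316 y22 z22 (.cons c23 23 524296 y23 z23 (.cons c26 26 826277888 y26 z26 (.cons c27 27 41943040 y27 z27 (.cons c28 28 826277888 y28 z28 (.cons c29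 29 41943040 y29 z29 (.cons c30 30 1140850688 y30 z30 (.cons c31 31 134217728 y31 z31 (.cons c55 55 1114112 y55 z55 (.cons c56 56 2359316 y56 z56 (.cons c57 57 826277888 y57 z57 (.cons c58 58 826277888 y58 z58 (.cons c59 59 1140850688 y59 z59 .nil)))))))))))))))))))))))))))))))))) (.cons 33 692531511 .nil (.cons 34 726085825 (.cons c10 10 64 y10 z10 (.cons c11 11 2147483776 y11 z11 (.cons c51 51 2147483776 y51 z51 (.cons c20 20 1114112 y20 z20 (.cons c21 21 131072 y21 z21 (.cons c55 55 1114112 y55 z55 .nil)))))) (.cons 35 692531414 .nil (.cons 36 726082818 (.cons c10 10 64 y10 z10 (.cons c11 11 2147483776 y11 z11 (.cons c12 12 257 y12 z12 (.cons c13 13 4294967842 y13 z13 (.cons c51 51 2147483776 y51 z51 (.cons c52 52 4294967842 y52 z52 (.cons c40 40 257 y40 z40 (.cons c41 41 4294967842 y41 z41 (.cons c60 60 4294967842 y60 z60 (.cons c16 16 5120 y16 z16 (.cons c17 17 25769814016 y17 z17 (.cons c18 18 16384 y18 z18 (.cons c19 19 34359771136 y19 z19 (.cons c53 53 25769814016 y53 z53 (.cons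 c54 54 34359771136 y54 z54 (.cons c20 20 1114112 y20 z20 (.cons c21 21 131072 y21 z21 (.cons c22 22 2359316 y22 z22 (.cons c23 23 524296 y23 z23 (.cons c42 42 2359316 y42 z42 (.cons c43 43 524296 y43 z43 (.cons c28 28 826277888 y28 z28 (.cons c29 29 41943040 y29 z29 (.cons c30 30 1140850688 y30 z30 (.cons c31 31 134217728 y31 z31 (.cons c44 44 5120 y44 z44 (.cons c45 45 25769814016 y45 z45 (.cons c61 61 25769814016 y61 z61 (.cons c46 46 826277888 y46 z46 (.cons c47 47 41943040 y47 z47 (.cons c55 55 1114112 y55 z55 (.cons c56 56 2359316 y56 z56 (.cons c62 62 2359316 y62 z62 (.cons c58 58 826277888 y58 z58 (.cons c59 59 1140850688 y59 z59 (.cons c63 63 826277888 y63 z63 .nil)))))))))))))))))))))))))))))))))))) (.cons 37 692528407 .nil (.cons 38 726082721 (.cons c10 10 64 y10 z10 (.cons c11 11 2147483776 y11 z11 (.cons c51 51 2147483776 y51 z51 (.cons c20 20 1114112 y20 z20 (.cons c21 21 131072 y21 z21 (.cons c55 55 1114112 y55 z55 .nil)))))) (.cons 39 692528310 .nil (.cons 44 725983490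 .nil (.cons 45 692429079 (.cons c64 64 826277888 y64 z64 (.cons c65 65 2359316 y65 z65 (.cons c66 66 25769814016 y66 z66 (.cons c67 67 4294967842 y67 z67 .nil)))) (.cons 46 725983393 .nil (.cons 47 692428982 .nil (.cons 48 722907426 (.cons c74 74 257 y74 z74 (.cons c4 4 257 y4 z4 (.cons c101 101 257 y101 z101 (.cons c75 75 0 y75 z75 (.cons c10 10 64 y10 z10 (.cons c12 12 257 y12 z12 (.cons c77 77 5120 y77 z77 (.cons c14 14 5120 y14 z14 (.cons c16 16 5120 y16 z16 (.cons c18 18 16384 y18 z18 (.cons c102 102 5120 y102 z102 .nil))))))))))) (.cons 49 689353015 .nil (.cons 50 722907329 (.cons c74 74 257 y74 z74 (.cons c101 101 257 y101 z101 (.cons c75 75 0 y75 z75 (.cons c10 10 64 y10 z10 (.cons c77 77 5120 y77 z77 (.cons c102 102 5120 y102 z102 .nil)))))) (.cons 51 689352918 .nil (.cons 52 722904322 (.cons c10 10 64 y10 z10 (.cons c12 12 257 y12 z12 (.cons c40 40 257 y40 z40 (.cons c16 16 5120 y16 z16 (.cons c18 18 16384 y18 z18 (.cons c44 44 5120 y44 z44 .nil)))))) (.cons 53 689349911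 .nil (.cons 54 722904225 (.cons c10 10 64 y10 z10 (.cons c120 120 25769814016 y120 z120 (.cons c121 121 3473749 y121 z121 (.cons c122 122 25769814016 y122 z122 .nil)))) (.cons 55 689349814 (.cons c122 122 25769814016 y122 z122 (.cons c123 123 25769814016 y123 z123 (.cons c124 124 25769814016 y124 z124 (.cons c125 125 25769814016 y125 z125 (.cons c126 126 26596091904 y126 z126 (.cons c127 127 25769814016 y127 z127 .nil)))))) (.cons 60 722804994 .nil (.cons 61 689250583 .nil (.cons 62 722804897 (.cons c122 122 25769814016 y122 z122 (.cons c142 142 25769814016 y142 z142 (.cons c143 143 25769814016 y143 z143 (.cons c144 144 25769814016 y144 z144 (.cons c145 145 25769814016 y145 z145 (.cons c146 146 30064781858 y146 z146 .nil)))))) (.cons 63 689250486 (.cons c122 122 25769814016 y122 z122 (.cons c123 123 25769814016 y123 z123 (.cons c124 124 25769814016 y124 z124 (.cons c142 142 25769814016 y142 z142 (.cons c143 143 25769814016 y143 z143 (.cons c147 147 1967144960 y147 z147 (.cons c148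 148 1967144960 y148 z148 (.cons c149 149 1967144960 y149 z149 (.cons c150 150 1967144960 y150 z150 (.cons c144 144 25769814016 y144 z144 (.cons c151 151 2150962645 y151 z151 (.cons c152 152 2150962645 y152 z152 (.cons c145 145 25769814016 y145 z145 (.cons c153 153 2150962645 y153 z153 (.cons c154 154 2150962645 y154 z154 (.cons c146 146 30064781858 y146 z146 (.cons c155 155 826277888 y155 z155 (.cons c156 156 826277888 y156 z156 (.cons c125 125 25769814016 y125 z125 (.cons c126 126 26596091904 y126 z126 (.cons c157 157 25904031744 y157 z157 (.cons c158 158 25904031744 y158 z158 (.cons c159 159 826277888 y159 z159 (.cons c160 160 826277888 y160 z160 (.cons c127 127 25769814016 y127 z127 (.cons c161 161 25904031744 y161 z161 (.cons c162 162 25904031744 y162 z162 (.cons c163 163 4295623210 y163 z163 (.cons c164 164 4294967842 y164 z164 (.cons c165 165 4295623210 y165 z165 (.cons c166 166 4294967842 y166 z166 (.cons c167 167 4294967842 y167 z167 (.cons c168 168 2359316 y168 z168 (.cons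 c169 169 4295623210 y169 z169 (.cons c170 170 4295623210 y170 z170 (.cons c171 171 4294967842 y171 z171 .nil)))))))))))))))))))))))))))))))))))) .nil))))))))))))))))))))))))))))))))))))

theorem a5 : chkA TCf 22491426 E5 = true := by decide +kernel

theorem b5 : chkB row E5 = true := by decide +kernel

theorem d5 : chkC E5 = true := by decide +kernel

/-- windows 0:2 2:0 2:2 4:1 5:0 5:1 -/
def E20 : Es :=
  (.cons 0 726182146 (.cons c10 10 1 y10 z10 (.cons c11 11 30 y11 z11 (.cons c113 113 30 y113 z113 (.cons c114 114 30 y114 z114 (.cons c51 51 30 y51 z51 (.cons c20 20 1440 y20 z20 (.cons c21 21 64 y21 z21 (.cons c115 115 1440 y115 z115 (.cons c116 116 1440 y116 z116 (.cons c117 117 512 y117 z117 (.cons c55 55 1440 y55 z55 .nil))))))))))) (.cons 1 692627735 .nil (.cons 2 726182049 (.cons c10 10 1 y10 z10 (.cons c11 11 30 y11 z11 (.cons c113 113 30 y113 z113 (.cons c114 114 30 y114 z114 (.cons c51 51 30 y51 z51 (.cons c20 20 1440 y20 z20 (.cons c21 21 64 y21 z21 (.cons c115 115 1440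 y115 z115 (.cons c116 116 1440 y116 z116 (.cons c117 117 512 y117 z117 (.cons c55 55 1440 y55 z55 .nil))))))))))) (.cons 3 692627638 .nil (.cons 6 726178945 .nil (.cons 7 692624534 .nil (.cons 8 726082818 (.cons c10 10 1 y10 z10 (.cons c11 11 30 y11 z11 (.cons c12 12 0 y12 z12 (.cons c13 13 0 y13 z13 (.cons c51 51 30 y51 z51 (.cons c52 52 0 y52 z52 (.cons c40 40 0 y40 z40 (.cons c41 41 0 y41 z41 (.cons c60 60 0 y60 z60 (.cons c16 16 0 y16 z16 (.cons c17 17 0 y17 z17 (.cons c18 18 0 y18 z18 (.cons c19 19 0 y19 z19 (.cons c53 53 0 y53 z53 (.cons c54 54 0 y54 z54 (.cons c20 20 1440 y20 z20 (.cons c21 21 64 y21 z21 (.cons c22 22 0 y22 z22 (.cons c23 23 0 y23 z23 (.cons c42 42 0 y42 z42 (.cons c43 43 0 y43 z43 (.cons c28 28 0 y28 z28 (.cons c29 29 0 y29 z29 (.cons c30 30 0 y30 z30 (.cons c31 31 0 y31 z31 (.cons c44 44 0 y44 z44 (.cons c45 45 0 y45 z45 (.cons c61 61 0 y61 z61 (.cons c46 46 0 y46 z46 (.cons c47 47 0 y47 z47 (.cons c55 55 1440 y55 z55 (.cons c56 56 0 y56 z56 (.cons c62 62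 0 y62 z62 (.cons c58 58 0 y58 z58 (.cons c59 59 0 y59 z59 (.cons c63 63 0 y63 z63 .nil)))))))))))))))))))))))))))))))))))) (.cons 9 692528407 .nil (.cons 10 726082721 (.cons c10 10 1 y10 z10 (.cons c11 11 30 y11 z11 (.cons c51 51 30 y51 z51 (.cons c20 20 1440 y20 z20 (.cons c21 21 64 y21 z21 (.cons c55 55 1440 y55 z55 .nil)))))) (.cons 11 692528310 .nil (.cons 14 726079617 .nil (.cons 15 692525206 .nil (.cons 16 723003650 (.cons c10 10 1 y10 z10 (.cons c114 114 30 y114 z114 (.cons c118 118 30 y118 z118 (.cons c116 116 1440 y116 z116 (.cons c119 119 1440 y119 z119 (.cons c117 117 512 y117 z117 .nil)))))) (.cons 17 689449239 .nil (.cons 18 723003553 (.cons c10 10 1 y10 z10 (.cons c114 114 30 y114 z114 (.cons c118 118 30 y118 z118 (.cons c116 116 1440 y116 z116 (.cons c119 119 1440 y119 z119 (.cons c117 117 512 y117 z117 .nil)))))) (.cons 19 689449142 .nil (.cons 22 723000449 .nil (.cons 23 689446038 .nil (.cons 24 722904322 (.cons c10 10 1 y10 z10 (.cons c12 12 0 y12 z12 (.cons c40 40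 0 y40 z40 (.cons c16 16 0 y16 z16 (.cons c18 18 0 y18 z18 (.cons c44 44 0 y44 z44 .nil)))))) (.cons 25 689349911 .nil (.cons 26 722904225 (.cons c10 10 1 y10 z10 (.cons c120 120 0 y120 z120 (.cons c121 121 1441 y121 z121 (.cons c122 122 0 y122 z122 .nil)))) (.cons 27 689349814 (.cons c122 122 0 y122 z122 (.cons c123 123 0 y123 z123 (.cons c124 124 0 y124 z124 (.cons c125 125 0 y125 z125 (.cons c126 126 0 y126 z126 (.cons c127 127 0 y127 z127 .nil)))))) (.cons 30 722901121 (.cons c135 135 0 y135 z135 (.cons c136 136 0 y136 z136 (.cons c137 137 0 y137 z137 (.cons c122 122 0 y122 z122 (.cons c138 138 0 y138 z138 (.cons c139 139 0 y139 z139 .nil)))))) (.cons 31 689346710 (.cons c122 122 0 y122 z122 (.cons c123 123 0 y123 z123 (.cons c124 124 0 y124 z124 (.cons c125 125 0 y125 z125 (.cons c126 126 0 y126 z126 (.cons c127 127 0 y127 z127 .nil)))))) (.cons 48 621291778 .nil (.cons 49 587737367 .nil (.cons 50 621291681 .nil (.cons 51 587737270 .nil (.cons 54 621288577 .nil (.cons 55 587734166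 .nil (.cons 56 621192450 .nil (.cons 57 587638039 .nil (.cons 58 621192353 (.cons c242 242 0 y242 z242 (.cons c243 243 0 y243 z243 (.cons c244 244 0 y244 z244 (.cons c122 122 0 y122 z122 (.cons c245 245 0 y245 z245 (.cons c246 246 0 y246 z246 .nil)))))) (.cons 59 587637942 (.cons c242 242 0 y242 z242 (.cons c243 243 0 y243 z243 (.cons c244 244 0 y244 z244 (.cons c122 122 0 y122 z122 (.cons c123 123 0 y123 z123 (.cons c245 245 0 y245 z245 (.cons c246 246 0 y246 z246 (.cons c247 247 0 y247 z247 (.cons c125 125 0 y125 z125 (.cons c248 248 0 y248 z248 (.cons c126 126 0 y126 z126 .nil))))))))))) (.cons 62 621189249 (.cons c249 249 512 y249 z249 (.cons c250 250 512 y250 z250 (.cons c251 251 0 y251 z251 (.cons c252 252 512 y252 z252 (.cons c253 253 0 y253 z253 (.cons c254 254 512 y254 z254 (.cons c255 255 0 y255 z255 (.cons c256 256 0 y256 z256 (.cons c257 257 0 y257 z257 (.cons c242 242 0 y242 z242 (.cons c258 258 0 y258 z258 (.cons c259 259 0 y259 z259 (.cons c243 243 0 y243 z243 (.cons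 c244 244 0 y244 z244 (.cons c260 260 0 y260 z260 (.cons c261 261 0 y261 z261 (.cons c262 262 0 y262 z262 (.cons c263 263 0 y263 z263 (.cons c135 135 0 y135 z135 (.cons c264 264 1535 y264 z264 (.cons c265 265 1535 y265 z265 (.cons c136 136 0 y136 z136 (.cons c266 266 1535 y266 z266 (.cons c267 267 1535 y267 z267 (.cons c137 137 0 y137 z137 (.cons c268 268 0 y268 z268 (.cons c269 269 0 y269 z269 (.cons c122 122 0 y122 z122 (.cons c245 245 0 y245 z245 (.cons c246 246 0 y246 z246 (.cons c138 138 0 y138 z138 (.cons c139 139 0 y139 z139 (.cons c270 270 0 y270 z270 (.cons c271 271 0 y271 z271 (.cons c272 272 0 y272 z272 (.cons c273 273 0 y273 z273 .nil)))))))))))))))))))))))))))))))))))) (.cons 63 587634838 (.cons c242 242 0 y242 z242 (.cons c243 243 0 y243 z243 (.cons c244 244 0 y244 z244 (.cons c122 122 0 y122 z122 (.cons c123 123 0 y123 z123 (.cons c245 245 0 y245 z245 (.cons c246 246 0 y246 z246 (.cons c247 247 0 y247 z247 (.cons c125 125 0 y125 z125 (.cons c248 248 0 y248 z248 (.cons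 c126 126 0 y126 z126 .nil))))))))))) .nil))))))))))))))))))))))))))))))))))))

theorem a20 : chkA TCf 726182146 E20 = true := by decide +kernel

theorem b20 : chkB row E20 = true := by decide +kernel

theorem d20 : chkC E20 = true := by decide +kernel

/-- windows 0:1 1:2 3:1 4:0 4:1 5:1 -/
def E27 : Es :=
  (.cons 0 723006657 (.cons c73 73 771 y73 z73 (.cons c74 74 771 y74 z74 (.cons c75 75 4 y75 z75 (.cons c10 10 8 y10 z10 (.cons c114 114 240 y114 z114 (.cons c76 76 240 y76 z76 (.cons c77 77 240 y77 z77 (.cons c118 118 240 y118 z118 (.cons c116 116 771 y116 z116 (.cons c119 119 771 y119 z119 (.cons c117 117 1024 y117 z117 .nil))))))))))) (.cons 1 689452246 .nil (.cons 2 723006560 .nil (.cons 3 689452149 .nil (.cons 4 723003553 (.cons c10 10 8 y10 z10 (.cons c114 114 240 y114 z114 (.cons c118 118 240 y118 z118 (.cons c116 116 771 y116 z116 (.cons c119 119 771 y119 z119 (.cons c117 117 1024 y117 z117 .nil)))))) (.cons 5 689449142 .nil (.cons 6 723003456 .nil (.cons 7 689449045 .nil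 (.cons 8 722907329 (.cons c74 74 771 y74 z74 (.cons c101 101 771 y101 z101 (.cons c75 75 4 y75 z75 (.cons c10 10 8 y10 z10 (.cons c77 77 240 y77 z77 (.cons c102 102 240 y102 z102 .nil)))))) (.cons 9 689352918 .nil (.cons 10 722907232 .nil (.cons 11 689352821 .nil (.cons 12 722904225 (.cons c10 10 8 y10 z10 (.cons c120 120 0 y120 z120 (.cons c121 121 779 y121 z121 (.cons c122 122 0 y122 z122 .nil)))) (.cons 13 689349814 (.cons c122 122 0 y122 z122 (.cons c123 123 0 y123 z123 (.cons c124 124 0 y124 z124 (.cons c125 125 0 y125 z125 (.cons c126 126 0 y126 z126 (.cons c127 127 0 y127 z127 .nil)))))) (.cons 14 722904128 (.cons c128 128 0 y128 z128 (.cons c129 129 0 y129 z129 (.cons c130 130 0 y130 z130 (.cons c131 131 0 y131 z131 (.cons c132 132 0 y132 z132 (.cons c122 122 0 y122 z122 .nil)))))) (.cons 15 689349717 (.cons c130 130 0 y130 z130 (.cons c131 131 0 y131 z131 (.cons c132 132 0 y132 z132 (.cons c122 122 0 y122 z122 (.cons c133 133 0 y133 z133 (.cons c123 123 0 y123 z123 (.cons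 c124 124 0 y124 z124 (.cons c134 134 0 y134 z134 (.cons c125 125 0 y125 z125 (.cons c126 126 0 y126 z126 (.cons c127 127 0 y127 z127 .nil))))))))))) (.cons 24 719728833 .nil (.cons 25 686174422 .nil (.cons 26 719728736 .nil (.cons 27 686174325 .nil (.cons 28 719725729 (.cons c182 182 0 y182 z182 (.cons c122 122 0 y122 z122 (.cons c183 183 0 y183 z183 (.cons c184 184 0 y184 z184 (.cons c185 185 0 y185 z185 (.cons c186 186 0 y186 z186 .nil)))))) (.cons 29 686171318 (.cons c182 182 0 y182 z182 (.cons c122 122 0 y122 z122 (.cons c183 183 0 y183 z183 (.cons c184 184 0 y184 z184 (.cons c185 185 0 y185 z185 (.cons c186 186 0 y186 z186 .nil)))))) (.cons 30 719725632 (.cons c191 191 4 y191 z191 (.cons c192 192 0 y192 z192 (.cons c193 193 0 y193 z193 (.cons c194 194 0 y194 z194 (.cons c195 195 4 y195 z195 (.cons c182 182 0 y182 z182 (.cons c128 128 0 y128 z128 (.cons c196 196 4 y196 z196 (.cons c197 197 2043 y197 z197 (.cons c198 198 2043 y198 z198 (.cons c199 199 0 y199 z199 (.cons c129 129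 0 y129 z129 (.cons c200 200 0 y200 z200 (.cons c130 130 0 y130 z130 (.cons c131 131 0 y131 z131 (.cons c201 201 0 y201 z201 (.cons c202 202 0 y202 z202 (.cons c203 203 0 y203 z203 (.cons c204 204 0 y204 z204 (.cons c205 205 0 y205 z205 (.cons c206 206 0 y206 z206 (.cons c207 207 0 y207 z207 (.cons c208 208 0 y208 z208 (.cons c209 209 0 y209 z209 (.cons c210 210 0 y210 z210 (.cons c211 211 0 y211 z211 (.cons c132 132 0 y132 z132 (.cons c122 122 0 y122 z122 (.cons c212 212 4 y212 z212 (.cons c183 183 0 y183 z183 (.cons c213 213 2043 y213 z213 (.cons c184 184 0 y184 z184 (.cons c214 214 2043 y214 z214 (.cons c185 185 0 y185 z185 (.cons c215 215 0 y215 z215 (.cons c186 186 0 y186 z186 .nil)))))))))))))))))))))))))))))))))))) (.cons 31 686171221 (.cons c193 193 0 y193 z193 (.cons c194 194 0 y194 z194 (.cons c195 195 4 y195 z195 (.cons c182 182 0 y182 z182 (.cons c216 216 4 y216 z216 (.cons c130 130 0 y130 z130 (.cons c131 131 0 y131 z131 (.cons c201 201 0 y201 z201 (.cons c202 202 0 y202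 z202 (.cons c206 206 0 y206 z206 (.cons c207 207 0 y207 z207 (.cons c208 208 0 y208 z208 (.cons c209 209 0 y209 z209 (.cons c210 210 0 y210 z210 (.cons c211 211 0 y211 z211 (.cons c132 132 0 y132 z132 (.cons c122 122 0 y122 z122 (.cons c212 212 4 y212 z212 (.cons c183 183 0 y183 z183 (.cons c133 133 0 y133 z133 (.cons c217 217 4 y217 z217 (.cons c213 213 2043 y213 z213 (.cons c184 184 0 y184 z184 (.cons c214 214 2043 y214 z214 (.cons c185 185 0 y185 z185 (.cons c215 215 0 y215 z215 (.cons c186 186 0 y186 z186 (.cons c218 218 2043 y218 z218 (.cons c219 219 0 y219 z219 (.cons c134 134 0 y134 z134 (.cons c220 220 0 y220 z220 (.cons c221 221 0 y221 z221 (.cons c222 222 0 y222 z222 (.cons c223 223 0 y223 z223 .nil)))))))))))))))))))))))))))))))))) (.cons 32 621294785 .nil (.cons 33 587740374 .nil (.cons 34 621294688 .nil (.cons 35 587740277 .nil (.cons 36 621291681 .nil (.cons 37 587737270 .nil (.cons 38 621291584 .nil (.cons 39 587737173 .nil (.cons 40 621195457 .nil (.cons 41 587641046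 .nil (.cons 42 621195360 .nil (.cons 43 587640949 .nil (.cons 44 621192353 (.cons c242 242 0 y242 z242 (.cons c243 243 0 y243 z243 (.cons c244 244 0 y244 z244 (.cons c122 122 0 y122 z122 (.cons c245 245 0 y245 z245 (.cons c246 246 0 y246 z246 .nil)))))) (.cons 45 587637942 (.cons c242 242 0 y242 z242 (.cons c243 243 0 y243 z243 (.cons c244 244 0 y244 z244 (.cons c122 122 0 y122 z122 (.cons c123 123 0 y123 z123 (.cons c245 245 0 y245 z245 (.cons c246 246 0 y246 z246 (.cons c247 247 0 y247 z247 (.cons c125 125 0 y125 z125 (.cons c248 248 0 y248 z248 (.cons c126 126 0 y126 z126 .nil))))))))))) (.cons 46 621192256 (.cons c242 242 0 y242 z242 (.cons c243 243 0 y243 z243 (.cons c244 244 0 y244 z244 (.cons c122 122 0 y122 z122 (.cons c245 245 0 y245 z245 (.cons c246 246 0 y246 z246 .nil)))))) (.cons 47 587637845 (.cons c242 242 0 y242 z242 (.cons c243 243 0 y243 z243 (.cons c244 244 0 y244 z244 (.cons c122 122 0 y122 z122 (.cons c123 123 0 y123 z123 (.cons c245 245 0 y245 z245 (.cons c246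 246 0 y246 z246 (.cons c247 247 0 y247 z247 (.cons c125 125 0 y125 z125 (.cons c248 248 0 y248 z248 (.cons c126 126 0 y126 z126 .nil))))))))))) (.cons 56 618016961 .nil (.cons 57 584462550 .nil (.cons 58 618016864 .nil (.cons 59 584462453 .nil (.cons 60 618013857 (.cons c243 243 0 y243 z243 (.cons c182 182 0 y182 z182 (.cons c294 294 0 y294 z294 (.cons c244 244 0 y244 z244 (.cons c122 122 0 y122 z122 (.cons c183 183 0 y183 z183 (.cons c246 246 0 y246 z246 (.cons c184 184 0 y184 z184 (.cons c185 185 0 y185 z185 (.cons c186 186 0 y186 z186 (.cons c295 295 0 y295 z295 .nil))))))))))) (.cons 61 584459446 (.cons c243 243 0 y243 z243 (.cons c182 182 0 y182 z182 (.cons c294 294 0 y294 z294 (.cons c244 244 0 y244 z244 (.cons c122 122 0 y122 z122 (.cons c183 183 0 y183 z183 (.cons c246 246 0 y246 z246 (.cons c184 184 0 y184 z184 (.cons c185 185 0 y185 z185 (.cons c186 186 0 y186 z186 (.cons c295 295 0 y295 z295 .nil))))))))))) (.cons 62 618013760 (.cons c243 243 0 y243 z243 (.cons c182 182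 0 y182 z182 (.cons c294 294 0 y294 z294 (.cons c244 244 0 y244 z244 (.cons c122 122 0 y122 z122 (.cons c183 183 0 y183 z183 (.cons c246 246 0 y246 z246 (.cons c184 184 0 y184 z184 (.cons c185 185 0 y185 z185 (.cons c186 186 0 y186 z186 (.cons c295 295 0 y295 z295 .nil))))))))))) (.cons 63 584459349 (.cons c243 243 0 y243 z243 (.cons c182 182 0 y182 z182 (.cons c294 294 0 y294 z294 (.cons c244 244 0 y244 z244 (.cons c122 122 0 y122 z122 (.cons c183 183 0 y183 z183 (.cons c246 246 0 y246 z246 (.cons c184 184 0 y184 z184 (.cons c185 185 0 y185 z185 (.cons c186 186 0 y186 z186 (.cons c295 295 0 y295 z295 .nil))))))))))) .nil))))))))))))))))))))))))))))))))))))))))))))))))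

theorem a27 : chkA TCf 723006657 E27 = true := by decide +kernel

theorem b27 : chkB row E27 = true := by decide +kernel

theorem d27 : chkC E27 = true := by decide +kernel

/-- windows 0:2 2:0 2:2 4:0 4:1 5:1 -/
def E28 : Es :=
  (.cons 0 723003650 (.cons c10 10 1 y10 z10 (.cons c114 114 6 y114 z114 (.cons c118 118 6 y118 z118 (.cons c116 116 24 y116 z116 (.cons c119 119 24 y119 z119 (.cons c117 117 32 y117 z117 .nil)))))) (.cons 1 689449239 .nil (.cons 2 723003553 (.cons c10 10 1 y10 z10 (.cons c114 114 6 y114 z114 (.cons c118 118 6 y118 z118 (.cons c116 116 24 y116 z116 (.cons c119 119 24 y119 z119 (.cons c117 117 32 y117 z117 .nil)))))) (.cons 3 689449142 .nil (.cons 6 723000449 .nil (.cons 7 689446038 .nil (.cons 8 722904322 (.cons c10 10 1 y10 z10 (.cons c12 12 0 y12 z12 (.cons c40 40 0 y40 z40 (.cons c16 16 0 y16 z16 (.cons c18 18 0 y18 z18 (.cons c44 44 0 y44 z44 .nil)))))) (.cons 9 689349911 .nil (.cons 10 722904225 (.cons c10 10 1 y10 z10 (.cons c120 120 0 y120 z120 (.cons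 c121 121 25 y121 z121 (.cons c122 122 0 y122 z122 .nil)))) (.cons 11 689349814 (.cons c122 122 0 y122 z122 (.cons c123 123 0 y123 z123 (.cons c124 124 0 y124 z124 (.cons c125 125 0 y125 z125 (.cons c126 126 0 y126 z126 (.cons c127 127 0 y127 z127 .nil)))))) (.cons 14 722901121 (.cons c135 135 0 y135 z135 (.cons c136 136 0 y136 z136 (.cons c137 137 0 y137 z137 (.cons c122 122 0 y122 z122 (.cons c138 138 0 y138 z138 (.cons c139 139 0 y139 z139 .nil)))))) (.cons 15 689346710 (.cons c122 122 0 y122 z122 (.cons c123 123 0 y123 z123 (.cons c124 124 0 y124 z124 (.cons c125 125 0 y125 z125 (.cons c126 126 0 y126 z126 (.cons c127 127 0 y127 z127 .nil)))))) (.cons 24 719725826 .nil (.cons 25 686171415 .nil (.cons 26 719725729 (.cons c182 182 0 y182 z182 (.cons c122 122 0 y122 z122 (.cons c183 183 0 y183 z183 (.cons c184 184 0 y184 z184 (.cons c185 185 0 y185 z185 (.cons c186 186 0 y186 z186 .nil)))))) (.cons 27 686171318 (.cons c182 182 0 y182 z182 (.cons c122 122 0 y122 z122 (.cons c183 183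 0 y183 z183 (.cons c184 184 0 y184 z184 (.cons c185 185 0 y185 z185 (.cons c186 186 0 y186 z186 .nil)))))) (.cons 30 719722625 (.cons c135 135 0 y135 z135 (.cons c136 136 0 y136 z136 (.cons c137 137 0 y137 z137 (.cons c122 122 0 y122 z122 (.cons c138 138 0 y138 z138 (.cons c139 139 0 y139 z139 .nil)))))) (.cons 31 686168214 (.cons c122 122 0 y122 z122 .nil) (.cons 32 621291778 .nil (.cons 33 587737367 .nil (.cons 34 621291681 .nil (.cons 35 587737270 .nil (.cons 38 621288577 .nil (.cons 39 587734166 .nil (.cons 40 621192450 .nil (.cons 41 587638039 .nil (.cons 42 621192353 (.cons c242 242 0 y242 z242 (.cons c243 243 0 y243 z243 (.cons c244 244 0 y244 z244 (.cons c122 122 0 y122 z122 (.cons c245 245 0 y245 z245 (.cons c246 246 0 y246 z246 .nil)))))) (.cons 43 587637942 (.cons c242 242 0 y242 z242 (.cons c243 243 0 y243 z243 (.cons c244 244 0 y244 z244 (.cons c122 122 0 y122 z122 (.cons c123 123 0 y123 z123 (.cons c245 245 0 y245 z245 (.cons c246 246 0 y246 z246 (.cons c247 247 0 y247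 z247 (.cons c125 125 0 y125 z125 (.cons c248 248 0 y248 z248 (.cons c126 126 0 y126 z126 .nil))))))))))) (.cons 46 621189249 (.cons c249 249 32 y249 z249 (.cons c250 250 32 y250 z250 (.cons c251 251 0 y251 z251 (.cons c252 252 32 y252 z252 (.cons c253 253 0 y253 z253 (.cons c254 254 32 y254 z254 (.cons c255 255 0 y255 z255 (.cons c256 256 0 y256 z256 (.cons c257 257 0 y257 z257 (.cons c242 242 0 y242 z242 (.cons c258 258 0 y258 z258 (.cons c259 259 0 y259 z259 (.cons c243 243 0 y243 z243 (.cons c244 244 0 y244 z244 (.cons c260 260 0 y260 z260 (.cons c261 261 0 y261 z261 (.cons c262 262 0 y262 z262 (.cons c263 263 0 y263 z263 (.cons c135 135 0 y135 z135 (.cons c264 264 25 y264 z264 (.cons c265 265 25 y265 z265 (.cons c136 136 0 y136 z136 (.cons c266 266 25 y266 z266 (.cons c267 267 25 y267 z267 (.cons c137 137 0 y137 z137 (.cons c268 268 0 y268 z268 (.cons c269 269 0 y269 z269 (.cons c122 122 0 y122 z122 (.cons c245 245 0 y245 z245 (.cons c246 246 0 y246 z246 (.cons c138 138 0 y138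 z138 (.cons c139 139 0 y139 z139 (.cons c270 270 0 y270 z270 (.cons c271 271 0 y271 z271 (.cons c272 272 0 y272 z272 (.cons c273 273 0 y273 z273 .nil)))))))))))))))))))))))))))))))))))) (.cons 47 587634838 (.cons c242 242 0 y242 z242 (.cons c243 243 0 y243 z243 (.cons c244 244 0 y244 z244 (.cons c122 122 0 y122 z122 (.cons c123 123 0 y123 z123 (.cons c245 245 0 y245 z245 (.cons c246 246 0 y246 z246 (.cons c247 247 0 y247 z247 (.cons c125 125 0 y125 z125 (.cons c248 248 0 y248 z248 (.cons c126 126 0 y126 z126 .nil))))))))))) (.cons 56 618013954 .nil (.cons 57 584459543 .nil (.cons 58 618013857 (.cons c243 243 0 y243 z243 (.cons c182 182 0 y182 z182 (.cons c294 294 0 y294 z294 (.cons c244 244 0 y244 z244 (.cons c122 122 0 y122 z122 (.cons c183 183 0 y183 z183 (.cons c246 246 0 y246 z246 (.cons c184 184 0 y184 z184 (.cons c185 185 0 y185 z185 (.cons c186 186 0 y186 z186 (.cons c295 295 0 y295 z295 .nil))))))))))) (.cons 59 584459446 (.cons c243 243 0 y243 z243 (.cons c182 182 0 y182 z182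 (.cons c294 294 0 y294 z294 (.cons c244 244 0 y244 z244 (.cons c122 122 0 y122 z122 (.cons c183 183 0 y183 z183 (.cons c246 246 0 y246 z246 (.cons c184 184 0 y184 z184 (.cons c185 185 0 y185 z185 (.cons c186 186 0 y186 z186 (.cons c295 295 0 y295 z295 .nil))))))))))) (.cons 62 618010753 (.cons c252 252 32 y252 z252 (.cons c296 296 32 y296 z296 (.cons c253 253 0 y253 z253 (.cons c254 254 32 y254 z254 (.cons c297 297 32 y297 z297 (.cons c255 255 0 y255 z255 (.cons c256 256 0 y256 z256 (.cons c298 298 0 y298 z298 (.cons c257 257 0 y257 z257 (.cons c243 243 0 y243 z243 (.cons c294 294 0 y294 z294 (.cons c244 244 0 y244 z244 (.cons c260 260 0 y260 z260 (.cons c261 261 0 y261 z261 (.cons c299 299 0 y299 z299 (.cons c262 262 0 y262 z262 (.cons c263 263 0 y263 z263 (.cons c135 135 0 y135 z135 (.cons c265 265 25 y265 z265 (.cons c136 136 0 y136 z136 (.cons c267 267 25 y267 z267 (.cons c137 137 0 y137 z137 (.cons c269 269 0 y269 z269 (.cons c300 300 25 y300 z300 (.cons c301 301 0 y301 z301 (.cons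 c122 122 0 y122 z122 (.cons c246 246 0 y246 z246 (.cons c138 138 0 y138 z138 (.cons c139 139 0 y139 z139 (.cons c271 271 0 y271 z271 (.cons c273 273 0 y273 z273 (.cons c295 295 0 y295 z295 (.cons c302 302 0 y302 z302 (.cons c303 303 0 y303 z303 .nil)))))))))))))))))))))))))))))))))) (.cons 63 584456342 (.cons c243 243 0 y243 z243 (.cons c294 294 0 y294 z294 (.cons c244 244 0 y244 z244 (.cons c122 122 0 y122 z122 (.cons c246 246 0 y246 z246 (.cons c295 295 0 y295 z295 .nil)))))) .nil))))))))))))))))))))))))))))))))))))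

theorem a28 : chkA TCf 723003650 E28 = true := by decide +kernel

theorem b28 : chkB row E28 = true := by decide +kernel

theorem d28 : chkC E28 = true := by decide +kernel

/-- windows 0:2 2:0 2:1 3:1 4:1 5:1 -/
def E32 : Es :=
  (.cons 0 722904322 (.cons c10 10 1 y10 z10 (.cons c12 12 6 y12 z12 (.cons c40 40 6 y40 z40 (.cons c16 16 40 y16 z16 (.cons c18 18 16 y18 z18 (.cons c44 44 40 y44 z44 .nil)))))) (.cons 1 689349911 .nil (.cons 2 722904225 (.cons c10 10 1 y10 z10 (.cons c120 120 0 y120 z120 (.cons c121 121 7 y121 z121 (.cons c122 122 0 y122 z122 .nil)))) (.cons 3 689349814 (.cons c122 122 0 y122 z122 (.cons c123 123 0 y123 z123 (.cons c124 124 0 y124 z124 (.cons c125 125 0 y125 z125 (.cons c126 126 0 y126 z126 (.cons c127 127 0 y127 z127 .nil)))))) (.cons 6 722901121 (.cons c135 135 0 y135 z135 (.cons c136 136 0 y136 z136 (.cons c137 137 0 y137 z137 (.cons c122 122 0 y122 z122 (.cons c138 138 0 y138 z138 (.cons c139 139 0 y139 z139 .nil)))))) (.cons 7 689346710 (.cons c122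 122 0 y122 z122 (.cons c123 123 0 y123 z123 (.cons c124 124 0 y124 z124 (.cons c125 125 0 y125 z125 (.cons c126 126 0 y126 z126 (.cons c127 127 0 y127 z127 .nil)))))) (.cons 8 722804994 .nil (.cons 9 689250583 .nil (.cons 10 722804897 (.cons c122 122 0 y122 z122 (.cons c142 142 0 y142 z142 (.cons c143 143 0 y143 z143 (.cons c144 144 0 y144 z144 (.cons c145 145 0 y145 z145 (.cons c146 146 0 y146 z146 .nil)))))) (.cons 11 689250486 (.cons c122 122 0 y122 z122 (.cons c123 123 0 y123 z123 (.cons c124 124 0 y124 z124 (.cons c142 142 0 y142 z142 (.cons c143 143 0 y143 z143 (.cons c147 147 16 y147 z147 (.cons c148 148 16 y148 z148 (.cons c149 149 16 y149 z149 (.cons c150 150 16 y150 z150 (.cons c144 144 0 y144 z144 (.cons c151 151 7 y151 z151 (.cons c152 152 7 y152 z152 (.cons c145 145 0 y145 z145 (.cons c153 153 7 y153 z153 (.cons c154 154 7 y154 z154 (.cons c146 146 0 y146 z146 (.cons c155 155 0 y155 z155 (.cons c156 156 0 y156 z156 (.cons c125 125 0 y125 z125 (.cons c126 126 0 y126 z126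 (.cons c157 157 0 y157 z157 (.cons c158 158 0 y158 z158 (.cons c159 159 0 y159 z159 (.cons c160 160 0 y160 z160 (.cons c127 127 0 y127 z127 (.cons c161 161 0 y161 z161 (.cons c162 162 0 y162 z162 (.cons c163 163 0 y163 z163 (.cons c164 164 0 y164 z164 (.cons c165 165 0 y165 z165 (.cons c166 166 0 y166 z166 (.cons c167 167 0 y167 z167 (.cons c168 168 0 y168 z168 (.cons c169 169 0 y169 z169 (.cons c170 170 0 y170 z170 (.cons c171 171 0 y171 z171 .nil)))))))))))))))))))))))))))))))))))) (.cons 14 722801793 (.cons c135 135 0 y135 z135 (.cons c136 136 0 y136 z136 (.cons c137 137 0 y137 z137 (.cons c122 122 0 y122 z122 (.cons c143 143 0 y143 z143 (.cons c138 138 0 y138 z138 (.cons c139 139 0 y139 z139 (.cons c172 172 0 y172 z172 (.cons c145 145 0 y145 z145 (.cons c173 173 0 y173 z173 (.cons c146 146 0 y146 z146 .nil))))))))))) (.cons 15 689247382 (.cons c122 122 0 y122 z122 (.cons c123 123 0 y123 z123 (.cons c124 124 0 y124 z124 (.cons c143 143 0 y143 z143 (.cons c149 149 16 y149 z149 (.cons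 c150 150 16 y150 z150 (.cons c172 172 0 y172 z172 (.cons c174 174 16 y174 z174 (.cons c175 175 16 y175 z175 (.cons c145 145 0 y145 z145 (.cons c173 173 0 y173 z173 (.cons c153 153 7 y153 z153 (.cons c176 176 7 y176 z176 (.cons c154 154 7 y154 z154 (.cons c146 146 0 y146 z146 (.cons c155 155 0 y155 z155 (.cons c156 156 0 y156 z156 (.cons c125 125 0 y125 z125 (.cons c126 126 0 y126 z126 (.cons c158 158 0 y158 z158 (.cons c160 160 0 y160 z160 (.cons c177 177 0 y177 z177 (.cons c178 178 0 y178 z178 (.cons c127 127 0 y127 z127 (.cons c162 162 0 y162 z162 (.cons c165 165 0 y165 z165 (.cons c179 179 0 y179 z179 (.cons c166 166 0 y166 z166 (.cons c180 180 0 y180 z180 (.cons c167 167 0 y167 z167 (.cons c168 168 0 y168 z168 (.cons c170 170 0 y170 z170 (.cons c181 181 0 y181 z181 (.cons c171 171 0 y171 z171 .nil)))))))))))))))))))))))))))))))))) (.cons 16 719725826 .nil (.cons 17 686171415 .nil (.cons 18 719725729 (.cons c182 182 0 y182 z182 (.cons c122 122 0 y122 z122 (.cons c183 183 0 y183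 z183 (.cons c184 184 0 y184 z184 (.cons c185 185 0 y185 z185 (.cons c186 186 0 y186 z186 .nil)))))) (.cons 19 686171318 (.cons c182 182 0 y182 z182 (.cons c122 122 0 y122 z122 (.cons c183 183 0 y183 z183 (.cons c184 184 0 y184 z184 (.cons c185 185 0 y185 z185 (.cons c186 186 0 y186 z186 .nil)))))) (.cons 22 719722625 (.cons c135 135 0 y135 z135 (.cons c136 136 0 y136 z136 (.cons c137 137 0 y137 z137 (.cons c122 122 0 y122 z122 (.cons c138 138 0 y138 z138 (.cons c139 139 0 y139 z139 .nil)))))) (.cons 23 686168214 (.cons c122 122 0 y122 z122 .nil) (.cons 24 719626498 .nil (.cons 25 686072087 .nil (.cons 26 719626401 (.cons c122 122 0 y122 z122 (.cons c183 183 0 y183 z183 (.cons c142 142 0 y142 z142 (.cons c143 143 0 y143 z143 (.cons c224 224 0 y224 z224 (.cons c185 185 0 y185 z185 (.cons c186 186 0 y186 z186 (.cons c144 144 0 y144 z144 (.cons c145 145 0 y145 z145 (.cons c146 146 0 y146 z146 (.cons c225 225 0 y225 z225 .nil))))))))))) (.cons 27 686071990 (.cons c122 122 0 y122 z122 (.cons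 c183 183 0 y183 z183 (.cons c142 142 0 y142 z142 (.cons c143 143 0 y143 z143 (.cons c224 224 0 y224 z224 (.cons c185 185 0 y185 z185 (.cons c186 186 0 y186 z186 (.cons c144 144 0 y144 z144 (.cons c145 145 0 y145 z145 (.cons c146 146 0 y146 z146 (.cons c225 225 0 y225 z225 .nil))))))))))) (.cons 30 719623297 (.cons c135 135 0 y135 z135 (.cons c136 136 0 y136 z136 (.cons c137 137 0 y137 z137 (.cons c122 122 0 y122 z122 (.cons c143 143 0 y143 z143 (.cons c138 138 0 y138 z138 (.cons c139 139 0 y139 z139 (.cons c172 172 0 y172 z172 (.cons c145 145 0 y145 z145 (.cons c173 173 0 y173 z173 (.cons c146 146 0 y146 z146 .nil))))))))))) (.cons 31 686068886 (.cons c122 122 0 y122 z122 (.cons c143 143 0 y143 z143 (.cons c172 172 0 y172 z172 (.cons c145 145 0 y145 z145 (.cons c173 173 0 y173 z173 (.cons c146 146 0 y146 z146 .nil)))))) (.cons 32 621192450 .nil (.cons 33 587638039 .nil (.cons 34 621192353 (.cons c242 242 0 y242 z242 (.cons c243 243 0 y243 z243 (.cons c244 244 0 y244 z244 (.cons c122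 122 0 y122 z122 (.cons c245 245 0 y245 z245 (.cons c246 246 0 y246 z246 .nil)))))) (.cons 35 587637942 (.cons c242 242 0 y242 z242 (.cons c243 243 0 y243 z243 (.cons c244 244 0 y244 z244 (.cons c122 122 0 y122 z122 (.cons c123 123 0 y123 z123 (.cons c245 245 0 y245 z245 (.cons c246 246 0 y246 z246 (.cons c247 247 0 y247 z247 (.cons c125 125 0 y125 z125 (.cons c248 248 0 y248 z248 (.cons c126 126 0 y126 z126 .nil))))))))))) (.cons 38 621189249 (.cons c249 249 0 y249 z249 (.cons c250 250 0 y250 z250 (.cons c251 251 0 y251 z251 (.cons c252 252 0 y252 z252 (.cons c253 253 0 y253 z253 (.cons c254 254 0 y254 z254 (.cons c255 255 0 y255 z255 (.cons c256 256 0 y256 z256 (.cons c257 257 0 y257 z257 (.cons c242 242 0 y242 z242 (.cons c258 258 0 y258 z258 (.cons c259 259 0 y259 z259 (.cons c243 243 0 y243 z243 (.cons c244 244 0 y244 z244 (.cons c260 260 0 y260 z260 (.cons c261 261 0 y261 z261 (.cons c262 262 0 y262 z262 (.cons c263 263 0 y263 z263 (.cons c135 135 0 y135 z135 (.cons c264 264 63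 y264 z264 (.cons c265 265 63 y265 z265 (.cons c136 136 0 y136 z136 (.cons c266 266 63 y266 z266 (.cons c267 267 63 y267 z267 (.cons c137 137 0 y137 z137 (.cons c268 268 0 y268 z268 (.cons c269 269 0 y269 z269 (.cons c122 122 0 y122 z122 (.cons c245 245 0 y245 z245 (.cons c246 246 0 y246 z246 (.cons c138 138 0 y138 z138 (.cons c139 139 0 y139 z139 (.cons c270 270 0 y270 z270 (.cons c271 271 0 y271 z271 (.cons c272 272 0 y272 z272 (.cons c273 273 0 y273 z273 .nil)))))))))))))))))))))))))))))))))))) (.cons 39 587634838 (.cons c242 242 0 y242 z242 (.cons c243 243 0 y243 z243 (.cons c244 244 0 y244 z244 (.cons c122 122 0 y122 z122 (.cons c123 123 0 y123 z123 (.cons c245 245 0 y245 z245 (.cons c246 246 0 y246 z246 (.cons c247 247 0 y247 z247 (.cons c125 125 0 y125 z125 (.cons c248 248 0 y248 z248 (.cons c126 126 0 y126 z126 .nil))))))))))) (.cons 40 621093122 .nil (.cons 41 587538711 .nil (.cons 42 621093025 (.cons c122 122 0 y122 z122 (.cons c142 142 0 y142 z142 (.cons c143 143 0 y143 z143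 (.cons c144 144 0 y144 z144 (.cons c145 145 0 y145 z145 (.cons c146 146 0 y146 z146 .nil)))))) (.cons 43 587538614 (.cons c122 122 0 y122 z122 (.cons c123 123 0 y123 z123 (.cons c142 142 0 y142 z142 (.cons c143 143 0 y143 z143 (.cons c147 147 16 y147 z147 (.cons c149 149 16 y149 z149 (.cons c247 247 0 y247 z247 (.cons c282 282 16 y282 z282 (.cons c283 283 16 y283 z283 (.cons c144 144 0 y144 z144 (.cons c151 151 7 y151 z151 (.cons c145 145 0 y145 z145 (.cons c153 153 7 y153 z153 (.cons c146 146 0 y146 z146 (.cons c155 155 0 y155 z155 (.cons c284 284 7 y284 z284 (.cons c285 285 0 y285 z285 (.cons c125 125 0 y125 z125 (.cons c248 248 0 y248 z248 (.cons c126 126 0 y126 z126 (.cons c157 157 0 y157 z157 (.cons c158 158 0 y158 z158 (.cons c286 286 0 y286 z286 (.cons c159 159 0 y159 z159 (.cons c160 160 0 y160 z160 (.cons c163 163 0 y163 z163 (.cons c287 287 0 y287 z287 (.cons c164 164 0 y164 z164 (.cons c165 165 0 y165 z165 (.cons c288 288 0 y288 z288 (.cons c166 166 0 y166 z166 (.cons c167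 167 0 y167 z167 (.cons c289 289 0 y289 z289 (.cons c168 168 0 y168 z168 .nil)))))))))))))))))))))))))))))))))) (.cons 46 621089921 (.cons c135 135 0 y135 z135 (.cons c136 136 0 y136 z136 (.cons c137 137 0 y137 z137 (.cons c122 122 0 y122 z122 (.cons c143 143 0 y143 z143 (.cons c138 138 0 y138 z138 (.cons c139 139 0 y139 z139 (.cons c172 172 0 y172 z172 (.cons c145 145 0 y145 z145 (.cons c173 173 0 y173 z173 (.cons c146 146 0 y146 z146 .nil))))))))))) (.cons 47 587535510 (.cons c122 122 0 y122 z122 (.cons c123 123 0 y123 z123 (.cons c143 143 0 y143 z143 (.cons c149 149 16 y149 z149 (.cons c247 247 0 y247 z247 (.cons c283 283 16 y283 z283 (.cons c172 172 0 y172 z172 (.cons c174 174 16 y174 z174 (.cons c290 290 16 y290 z290 (.cons c145 145 0 y145 z145 (.cons c173 173 0 y173 z173 (.cons c153 153 63 y153 z153 (.cons c176 176 63 y176 z176 (.cons c146 146 0 y146 z146 (.cons c155 155 0 y155 z155 (.cons c284 284 63 y284 z284 (.cons c291 291 63 y291 z291 (.cons c285 285 0 y285 z285 (.cons c125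 125 0 y125 z125 (.cons c248 248 0 y248 z248 (.cons c126 126 0 y126 z126 (.cons c158 158 0 y158 z158 (.cons c286 286 0 y286 z286 (.cons c160 160 0 y160 z160 (.cons c177 177 0 y177 z177 (.cons c292 292 0 y292 z292 (.cons c178 178 0 y178 z178 (.cons c165 165 0 y165 z165 (.cons c179 179 0 y179 z179 (.cons c288 288 0 y288 z288 (.cons c293 293 0 y293 z293 (.cons c166 166 0 y166 z166 (.cons c180 180 0 y180 z180 (.cons c167 167 0 y167 z167 (.cons c289 289 0 y289 z289 (.cons c168 168 0 y168 z168 .nil)))))))))))))))))))))))))))))))))))) (.cons 48 618013954 .nil (.cons 49 584459543 .nil (.cons 50 618013857 (.cons c243 243 0 y243 z243 (.cons c182 182 0 y182 z182 (.cons c294 294 0 y294 z294 (.cons c244 244 0 y244 z244 (.cons c122 122 0 y122 z122 (.cons c183 183 0 y183 z183 (.cons c246 246 0 y246 z246 (.cons c184 184 0 y184 z184 (.cons c185 185 0 y185 z185 (.cons c186 186 0 y186 z186 (.cons c295 295 0 y295 z295 .nil))))))))))) (.cons 51 584459446 (.cons c243 243 0 y243 z243 (.cons c182 182 0 y182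 z182 (.cons c294 294 0 y294 z294 (.cons c244 244 0 y244 z244 (.cons c122 122 0 y122 z122 (.cons c183 183 0 y183 z183 (.cons c246 246 0 y246 z246 (.cons c184 184 0 y184 z184 (.cons c185 185 0 y185 z185 (.cons c186 186 0 y186 z186 (.cons c295 295 0 y295 z295 .nil))))))))))) (.cons 54 618010753 (.cons c252 252 0 y252 z252 (.cons c296 296 0 y296 z296 (.cons c253 253 0 y253 z253 (.cons c254 254 0 y254 z254 (.cons c297 297 0 y297 z297 (.cons c255 255 0 y255 z255 (.cons c256 256 0 y256 z256 (.cons c298 298 0 y298 z298 (.cons c257 257 0 y257 z257 (.cons c243 243 0 y243 z243 (.cons c294 294 0 y294 z294 (.cons c244 244 0 y244 z244 (.cons c260 260 0 y260 z260 (.cons c261 261 0 y261 z261 (.cons c299 299 0 y299 z299 (.cons c262 262 0 y262 z262 (.cons c263 263 0 y263 z263 (.cons c135 135 0 y135 z135 (.cons c265 265 63 y265 z265 (.cons c136 136 0 y136 z136 (.cons c267 267 63 y267 z267 (.cons c137 137 0 y137 z137 (.cons c269 269 0 y269 z269 (.cons c300 300 63 y300 z300 (.cons c301 301 0 y301 z301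 (.cons c122 122 0 y122 z122 (.cons c246 246 0 y246 z246 (.cons c138 138 0 y138 z138 (.cons c139 139 0 y139 z139 (.cons c271 271 0 y271 z271 (.cons c273 273 0 y273 z273 (.cons c295 295 0 y295 z295 (.cons c302 302 0 y302 z302 (.cons c303 303 0 y303 z303 .nil)))))))))))))))))))))))))))))))))) (.cons 55 584456342 (.cons c243 243 0 y243 z243 (.cons c294 294 0 y294 z294 (.cons c244 244 0 y244 z244 (.cons c122 122 0 y122 z122 (.cons c246 246 0 y246 z246 (.cons c295 295 0 y295 z295 .nil)))))) (.cons 56 617914626 .nil (.cons 57 584360215 .nil (.cons 58 617914529 (.cons c122 122 0 y122 z122 (.cons c183 183 0 y183 z183 (.cons c142 142 0 y142 z142 (.cons c143 143 0 y143 z143 (.cons c224 224 0 y224 z224 (.cons c185 185 0 y185 z185 (.cons c186 186 0 y186 z186 (.cons c144 144 0 y144 z144 (.cons c145 145 0 y145 z145 (.cons c146 146 0 y146 z146 (.cons c225 225 0 y225 z225 .nil))))))))))) (.cons 59 584360118 (.cons c122 122 0 y122 z122 (.cons c183 183 0 y183 z183 (.cons c142 142 0 y142 z142 (.cons c143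 143 0 y143 z143 (.cons c224 224 0 y224 z224 (.cons c185 185 0 y185 z185 (.cons c186 186 0 y186 z186 (.cons c144 144 0 y144 z144 (.cons c145 145 0 y145 z145 (.cons c146 146 0 y146 z146 (.cons c225 225 0 y225 z225 .nil))))))))))) (.cons 62 617911425 (.cons c135 135 0 y135 z135 (.cons c136 136 0 y136 z136 (.cons c137 137 0 y137 z137 (.cons c122 122 0 y122 z122 (.cons c143 143 0 y143 z143 (.cons c138 138 0 y138 z138 (.cons c139 139 0 y139 z139 (.cons c172 172 0 y172 z172 (.cons c145 145 0 y145 z145 (.cons c173 173 0 y173 z173 (.cons c146 146 0 y146 z146 .nil))))))))))) (.cons 63 584357014 (.cons c122 122 0 y122 z122 (.cons c143 143 0 y143 z143 (.cons c172 172 0 y172 z172 (.cons c145 145 0 y145 z145 (.cons c173 173 0 y173 z173 (.cons c146 146 0 y146 z146 .nil)))))) .nil))))))))))))))))))))))))))))))))))))))))))))))))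

theorem a32 : chkA TCf 722904322 E32 = true := by decide +kernel

theorem b32 : chkB row E32 = true := by decide +kernel

theorem d32 : chkC E32 = true := by decide +kernel

/-- windows 0:1 1:0 1:1 2:2 4:1 5:1 -/
def E39 : Es :=
  (.cons 0 722801793 (.cons c135 135 771 y135 z135 (.cons c136 136 771 y136 z136 (.cons c137 137 4 y137 z137 (.cons c122 122 8 y122 z122 (.cons c143 143 240 y143 z143 (.cons c138 138 240 y138 z138 (.cons c139 139 240 y139 z139 (.cons c172 172 240 y172 z172 (.cons c145 145 771 y145 z145 (.cons c173 173 771 y173 z173 (.cons c146 146 1024 y146 z146 .nil))))))))))) (.cons 1 689247382 (.cons c122 122 8 y122 z122 (.cons c123 123 0 y123 z123 (.cons c124 124 0 y124 z124 (.cons c143 143 240 y143 z143 (.cons c149 149 0 y149 z149 (.cons c150 150 0 y150 z150 (.cons c172 172 240 y172 z172 (.cons c174 174 0 y174 z174 (.cons c175 175 0 y175 z175 (.cons c145 145 771 y145 z145 (.cons c173 173 771 y173 z173 (.cons c153 153 0 y153 z153 (.cons c176 176 0 y176 z176 (.cons c154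 154 0 y154 z154 (.cons c146 146 1024 y146 z146 (.cons c155 155 0 y155 z155 (.cons c156 156 0 y156 z156 (.cons c125 125 0 y125 z125 (.cons c126 126 0 y126 z126 (.cons c158 158 0 y158 z158 (.cons c160 160 0 y160 z160 (.cons c177 177 0 y177 z177 (.cons c178 178 0 y178 z178 (.cons c127 127 0 y127 z127 (.cons c162 162 0 y162 z162 (.cons c165 165 0 y165 z165 (.cons c179 179 0 y179 z179 (.cons c166 166 0 y166 z166 (.cons c180 180 0 y180 z180 (.cons c167 167 0 y167 z167 (.cons c168 168 0 y168 z168 (.cons c170 170 0 y170 z170 (.cons c181 181 0 y181 z181 (.cons c171 171 0 y171 z171 .nil)))))))))))))))))))))))))))))))))) (.cons 2 722801696 (.cons c140 140 771 y140 z140 (.cons c128 128 771 y128 z128 (.cons c136 136 771 y136 z136 (.cons c137 137 4 y137 z137 (.cons c141 141 240 y141 z141 (.cons c129 129 240 y129 z129 (.cons c130 130 0 y130 z130 (.cons c131 131 240 y131 z131 (.cons c132 132 771 y132 z132 (.cons c122 122 8 y122 z122 (.cons c139 139 240 y139 z139 .nil))))))))))) (.cons 3 689247285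 (.cons c130 130 0 y130 z130 (.cons c131 131 240 y131 z131 (.cons c132 132 771 y132 z132 (.cons c122 122 8 y122 z122 (.cons c133 133 771 y133 z133 (.cons c123 123 771 y123 z123 (.cons c124 124 771 y124 z124 (.cons c134 134 240 y134 z134 (.cons c125 125 240 y125 z125 (.cons c126 126 0 y126 z126 (.cons c127 127 240 y127 z127 .nil))))))))))) (.cons 6 722798592 .nil (.cons 7 689244181 .nil (.cons 8 722702465 .nil (.cons 9 689148054 .nil (.cons 10 722702368 .nil (.cons 11 689147957 .nil (.cons 14 722699264 .nil (.cons 15 689144853 .nil (.cons 16 719623297 (.cons c135 135 771 y135 z135 (.cons c136 136 771 y136 z136 (.cons c137 137 4 y137 z137 (.cons c122 122 8 y122 z122 (.cons c143 143 240 y143 z143 (.cons c138 138 240 y138 z138 (.cons c139 139 240 y139 z139 (.cons c172 172 240 y172 z172 (.cons c145 145 771 y145 z145 (.cons c173 173 771 y173 z173 (.cons c146 146 1024 y146 z146 .nil))))))))))) (.cons 17 686068886 (.cons c122 122 8 y122 z122 (.cons c143 143 240 y143 z143 (.cons c172 172 240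 y172 z172 (.cons c145 145 771 y145 z145 (.cons c173 173 771 y173 z173 (.cons c146 146 1024 y146 z146 .nil)))))) (.cons 18 719623200 (.cons c140 140 771 y140 z140 (.cons c128 128 771 y128 z128 (.cons c136 136 771 y136 z136 (.cons c137 137 4 y137 z137 (.cons c141 141 240 y141 z141 (.cons c129 129 240 y129 z129 (.cons c130 130 0 y130 z130 (.cons c131 131 240 y131 z131 (.cons c132 132 771 y132 z132 (.cons c122 122 8 y122 z122 (.cons c139 139 240 y139 z139 .nil))))))))))) (.cons 19 686068789 (.cons c130 130 0 y130 z130 (.cons c131 131 240 y131 z131 (.cons c132 132 771 y132 z132 (.cons c122 122 8 y122 z122 (.cons c133 133 771 y133 z133 (.cons c134 134 240 y134 z134 .nil)))))) (.cons 22 719620096 .nil (.cons 23 686065685 .nil (.cons 24 719523969 .nil (.cons 25 685969558 .nil (.cons 26 719523872 .nil (.cons 27 685969461 .nil (.cons 30 719520768 .nil (.cons 31 685966357 .nil (.cons 32 621089921 (.cons c135 135 771 y135 z135 (.cons c136 136 771 y136 z136 (.cons c137 137 4 y137 z137 (.cons c122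 122 8 y122 z122 (.cons c143 143 240 y143 z143 (.cons c138 138 240 y138 z138 (.cons c139 139 240 y139 z139 (.cons c172 172 240 y172 z172 (.cons c145 145 771 y145 z145 (.cons c173 173 771 y173 z173 (.cons c146 146 1024 y146 z146 .nil))))))))))) (.cons 33 587535510 (.cons c122 122 8 y122 z122 (.cons c123 123 0 y123 z123 (.cons c143 143 240 y143 z143 (.cons c149 149 0 y149 z149 (.cons c247 247 0 y247 z247 (.cons c283 283 0 y283 z283 (.cons c172 172 240 y172 z172 (.cons c174 174 0 y174 z174 (.cons c290 290 0 y290 z290 (.cons c145 145 771 y145 z145 (.cons c173 173 771 y173 z173 (.cons c153 153 0 y153 z153 (.cons c176 176 0 y176 z176 (.cons c146 146 1024 y146 z146 (.cons c155 155 0 y155 z155 (.cons c284 284 0 y284 z284 (.cons c291 291 0 y291 z291 (.cons c285 285 0 y285 z285 (.cons c125 125 0 y125 z125 (.cons c248 248 0 y248 z248 (.cons c126 126 0 y126 z126 (.cons c158 158 0 y158 z158 (.cons c286 286 0 y286 z286 (.cons c160 160 0 y160 z160 (.cons c177 177 0 y177 z177 (.cons c292 292 0 y292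 z292 (.cons c178 178 0 y178 z178 (.cons c165 165 0 y165 z165 (.cons c179 179 0 y179 z179 (.cons c288 288 0 y288 z288 (.cons c293 293 0 y293 z293 (.cons c166 166 0 y166 z166 (.cons c180 180 0 y180 z180 (.cons c167 167 0 y167 z167 (.cons c289 289 0 y289 z289 (.cons c168 168 0 y168 z168 .nil)))))))))))))))))))))))))))))))))))) (.cons 34 621089824 (.cons c140 140 771 y140 z140 (.cons c136 136 771 y136 z136 (.cons c137 137 4 y137 z137 (.cons c141 141 240 y141 z141 (.cons c122 122 8 y122 z122 (.cons c139 139 240 y139 z139 .nil)))))) (.cons 35 587535413 (.cons c122 122 8 y122 z122 (.cons c123 123 771 y123 z123 (.cons c247 247 771 y247 z247 (.cons c125 125 240 y125 z125 (.cons c248 248 240 y248 z248 (.cons c126 126 0 y126 z126 .nil)))))) (.cons 38 621086720 .nil (.cons 39 587532309 .nil (.cons 40 620990593 .nil (.cons 41 587436182 .nil (.cons 42 620990496 .nil (.cons 43 587436085 .nil (.cons 46 620987392 .nil (.cons 47 587432981 .nil (.cons 48 617911425 (.cons c135 135 771 y135 z135 (.cons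 c136 136 771 y136 z136 (.cons c137 137 4 y137 z137 (.cons c122 122 8 y122 z122 (.cons c143 143 240 y143 z143 (.cons c138 138 240 y138 z138 (.cons c139 139 240 y139 z139 (.cons c172 172 240 y172 z172 (.cons c145 145 771 y145 z145 (.cons c173 173 771 y173 z173 (.cons c146 146 1024 y146 z146 .nil))))))))))) (.cons 49 584357014 (.cons c122 122 8 y122 z122 (.cons c143 143 240 y143 z143 (.cons c172 172 240 y172 z172 (.cons c145 145 771 y145 z145 (.cons c173 173 771 y173 z173 (.cons c146 146 1024 y146 z146 .nil)))))) (.cons 50 617911328 (.cons c140 140 771 y140 z140 (.cons c136 136 771 y136 z136 (.cons c137 137 4 y137 z137 (.cons c141 141 240 y141 z141 (.cons c122 122 8 y122 z122 (.cons c139 139 240 y139 z139 .nil)))))) (.cons 51 584356917 (.cons c122 122 8 y122 z122 (.cons c308 308 0 y308 z308 (.cons c309 309 248 y309 z309 (.cons c310 310 0 y310 z310 .nil)))) (.cons 54 617908224 .nil (.cons 55 584353813 (.cons c316 316 0 y316 z316 (.cons c310 310 0 y310 z310 (.cons c317 317 0 y317 z317 (.cons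 c318 318 0 y318 z318 (.cons c319 319 0 y319 z319 (.cons c320 320 0 y320 z320 .nil)))))) (.cons 56 617812097 .nil (.cons 57 584257686 .nil (.cons 58 617812000 .nil (.cons 59 584257589 (.cons c323 323 0 y323 z323 (.cons c324 324 0 y324 z324 (.cons c325 325 0 y325 z325 (.cons c310 310 0 y310 z310 (.cons c326 326 0 y326 z326 (.cons c327 327 0 y327 z327 .nil)))))) (.cons 62 617808896 .nil (.cons 63 584254485 (.cons c324 324 0 y324 z324 (.cons c316 316 0 y316 z316 (.cons c328 328 0 y328 z328 (.cons c325 325 0 y325 z325 (.cons c310 310 0 y310 z310 (.cons c317 317 0 y317 z317 (.cons c327 327 0 y327 z327 (.cons c318 318 0 y318 z318 (.cons c319 319 0 y319 z319 (.cons c320 320 0 y320 z320 (.cons c329 329 0 y329 z329 .nil))))))))))) .nil))))))))))))))))))))))))))))))))))))))))))))))))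

theorem a39 : chkA TCf 722801793 E39 = true := by decide +kernel

theorem b39 : chkB row E39 = true := by decide +kernel

theorem d39 : chkC E39 = true := by decide +kernel

/-- windows 0:1 1:1 2:1 3:0 3:2 5:1 -/
def E41 : Es :=
  (.cons 0 719725729 (.cons c182 182 5 y182 z182 (.cons c122 122 2 y122 z122 (.cons c183 183 5 y183 z183 (.cons c184 184 24 y184 z184 (.cons c185 185 24 y185 z185 (.cons c186 186 32 y186 z186 .nil)))))) (.cons 1 686171318 (.cons c182 182 5 y182 z182 (.cons c122 122 2 y122 z122 (.cons c183 183 5 y183 z183 (.cons c184 184 24 y184 z184 (.cons c185 185 24 y185 z185 (.cons c186 186 32 y186 z186 .nil)))))) (.cons 2 719725632 (.cons c191 191 0 y191 z191 (.cons c192 192 0 y192 z192 (.cons c193 193 0 y193 z193 (.cons c194 194 0 y194 z194 (.cons c195 195 0 y195 z195 (.cons c182 182 5 y182 z182 (.cons c128 128 0 y128 z128 (.cons c196 196 0 y196 z196 (.cons c197 197 0 y197 z197 (.cons c198 198 0 y198 z198 (.cons c199 199 0 y199 z199 (.cons c129 129 0 y129 z129 (.cons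 c200 200 0 y200 z200 (.cons c130 130 0 y130 z130 (.cons c131 131 0 y131 z131 (.cons c201 201 0 y201 z201 (.cons c202 202 0 y202 z202 (.cons c203 203 0 y203 z203 (.cons c204 204 0 y204 z204 (.cons c205 205 0 y205 z205 (.cons c206 206 0 y206 z206 (.cons c207 207 0 y207 z207 (.cons c208 208 0 y208 z208 (.cons c209 209 0 y209 z209 (.cons c210 210 0 y210 z210 (.cons c211 211 0 y211 z211 (.cons c132 132 0 y132 z132 (.cons c122 122 2 y122 z122 (.cons c212 212 0 y212 z212 (.cons c183 183 5 y183 z183 (.cons c213 213 0 y213 z213 (.cons c184 184 24 y184 z184 (.cons c214 214 0 y214 z214 (.cons c185 185 24 y185 z185 (.cons c215 215 0 y215 z215 (.cons c186 186 32 y186 z186 .nil)))))))))))))))))))))))))))))))))))) (.cons 3 686171221 (.cons c193 193 0 y193 z193 (.cons c194 194 0 y194 z194 (.cons c195 195 0 y195 z195 (.cons c182 182 5 y182 z182 (.cons c216 216 0 y216 z216 (.cons c130 130 0 y130 z130 (.cons c131 131 0 y131 z131 (.cons c201 201 0 y201 z201 (.cons c202 202 0 y202 z202 (.cons c206 206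 0 y206 z206 (.cons c207 207 0 y207 z207 (.cons c208 208 0 y208 z208 (.cons c209 209 0 y209 z209 (.cons c210 210 0 y210 z210 (.cons c211 211 0 y211 z211 (.cons c132 132 0 y132 z132 (.cons c122 122 2 y122 z122 (.cons c212 212 0 y212 z212 (.cons c183 183 5 y183 z183 (.cons c133 133 0 y133 z133 (.cons c217 217 0 y217 z217 (.cons c213 213 0 y213 z213 (.cons c184 184 24 y184 z184 (.cons c214 214 0 y214 z214 (.cons c185 185 24 y185 z185 (.cons c215 215 0 y215 z215 (.cons c186 186 32 y186 z186 (.cons c218 218 0 y218 z218 (.cons c219 219 0 y219 z219 (.cons c134 134 0 y134 z134 (.cons c220 220 0 y220 z220 (.cons c221 221 0 y221 z221 (.cons c222 222 0 y222 z222 (.cons c223 223 0 y223 z223 .nil)))))))))))))))))))))))))))))))))) (.cons 4 719722625 (.cons c135 135 0 y135 z135 (.cons c136 136 0 y136 z136 (.cons c137 137 0 y137 z137 (.cons c122 122 2 y122 z122 (.cons c138 138 0 y138 z138 (.cons c139 139 0 y139 z139 .nil)))))) (.cons 5 686168214 (.cons c122 122 2 y122 z122 .nil) (.cons 6 719722528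 (.cons c140 140 0 y140 z140 (.cons c128 128 0 y128 z128 (.cons c136 136 0 y136 z136 (.cons c137 137 0 y137 z137 (.cons c141 141 0 y141 z141 (.cons c129 129 0 y129 z129 (.cons c130 130 0 y130 z130 (.cons c131 131 0 y131 z131 (.cons c132 132 0 y132 z132 (.cons c122 122 2 y122 z122 (.cons c139 139 0 y139 z139 .nil))))))))))) (.cons 7 686168117 (.cons c130 130 0 y130 z130 (.cons c131 131 0 y131 z131 (.cons c132 132 0 y132 z132 (.cons c122 122 2 y122 z122 (.cons c133 133 0 y133 z133 (.cons c134 134 0 y134 z134 .nil)))))) (.cons 8 719626401 (.cons c122 122 2 y122 z122 (.cons c183 183 5 y183 z183 (.cons c142 142 5 y142 z142 (.cons c143 143 5 y143 z143 (.cons c224 224 5 y224 z224 (.cons c185 185 24 y185 z185 (.cons c186 186 32 y186 z186 (.cons c144 144 24 y144 z144 (.cons c145 145 24 y145 z145 (.cons c146 146 0 y146 z146 (.cons c225 225 24 y225 z225 .nil))))))))))) (.cons 9 686071990 (.cons c122 122 2 y122 z122 (.cons c183 183 5 y183 z183 (.cons c142 142 5 y142 z142 (.cons c143 143 5 y143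 z143 (.cons c224 224 5 y224 z224 (.cons c185 185 24 y185 z185 (.cons c186 186 32 y186 z186 (.cons c144 144 24 y144 z144 (.cons c145 145 24 y145 z145 (.cons c146 146 0 y146 z146 (.cons c225 225 24 y225 z225 .nil))))))))))) (.cons 10 719626304 (.cons c128 128 0 y128 z128 (.cons c196 196 0 y196 z196 (.cons c226 226 0 y226 z226 (.cons c198 198 0 y198 z198 (.cons c199 199 0 y199 z199 (.cons c129 129 0 y129 z129 (.cons c200 200 0 y200 z200 (.cons c130 130 0 y130 z130 (.cons c131 131 0 y131 z131 (.cons c201 201 0 y201 z201 (.cons c202 202 0 y202 z202 (.cons c227 227 0 y227 z227 (.cons c228 228 0 y228 z228 (.cons c204 204 0 y204 z204 (.cons c205 205 0 y205 z205 (.cons c208 208 0 y208 z208 (.cons c209 209 0 y209 z209 (.cons c210 210 0 y210 z210 (.cons c211 211 0 y211 z211 (.cons c132 132 0 y132 z132 (.cons c122 122 2 y122 z122 (.cons c212 212 0 y212 z212 (.cons c183 183 5 y183 z183 (.cons c229 229 0 y229 z229 (.cons c224 224 5 y224 z224 (.cons c214 214 0 y214 z214 (.cons c185 185 24 y185 z185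 (.cons c215 215 0 y215 z215 (.cons c186 186 32 y186 z186 (.cons c230 230 0 y230 z230 (.cons c231 231 0 y231 z231 (.cons c232 232 0 y232 z232 (.cons c233 233 0 y233 z233 (.cons c225 225 24 y225 z225 .nil)))))))))))))))))))))))))))))))))) (.cons 11 686071893 (.cons c130 130 0 y130 z130 (.cons c131 131 0 y131 z131 (.cons c201 201 0 y201 z201 (.cons c202 202 0 y202 z202 (.cons c227 227 0 y227 z227 (.cons c228 228 0 y228 z228 (.cons c208 208 0 y208 z208 (.cons c209 209 0 y209 z209 (.cons c210 210 0 y210 z210 (.cons c211 211 0 y211 z211 (.cons c132 132 0 y132 z132 (.cons c122 122 2 y122 z122 (.cons c212 212 0 y212 z212 (.cons c183 183 5 y183 z183 (.cons c133 133 0 y133 z133 (.cons c217 217 0 y217 z217 (.cons c229 229 0 y229 z229 (.cons c224 224 5 y224 z224 (.cons c234 234 0 y234 z234 (.cons c214 214 0 y214 z214 (.cons c185 185 24 y185 z185 (.cons c215 215 0 y215 z215 (.cons c186 186 32 y186 z186 (.cons c218 218 0 y218 z218 (.cons c219 219 0 y219 z219 (.cons c231 231 0 y231 z231 (.cons c232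 232 0 y232 z232 (.cons c233 233 0 y233 z233 (.cons c225 225 24 y225 z225 (.cons c235 235 0 y235 z235 (.cons c134 134 0 y134 z134 (.cons c220 220 0 y220 z220 (.cons c236 236 0 y236 z236 (.cons c222 222 0 y222 z222 (.cons c223 223 0 y223 z223 (.cons c237 237 0 y237 z237 .nil)))))))))))))))))))))))))))))))))))) (.cons 12 719623297 (.cons c135 135 24 y135 z135 (.cons c136 136 24 y136 z136 (.cons c137 137 0 y137 z137 (.cons c122 122 2 y122 z122 (.cons c143 143 5 y143 z143 (.cons c138 138 5 y138 z138 (.cons c139 139 5 y139 z139 (.cons c172 172 5 y172 z172 (.cons c145 145 24 y145 z145 (.cons c173 173 24 y173 z173 (.cons c146 146 0 y146 z146 .nil))))))))))) (.cons 13 686068886 (.cons c122 122 2 y122 z122 (.cons c143 143 5 y143 z143 (.cons c172 172 5 y172 z172 (.cons c145 145 24 y145 z145 (.cons c173 173 24 y173 z173 (.cons c146 146 0 y146 z146 .nil)))))) (.cons 14 719623200 (.cons c140 140 24 y140 z140 (.cons c128 128 24 y128 z128 (.cons c136 136 24 y136 z136 (.cons c137 137 0 y137 z137 (.cons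 c141 141 5 y141 z141 (.cons c129 129 5 y129 z129 (.cons c130 130 0 y130 z130 (.cons c131 131 5 y131 z131 (.cons c132 132 24 y132 z132 (.cons c122 122 2 y122 z122 (.cons c139 139 5 y139 z139 .nil))))))))))) (.cons 15 686068789 (.cons c130 130 0 y130 z130 (.cons c131 131 5 y131 z131 (.cons c132 132 24 y132 z132 (.cons c122 122 2 y122 z122 (.cons c133 133 24 y133 z133 (.cons c134 134 5 y134 z134 .nil)))))) (.cons 24 716447905 .nil (.cons 25 682893494 .nil (.cons 26 716447808 .nil (.cons 27 682893397 .nil (.cons 28 716444801 .nil (.cons 29 682890390 .nil (.cons 30 716444704 .nil (.cons 31 682890293 .nil (.cons 32 618013857 (.cons c243 243 5 y243 z243 (.cons c182 182 5 y182 z182 (.cons c294 294 5 y294 z294 (.cons c244 244 0 y244 z244 (.cons c122 122 2 y122 z122 (.cons c183 183 5 y183 z183 (.cons c246 246 24 y246 z246 (.cons c184 184 24 y184 z184 (.cons c185 185 24 y185 z185 (.cons c186 186 32 y186 z186 (.cons c295 295 24 y295 z295 .nil))))))))))) (.cons 33 584459446 (.cons c243 243 5 y243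 z243 (.cons c182 182 5 y182 z182 (.cons c294 294 5 y294 z294 (.cons c244 244 0 y244 z244 (.cons c122 122 2 y122 z122 (.cons c183 183 5 y183 z183 (.cons c246 246 24 y246 z246 (.cons c184 184 24 y184 z184 (.cons c185 185 24 y185 z185 (.cons c186 186 32 y186 z186 (.cons c295 295 24 y295 z295 .nil))))))))))) (.cons 34 618013760 (.cons c243 243 5 y243 z243 (.cons c182 182 5 y182 z182 (.cons c294 294 5 y294 z294 (.cons c244 244 0 y244 z244 (.cons c122 122 2 y122 z122 (.cons c183 183 5 y183 z183 (.cons c246 246 24 y246 z246 (.cons c184 184 24 y184 z184 (.cons c185 185 24 y185 z185 (.cons c186 186 32 y186 z186 (.cons c295 295 24 y295 z295 .nil))))))))))) (.cons 35 584459349 (.cons c243 243 5 y243 z243 (.cons c182 182 5 y182 z182 (.cons c294 294 5 y294 z294 (.cons c244 244 0 y244 z244 (.cons c122 122 2 y122 z122 (.cons c183 183 5 y183 z183 (.cons c246 246 24 y246 z246 (.cons c184 184 24 y184 z184 (.cons c185 185 24 y185 z185 (.cons c186 186 32 y186 z186 (.cons c295 295 24 y295 z295 .nil)))))))))))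 (.cons 36 618010753 (.cons c252 252 0 y252 z252 (.cons c296 296 0 y296 z296 (.cons c253 253 0 y253 z253 (.cons c254 254 0 y254 z254 (.cons c297 297 0 y297 z297 (.cons c255 255 0 y255 z255 (.cons c256 256 0 y256 z256 (.cons c298 298 0 y298 z298 (.cons c257 257 0 y257 z257 (.cons c243 243 5 y243 z243 (.cons c294 294 5 y294 z294 (.cons c244 244 0 y244 z244 (.cons c260 260 0 y260 z260 (.cons c261 261 0 y261 z261 (.cons c299 299 0 y299 z299 (.cons c262 262 0 y262 z262 (.cons c263 263 0 y263 z263 (.cons c135 135 0 y135 z135 (.cons c265 265 0 y265 z265 (.cons c136 136 0 y136 z136 (.cons c267 267 0 y267 z267 (.cons c137 137 0 y137 z137 (.cons c269 269 0 y269 z269 (.cons c300 300 0 y300 z300 (.cons c301 301 0 y301 z301 (.cons c122 122 2 y122 z122 (.cons c246 246 24 y246 z246 (.cons c138 138 0 y138 z138 (.cons c139 139 0 y139 z139 (.cons c271 271 0 y271 z271 (.cons c273 273 0 y273 z273 (.cons c295 295 24 y295 z295 (.cons c302 302 0 y302 z302 (.cons c303 303 0 y303 z303 .nil))))))))))))))))))))))))))))))))))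 (.cons 37 584456342 (.cons c243 243 5 y243 z243 (.cons c294 294 5 y294 z294 (.cons c244 244 0 y244 z244 (.cons c122 122 2 y122 z122 (.cons c246 246 24 y246 z246 (.cons c295 295 24 y295 z295 .nil)))))) (.cons 38 618010656 (.cons c275 275 0 y275 z275 (.cons c254 254 0 y254 z254 (.cons c304 304 0 y304 z304 (.cons c297 297 0 y297 z297 (.cons c276 276 0 y276 z276 (.cons c255 255 0 y255 z255 (.cons c256 256 0 y256 z256 (.cons c298 298 0 y298 z298 (.cons c257 257 0 y257 z257 (.cons c277 277 0 y277 z277 (.cons c305 305 0 y305 z305 (.cons c278 278 0 y278 z278 (.cons c243 243 5 y243 z243 (.cons c294 294 5 y294 z294 (.cons c244 244 0 y244 z244 (.cons c261 261 0 y261 z261 (.cons c299 299 0 y299 z299 (.cons c263 263 0 y263 z263 (.cons c140 140 0 y140 z140 (.cons c136 136 0 y136 z136 (.cons c279 279 0 y279 z279 (.cons c267 267 0 y267 z267 (.cons c137 137 0 y137 z137 (.cons c269 269 0 y269 z269 (.cons c306 306 0 y306 z306 (.cons c300 300 0 y300 z300 (.cons c301 301 0 y301 z301 (.cons c141 141 0 y141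 z141 (.cons c281 281 0 y281 z281 (.cons c307 307 0 y307 z307 (.cons c122 122 2 y122 z122 (.cons c246 246 24 y246 z246 (.cons c139 139 0 y139 z139 (.cons c273 273 0 y273 z273 (.cons c295 295 24 y295 z295 (.cons c303 303 0 y303 z303 .nil)))))))))))))))))))))))))))))))))))) (.cons 39 584456245 (.cons c243 243 5 y243 z243 (.cons c294 294 5 y294 z294 (.cons c244 244 0 y244 z244 (.cons c122 122 2 y122 z122 (.cons c246 246 24 y246 z246 (.cons c295 295 24 y295 z295 .nil)))))) (.cons 40 617914529 (.cons c122 122 2 y122 z122 (.cons c183 183 5 y183 z183 (.cons c142 142 5 y142 z142 (.cons c143 143 5 y143 z143 (.cons c224 224 5 y224 z224 (.cons c185 185 24 y185 z185 (.cons c186 186 32 y186 z186 (.cons c144 144 24 y144 z144 (.cons c145 145 24 y145 z145 (.cons c146 146 0 y146 z146 (.cons c225 225 24 y225 z225 .nil))))))))))) (.cons 41 584360118 (.cons c122 122 2 y122 z122 (.cons c183 183 5 y183 z183 (.cons c142 142 5 y142 z142 (.cons c143 143 5 y143 z143 (.cons c224 224 5 y224 z224 (.cons c185 185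 24 y185 z185 (.cons c186 186 32 y186 z186 (.cons c144 144 24 y144 z144 (.cons c145 145 24 y145 z145 (.cons c146 146 0 y146 z146 (.cons c225 225 24 y225 z225 .nil))))))))))) (.cons 42 617914432 (.cons c122 122 2 y122 z122 (.cons c183 183 5 y183 z183 (.cons c224 224 5 y224 z224 (.cons c185 185 24 y185 z185 (.cons c186 186 32 y186 z186 (.cons c225 225 24 y225 z225 .nil)))))) (.cons 43 584360021 (.cons c122 122 2 y122 z122 (.cons c183 183 5 y183 z183 (.cons c224 224 5 y224 z224 (.cons c185 185 24 y185 z185 (.cons c186 186 32 y186 z186 (.cons c225 225 24 y225 z225 .nil)))))) (.cons 44 617911425 (.cons c135 135 24 y135 z135 (.cons c136 136 24 y136 z136 (.cons c137 137 0 y137 z137 (.cons c122 122 2 y122 z122 (.cons c143 143 5 y143 z143 (.cons c138 138 5 y138 z138 (.cons c139 139 5 y139 z139 (.cons c172 172 5 y172 z172 (.cons c145 145 24 y145 z145 (.cons c173 173 24 y173 z173 (.cons c146 146 0 y146 z146 .nil))))))))))) (.cons 45 584357014 (.cons c122 122 2 y122 z122 (.cons c143 143 5 y143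 z143 (.cons c172 172 5 y172 z172 (.cons c145 145 24 y145 z145 (.cons c173 173 24 y173 z173 (.cons c146 146 0 y146 z146 .nil)))))) (.cons 46 617911328 (.cons c140 140 24 y140 z140 (.cons c136 136 24 y136 z136 (.cons c137 137 0 y137 z137 (.cons c141 141 5 y141 z141 (.cons c122 122 2 y122 z122 (.cons c139 139 5 y139 z139 .nil)))))) (.cons 47 584356917 (.cons c122 122 2 y122 z122 (.cons c308 308 0 y308 z308 (.cons c309 309 7 y309 z309 (.cons c310 310 0 y310 z310 .nil)))) (.cons 56 614736033 .nil (.cons 57 581181622 .nil (.cons 58 614735936 .nil (.cons 59 581181525 .nil (.cons 60 614732929 .nil (.cons 61 581178518 .nil (.cons 62 614732832 .nil (.cons 63 581178421 (.cons c310 310 0 y310 z310 (.cons c330 330 0 y330 z330 (.cons c331 331 0 y331 z331 (.cons c332 332 0 y332 z332 (.cons c333 333 0 y333 z333 (.cons c334 334 0 y334 z334 .nil)))))) .nil))))))))))))))))))))))))))))))))))))))))))))))))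

theorem a41 : chkA TCf 719725729 E41 = true := by decide +kernel

theorem b41 : chkB row E41 = true := by decide +kernel

theorem d41 : chkC E41 = true := by decide +kernel

end Vale.Agent.P032.H532.T
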