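import Vale.Agent.P032.H532.TTab

/-!
# Tile windows: closures 17 .. 60
-/

set_option maxRecDepth 20000

namespace Vale.Agent.P032.H532.T

/-- windows 0:0 0:3 3:0 3:0 3:3 0:0 -/
def E17 : Es :=
  (.cons 0 16134240 (.cons c187 187 1 y187 z187 (.cons c188 188 2 y188 z188 (.cons c189 189 4 y189 z189 (.cons c190 190 8 y190 z190 .nil)))) (.cons 4 16131136 .nil (.cons 12 16031808 .nil (.cons 32 719728736 .nil (.cons 33 686174325 .nil (.cons 36 719725632 (.cons c191 191 4 y191 z191 (.cons c192 192 8 y192 z192 (.cons c193 193 0 y193 z193 (.cons c194 194 8 y194 z194 (.cons c195 195 4 y195 z195 (.cons c182 182 0 y182 z182 (.cons c128 128 0 y128 z128 (.cons c196 196 4 y196 z196 (.cons c197 197 1 y197 z197 (.cons c198 198 1 y198 z198 (.cons c199 199 0 y199 z199 (.cons c129 129 0 y129 z129 (.cons c200 200 8 y200 z200 (.cons c130 130 0 y130 z130 (.cons c131 131 0 y131 z131 (.cons c201 201 0 y201 z201 (.cons c202 202 8 y202 z202 (.cons c203 203 2 y203 z203 (.cons c204 204 2 y204 z204 (.cons c205 205 0 y205 z205 (.cons c206 206 0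 y206 z206 (.cons c207 207 2 y207 z207 (.cons c208 208 0 y208 z208 (.cons c209 209 2 y209 z209 (.cons c210 210 0 y210 z210 (.cons c211 211 0 y211 z211 (.cons c132 132 0 y132 z132 (.cons c122 122 0 y122 z122 (.cons c212 212 4 y212 z212 (.cons c183 183 0 y183 z183 (.cons c213 213 1 y213 z213 (.cons c184 184 0 y184 z184 (.cons c214 214 1 y214 z214 (.cons c185 185 0 y185 z185 (.cons c215 215 0 y215 z215 (.cons c186 186 0 y186 z186 .nil)))))))))))))))))))))))))))))))))))) (.cons 37 686171221 (.cons c193 193 0 y193 z193 (.cons c194 194 8 y194 z194 (.cons c195 195 4 y195 z195 (.cons c182 182 0 y182 z182 (.cons c216 216 4 y216 z216 (.cons c130 130 0 y130 z130 (.cons c131 131 0 y131 z131 (.cons c201 201 0 y201 z201 (.cons c202 202 8 y202 z202 (.cons c206 206 0 y206 z206 (.cons c207 207 2 y207 z207 (.cons c208 208 0 y208 z208 (.cons c209 209 2 y209 z209 (.cons c210 210 0 y210 z210 (.cons c211 211 0 y211 z211 (.cons c132 132 0 y132 z132 (.cons c122 122 0 y122 z122 (.cons c212 212 4 y212 z212 (.cons c183 183 0 y183 z183 (.cons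 c133 133 0 y133 z133 (.cons c217 217 4 y217 z217 (.cons c213 213 1 y213 z213 (.cons c184 184 0 y184 z184 (.cons c214 214 1 y214 z214 (.cons c185 185 0 y185 z185 (.cons c215 215 0 y215 z215 (.cons c186 186 0 y186 z186 (.cons c218 218 1 y218 z218 (.cons c219 219 0 y219 z219 (.cons c134 134 0 y134 z134 (.cons c220 220 8 y220 z220 (.cons c221 221 2 y221 z221 (.cons c222 222 2 y222 z222 (.cons c223 223 0 y223 z223 .nil)))))))))))))))))))))))))))))))))) (.cons 39 686171892 .nil (.cons 44 719626304 (.cons c128 128 0 y128 z128 (.cons c196 196 4 y196 z196 (.cons c226 226 4 y226 z226 (.cons c198 198 1 y198 z198 (.cons c199 199 0 y199 z199 (.cons c129 129 0 y129 z129 (.cons c200 200 8 y200 z200 (.cons c130 130 0 y130 z130 (.cons c131 131 0 y131 z131 (.cons c201 201 0 y201 z201 (.cons c202 202 8 y202 z202 (.cons c227 227 0 y227 z227 (.cons c228 228 8 y228 z228 (.cons c204 204 2 y204 z204 (.cons c205 205 0 y205 z205 (.cons c208 208 0 y208 z208 (.cons c209 209 2 y209 z209 (.cons c210 210 0 y210 z210 (.cons c211 211 0 y211 z211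 (.cons c132 132 0 y132 z132 (.cons c122 122 0 y122 z122 (.cons c212 212 4 y212 z212 (.cons c183 183 0 y183 z183 (.cons c229 229 4 y229 z229 (.cons c224 224 0 y224 z224 (.cons c214 214 1 y214 z214 (.cons c185 185 0 y185 z185 (.cons c215 215 0 y215 z215 (.cons c186 186 0 y186 z186 (.cons c230 230 2 y230 z230 (.cons c231 231 0 y231 z231 (.cons c232 232 2 y232 z232 (.cons c233 233 1 y233 z233 (.cons c225 225 0 y225 z225 .nil)))))))))))))))))))))))))))))))))) (.cons 45 686071893 (.cons c130 130 0 y130 z130 (.cons c131 131 0 y131 z131 (.cons c201 201 0 y201 z201 (.cons c202 202 8 y202 z202 (.cons c227 227 0 y227 z227 (.cons c228 228 8 y228 z228 (.cons c208 208 0 y208 z208 (.cons c209 209 2 y209 z209 (.cons c210 210 0 y210 z210 (.cons c211 211 0 y211 z211 (.cons c132 132 0 y132 z132 (.cons c122 122 0 y122 z122 (.cons c212 212 4 y212 z212 (.cons c183 183 0 y183 z183 (.cons c133 133 0 y133 z133 (.cons c217 217 4 y217 z217 (.cons c229 229 4 y229 z229 (.cons c224 224 0 y224 z224 (.cons c234 234 4 y234 z234 (.cons c214 214 1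 y214 z214 (.cons c185 185 0 y185 z185 (.cons c215 215 0 y215 z215 (.cons c186 186 0 y186 z186 (.cons c218 218 1 y218 z218 (.cons c219 219 0 y219 z219 (.cons c231 231 0 y231 z231 (.cons c232 232 2 y232 z232 (.cons c233 233 1 y233 z233 (.cons c225 225 0 y225 z225 (.cons c235 235 1 y235 z235 (.cons c134 134 0 y134 z134 (.cons c220 220 8 y220 z220 (.cons c236 236 8 y236 z236 (.cons c222 222 2 y222 z222 (.cons c223 223 0 y223 z223 (.cons c237 237 2 y237 z237 .nil)))))))))))))))))))))))))))))))))))) (.cons 47 686072564 .nil (.cons 60 716447808 .nil (.cons 61 682893397 .nil (.cons 63 682894068 (.cons c238 238 1 y238 z238 (.cons c239 239 4 y239 z239 (.cons c240 240 2 y240 z240 (.cons c241 241 8 y241 z241 .nil)))) .nil))))))))))))))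

theorem a17 : chkA TCf 16134240 E17 = true := by decide +kernel

theorem b17 : chkB row E17 = true := by decide +kernel

theorem d17 : chkC E17 = true := by decide +kernel

/-- windows 0:1 1:2 3:1 4:1 5:0 5:1 -/
def E19 : Es :=
  (.cons 0 726185153 (.cons c10 10 1 y10 z10 (.cons c11 11 30 y11 z11 (.cons c113 113 30 y113 z113 (.cons c114 114 30 y114 z114 (.cons c51 51 30 y51 z51 (.cons c20 20 1440 y20 z20 (.cons c21 21 64 y21 z21 (.cons c115 115 1440 y115 z115 (.cons c116 116 1440 y116 z116 (.cons c117 117 512 y117 z117 (.cons c55 55 1440 y55 z55 .nil))))))))))) (.cons 1 692630742 .nil (.cons 2 726185056 .nil (.cons 3 692630645 .nil (.cons 4 726182049 (.cons c10 10 1 y10 z10 (.cons c11 11 30 y11 z11 (.cons c113 113 30 y113 z113 (.cons c114 114 30 y114 z114 (.cons c51 51 30 y51 z51 (.cons c20 20 1440 y20 z20 (.cons c21 21 64 y21 z21 (.cons c115 115 1440 y115 z115 (.cons c116 116 1440 y116 z116 (.cons c117 117 512 y117 z117 (.cons c55 55 1440 y55 z55 .nil))))))))))) (.cons 5 692627638 .nil (.cons 6 726181952 .nil (.cons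 7 692627541 .nil (.cons 8 726085825 (.cons c10 10 1 y10 z10 (.cons c11 11 30 y11 z11 (.cons c51 51 30 y51 z51 (.cons c20 20 1440 y20 z20 (.cons c21 21 64 y21 z21 (.cons c55 55 1440 y55 z55 .nil)))))) (.cons 9 692531414 .nil (.cons 10 726085728 .nil (.cons 11 692531317 .nil (.cons 12 726082721 (.cons c10 10 1 y10 z10 (.cons c11 11 30 y11 z11 (.cons c51 51 30 y51 z51 (.cons c20 20 1440 y20 z20 (.cons c21 21 64 y21 z21 (.cons c55 55 1440 y55 z55 .nil)))))) (.cons 13 692528310 .nil (.cons 14 726082624 .nil (.cons 15 692528213 .nil (.cons 16 723006657 (.cons c73 73 1440 y73 z73 (.cons c74 74 1440 y74 z74 (.cons c75 75 0 y75 z75 (.cons c10 10 1 y10 z10 (.cons c114 114 30 y114 z114 (.cons c76 76 30 y76 z76 (.cons c77 77 30 y77 z77 (.cons c118 118 30 y118 z118 (.cons c116 116 1440 y116 z116 (.cons c119 119 1440 y119 z119 (.cons c117 117 512 y117 z117 .nil))))))))))) (.cons 17 689452246 .nil (.cons 18 723006560 .nil (.cons 19 689452149 .nil (.cons 20 723003553 (.cons c10 10 1 y10 z10 (.cons c114 114 30 y114 z114 (.cons c118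 118 30 y118 z118 (.cons c116 116 1440 y116 z116 (.cons c119 119 1440 y119 z119 (.cons c117 117 512 y117 z117 .nil)))))) (.cons 21 689449142 .nil (.cons 22 723003456 .nil (.cons 23 689449045 .nil (.cons 24 722907329 (.cons c74 74 1440 y74 z74 (.cons c101 101 1440 y101 z101 (.cons c75 75 0 y75 z75 (.cons c10 10 1 y10 z10 (.cons c77 77 30 y77 z77 (.cons c102 102 30 y102 z102 .nil)))))) (.cons 25 689352918 .nil (.cons 26 722907232 .nil (.cons 27 689352821 .nil (.cons 28 722904225 (.cons c10 10 1 y10 z10 (.cons c120 120 0 y120 z120 (.cons c121 121 1441 y121 z121 (.cons c122 122 0 y122 z122 .nil)))) (.cons 29 689349814 (.cons c122 122 0 y122 z122 (.cons c123 123 0 y123 z123 (.cons c124 124 0 y124 z124 (.cons c125 125 0 y125 z125 (.cons c126 126 0 y126 z126 (.cons c127 127 0 y127 z127 .nil)))))) (.cons 30 722904128 (.cons c128 128 0 y128 z128 (.cons c129 129 0 y129 z129 (.cons c130 130 0 y130 z130 (.cons c131 131 0 y131 z131 (.cons c132 132 0 y132 z132 (.cons c122 122 0 y122 z122 .nil)))))) (.cons 31 689349717 (.cons c130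 130 0 y130 z130 (.cons c131 131 0 y131 z131 (.cons c132 132 0 y132 z132 (.cons c122 122 0 y122 z122 (.cons c133 133 0 y133 z133 (.cons c123 123 0 y123 z123 (.cons c124 124 0 y124 z124 (.cons c134 134 0 y134 z134 (.cons c125 125 0 y125 z125 (.cons c126 126 0 y126 z126 (.cons c127 127 0 y127 z127 .nil))))))))))) (.cons 48 621294785 .nil (.cons 49 587740374 .nil (.cons 50 621294688 .nil (.cons 51 587740277 .nil (.cons 52 621291681 .nil (.cons 53 587737270 .nil (.cons 54 621291584 .nil (.cons 55 587737173 .nil (.cons 56 621195457 .nil (.cons 57 587641046 .nil (.cons 58 621195360 .nil (.cons 59 587640949 .nil (.cons 60 621192353 (.cons c242 242 0 y242 z242 (.cons c243 243 0 y243 z243 (.cons c244 244 0 y244 z244 (.cons c122 122 0 y122 z122 (.cons c245 245 0 y245 z245 (.cons c246 246 0 y246 z246 .nil)))))) (.cons 61 587637942 (.cons c242 242 0 y242 z242 (.cons c243 243 0 y243 z243 (.cons c244 244 0 y244 z244 (.cons c122 122 0 y122 z122 (.cons c123 123 0 y123 z123 (.cons c245 245 0 y245 z245 (.cons c246 246 0 y246 z246 (.cons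 c247 247 0 y247 z247 (.cons c125 125 0 y125 z125 (.cons c248 248 0 y248 z248 (.cons c126 126 0 y126 z126 .nil))))))))))) (.cons 62 621192256 (.cons c242 242 0 y242 z242 (.cons c243 243 0 y243 z243 (.cons c244 244 0 y244 z244 (.cons c122 122 0 y122 z122 (.cons c245 245 0 y245 z245 (.cons c246 246 0 y246 z246 .nil)))))) (.cons 63 587637845 (.cons c242 242 0 y242 z242 (.cons c243 243 0 y243 z243 (.cons c244 244 0 y244 z244 (.cons c122 122 0 y122 z122 (.cons c123 123 0 y123 z123 (.cons c245 245 0 y245 z245 (.cons c246 246 0 y246 z246 (.cons c247 247 0 y247 z247 (.cons c125 125 0 y125 z125 (.cons c248 248 0 y248 z248 (.cons c126 126 0 y126 z126 .nil))))))))))) .nil))))))))))))))))))))))))))))))))))))))))))))))))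

theorem a19 : chkA TCf 726185153 E19 = true := by decide +kernel

theorem b19 : chkB row E19 = true := by decide +kernel

theorem d19 : chkC E19 = true := by decide +kernel

/-- windows 0:1 1:1 2:2 4:1 5:0 5:1 -/
def E21 : Es :=
  (.cons 0 726182049 (.cons c10 10 1 y10 z10 (.cons c11 11 30 y11 z11 (.cons c113 113 30 y113 z113 (.cons c114 114 30 y114 z114 (.cons c51 51 30 y51 z51 (.cons c20 20 1440 y20 z20 (.cons c21 21 64 y21 z21 (.cons c115 115 1440 y115 z115 (.cons c116 116 1440 y116 z116 (.cons c117 117 512 y117 z117 (.cons c55 55 1440 y55 z55 .nil))))))))))) (.cons 1 692627638 .nil (.cons 2 726181952 .nil (.cons 3 692627541 .nil (.cons 4 726178945 .nil (.cons 5 692624534 .nil (.cons 6 726178848 .nil (.cons 7 692624437 .nil (.cons 8 726082721 (.cons c10 10 1 y10 z10 (.cons c11 11 30 y11 z11 (.cons c51 51 30 y51 z51 (.cons c20 20 1440 y20 z20 (.cons c21 21 64 y21 z21 (.cons c55 55 1440 y55 z55 .nil)))))) (.cons 9 692528310 .nil (.cons 10 726082624 .nil (.cons 11 692528213 .nil (.cons 12 726079617 .nil (.cons 13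 692525206 .nil (.cons 14 726079520 .nil (.cons 15 692525109 .nil (.cons 16 723003553 (.cons c10 10 1 y10 z10 (.cons c114 114 30 y114 z114 (.cons c118 118 30 y118 z118 (.cons c116 116 1440 y116 z116 (.cons c119 119 1440 y119 z119 (.cons c117 117 512 y117 z117 .nil)))))) (.cons 17 689449142 .nil (.cons 18 723003456 .nil (.cons 19 689449045 .nil (.cons 20 723000449 .nil (.cons 21 689446038 .nil (.cons 22 723000352 .nil (.cons 23 689445941 .nil (.cons 24 722904225 (.cons c10 10 1 y10 z10 (.cons c120 120 0 y120 z120 (.cons c121 121 1441 y121 z121 (.cons c122 122 0 y122 z122 .nil)))) (.cons 25 689349814 (.cons c122 122 0 y122 z122 (.cons c123 123 0 y123 z123 (.cons c124 124 0 y124 z124 (.cons c125 125 0 y125 z125 (.cons c126 126 0 y126 z126 (.cons c127 127 0 y127 z127 .nil)))))) (.cons 26 722904128 (.cons c128 128 0 y128 z128 (.cons c129 129 0 y129 z129 (.cons c130 130 0 y130 z130 (.cons c131 131 0 y131 z131 (.cons c132 132 0 y132 z132 (.cons c122 122 0 y122 z122 .nil)))))) (.cons 27 689349717 (.cons c130 130 0 y130 z130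 (.cons c131 131 0 y131 z131 (.cons c132 132 0 y132 z132 (.cons c122 122 0 y122 z122 (.cons c133 133 0 y133 z133 (.cons c123 123 0 y123 z123 (.cons c124 124 0 y124 z124 (.cons c134 134 0 y134 z134 (.cons c125 125 0 y125 z125 (.cons c126 126 0 y126 z126 (.cons c127 127 0 y127 z127 .nil))))))))))) (.cons 28 722901121 (.cons c135 135 0 y135 z135 (.cons c136 136 0 y136 z136 (.cons c137 137 0 y137 z137 (.cons c122 122 0 y122 z122 (.cons c138 138 0 y138 z138 (.cons c139 139 0 y139 z139 .nil)))))) (.cons 29 689346710 (.cons c122 122 0 y122 z122 (.cons c123 123 0 y123 z123 (.cons c124 124 0 y124 z124 (.cons c125 125 0 y125 z125 (.cons c126 126 0 y126 z126 (.cons c127 127 0 y127 z127 .nil)))))) (.cons 30 722901024 (.cons c140 140 0 y140 z140 (.cons c128 128 0 y128 z128 (.cons c136 136 0 y136 z136 (.cons c137 137 0 y137 z137 (.cons c141 141 0 y141 z141 (.cons c129 129 0 y129 z129 (.cons c130 130 0 y130 z130 (.cons c131 131 0 y131 z131 (.cons c132 132 0 y132 z132 (.cons c122 122 0 y122 z122 (.cons c139 139 0 y139 z139 .nil)))))))))))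 (.cons 31 689346613 (.cons c130 130 0 y130 z130 (.cons c131 131 0 y131 z131 (.cons c132 132 0 y132 z132 (.cons c122 122 0 y122 z122 (.cons c133 133 0 y133 z133 (.cons c123 123 0 y123 z123 (.cons c124 124 0 y124 z124 (.cons c134 134 0 y134 z134 (.cons c125 125 0 y125 z125 (.cons c126 126 0 y126 z126 (.cons c127 127 0 y127 z127 .nil))))))))))) (.cons 48 621291681 .nil (.cons 49 587737270 .nil (.cons 50 621291584 .nil (.cons 51 587737173 .nil (.cons 52 621288577 .nil (.cons 53 587734166 .nil (.cons 54 621288480 .nil (.cons 55 587734069 .nil (.cons 56 621192353 (.cons c242 242 0 y242 z242 (.cons c243 243 0 y243 z243 (.cons c244 244 0 y244 z244 (.cons c122 122 0 y122 z122 (.cons c245 245 0 y245 z245 (.cons c246 246 0 y246 z246 .nil)))))) (.cons 57 587637942 (.cons c242 242 0 y242 z242 (.cons c243 243 0 y243 z243 (.cons c244 244 0 y244 z244 (.cons c122 122 0 y122 z122 (.cons c123 123 0 y123 z123 (.cons c245 245 0 y245 z245 (.cons c246 246 0 y246 z246 (.cons c247 247 0 y247 z247 (.cons c125 125 0 y125 z125 (.cons c248 248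 0 y248 z248 (.cons c126 126 0 y126 z126 .nil))))))))))) (.cons 58 621192256 (.cons c242 242 0 y242 z242 (.cons c243 243 0 y243 z243 (.cons c244 244 0 y244 z244 (.cons c122 122 0 y122 z122 (.cons c245 245 0 y245 z245 (.cons c246 246 0 y246 z246 .nil)))))) (.cons 59 587637845 (.cons c242 242 0 y242 z242 (.cons c243 243 0 y243 z243 (.cons c244 244 0 y244 z244 (.cons c122 122 0 y122 z122 (.cons c123 123 0 y123 z123 (.cons c245 245 0 y245 z245 (.cons c246 246 0 y246 z246 (.cons c247 247 0 y247 z247 (.cons c125 125 0 y125 z125 (.cons c248 248 0 y248 z248 (.cons c126 126 0 y126 z126 .nil))))))))))) (.cons 60 621189249 (.cons c249 249 512 y249 z249 (.cons c250 250 512 y250 z250 (.cons c251 251 0 y251 z251 (.cons c252 252 512 y252 z252 (.cons c253 253 0 y253 z253 (.cons c254 254 512 y254 z254 (.cons c255 255 0 y255 z255 (.cons c256 256 0 y256 z256 (.cons c257 257 0 y257 z257 (.cons c242 242 0 y242 z242 (.cons c258 258 0 y258 z258 (.cons c259 259 0 y259 z259 (.cons c243 243 0 y243 z243 (.cons c244 244 0 y244 z244 (.cons c260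 260 0 y260 z260 (.cons c261 261 0 y261 z261 (.cons c262 262 0 y262 z262 (.cons c263 263 0 y263 z263 (.cons c135 135 0 y135 z135 (.cons c264 264 1535 y264 z264 (.cons c265 265 1535 y265 z265 (.cons c136 136 0 y136 z136 (.cons c266 266 1535 y266 z266 (.cons c267 267 1535 y267 z267 (.cons c137 137 0 y137 z137 (.cons c268 268 0 y268 z268 (.cons c269 269 0 y269 z269 (.cons c122 122 0 y122 z122 (.cons c245 245 0 y245 z245 (.cons c246 246 0 y246 z246 (.cons c138 138 0 y138 z138 (.cons c139 139 0 y139 z139 (.cons c270 270 0 y270 z270 (.cons c271 271 0 y271 z271 (.cons c272 272 0 y272 z272 (.cons c273 273 0 y273 z273 .nil)))))))))))))))))))))))))))))))))))) (.cons 61 587634838 (.cons c242 242 0 y242 z242 (.cons c243 243 0 y243 z243 (.cons c244 244 0 y244 z244 (.cons c122 122 0 y122 z122 (.cons c123 123 0 y123 z123 (.cons c245 245 0 y245 z245 (.cons c246 246 0 y246 z246 (.cons c247 247 0 y247 z247 (.cons c125 125 0 y125 z125 (.cons c248 248 0 y248 z248 (.cons c126 126 0 y126 z126 .nil))))))))))) (.cons 62 621189152 (.cons c274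 274 512 y274 z274 (.cons c250 250 512 y250 z250 (.cons c251 251 0 y251 z251 (.cons c275 275 512 y275 z275 (.cons c254 254 512 y254 z254 (.cons c276 276 0 y276 z276 (.cons c255 255 0 y255 z255 (.cons c256 256 0 y256 z256 (.cons c257 257 0 y257 z257 (.cons c277 277 0 y277 z277 (.cons c278 278 0 y278 z278 (.cons c242 242 0 y242 z242 (.cons c259 259 0 y259 z259 (.cons c243 243 0 y243 z243 (.cons c244 244 0 y244 z244 (.cons c261 261 0 y261 z261 (.cons c263 263 0 y263 z263 (.cons c140 140 0 y140 z140 (.cons c136 136 0 y136 z136 (.cons c279 279 1535 y279 z279 (.cons c266 266 1535 y266 z266 (.cons c267 267 1535 y267 z267 (.cons c137 137 0 y137 z137 (.cons c268 268 0 y268 z268 (.cons c269 269 0 y269 z269 (.cons c141 141 0 y141 z141 (.cons c280 280 0 y280 z280 (.cons c281 281 0 y281 z281 (.cons c122 122 0 y122 z122 (.cons c245 245 0 y245 z245 (.cons c246 246 0 y246 z246 (.cons c139 139 0 y139 z139 (.cons c272 272 0 y272 z272 (.cons c273 273 0 y273 z273 .nil)))))))))))))))))))))))))))))))))) (.cons 63 587634741 (.cons c242 242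 0 y242 z242 (.cons c243 243 0 y243 z243 (.cons c244 244 0 y244 z244 (.cons c122 122 0 y122 z122 (.cons c123 123 0 y123 z123 (.cons c245 245 0 y245 z245 (.cons c246 246 0 y246 z246 (.cons c247 247 0 y247 z247 (.cons c125 125 0 y125 z125 (.cons c248 248 0 y248 z248 (.cons c126 126 0 y126 z126 .nil))))))))))) .nil))))))))))))))))))))))))))))))))))))))))))))))))

theorem a21 : chkA TCf 726182049 E21 = true := by decide +kernel

theorem b21 : chkB row E21 = true := by decide +kernel

theorem d21 : chkC E21 = true := by decide +kernel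

/-- windows 0:1 1:1 2:1 3:2 5:0 5:1 -/
def E25 : Es :=
  (.cons 0 726082721 (.cons c10 10 1 y10 z10 (.cons c11 11 6 y11 z11 (.cons c51 51 6 y51 z51 (.cons c20 20 40 y20 z20 (.cons c21 21 16 y21 z21 (.cons c55 55 40 y55 z55 .nil)))))) (.cons 1 692528310 .nil (.cons 2 726082624 .nil (.cons 3 692528213 .nil (.cons 4 726079617 .nil (.cons 5 692525206 .nil (.cons 6 726079520 .nil (.cons 7 692525109 .nil (.cons 8 725983393 .nil (.cons 9 692428982 .nil (.cons 10 725983296 .nil (.cons 11 692428885 .nil (.cons 12 725980289 .nil (.cons 13 692425878 .nil (.cons 14 725980192 .nil (.cons 15 692425781 .nil (.cons 16 722904225 (.cons c10 10 1 y10 z10 (.cons c120 120 0 y120 z120 (.cons c121 121 41 y121 z121 (.cons c122 122 0 y122 z122 .nil)))) (.cons 17 689349814 (.cons c122 122 0 y122 z122 (.cons c123 123 0 y123 z123 (.cons c124 124 0 y124 z124 (.cons c125 125 0 y125 z125 (.cons c126 126 0 y126 z126 (.cons c127 127 0 y127 z127 .nil)))))) (.cons 18 722904128 (.cons c128 128 0 y128 z128 (.cons c129 129 0 y129 z129 (.cons c130 130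 0 y130 z130 (.cons c131 131 0 y131 z131 (.cons c132 132 0 y132 z132 (.cons c122 122 0 y122 z122 .nil)))))) (.cons 19 689349717 (.cons c130 130 0 y130 z130 (.cons c131 131 0 y131 z131 (.cons c132 132 0 y132 z132 (.cons c122 122 0 y122 z122 (.cons c133 133 0 y133 z133 (.cons c123 123 0 y123 z123 (.cons c124 124 0 y124 z124 (.cons c134 134 0 y134 z134 (.cons c125 125 0 y125 z125 (.cons c126 126 0 y126 z126 (.cons c127 127 0 y127 z127 .nil))))))))))) (.cons 20 722901121 (.cons c135 135 0 y135 z135 (.cons c136 136 0 y136 z136 (.cons c137 137 0 y137 z137 (.cons c122 122 0 y122 z122 (.cons c138 138 0 y138 z138 (.cons c139 139 0 y139 z139 .nil)))))) (.cons 21 689346710 (.cons c122 122 0 y122 z122 (.cons c123 123 0 y123 z123 (.cons c124 124 0 y124 z124 (.cons c125 125 0 y125 z125 (.cons c126 126 0 y126 z126 (.cons c127 127 0 y127 z127 .nil)))))) (.cons 22 722901024 (.cons c140 140 0 y140 z140 (.cons c128 128 0 y128 z128 (.cons c136 136 0 y136 z136 (.cons c137 137 0 y137 z137 (.cons c141 141 0 y141 z141 (.cons c129 129 0 y129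 z129 (.cons c130 130 0 y130 z130 (.cons c131 131 0 y131 z131 (.cons c132 132 0 y132 z132 (.cons c122 122 0 y122 z122 (.cons c139 139 0 y139 z139 .nil))))))))))) (.cons 23 689346613 (.cons c130 130 0 y130 z130 (.cons c131 131 0 y131 z131 (.cons c132 132 0 y132 z132 (.cons c122 122 0 y122 z122 (.cons c133 133 0 y133 z133 (.cons c123 123 0 y123 z123 (.cons c124 124 0 y124 z124 (.cons c134 134 0 y134 z134 (.cons c125 125 0 y125 z125 (.cons c126 126 0 y126 z126 (.cons c127 127 0 y127 z127 .nil))))))))))) (.cons 24 722804897 (.cons c122 122 0 y122 z122 (.cons c142 142 0 y142 z142 (.cons c143 143 0 y143 z143 (.cons c144 144 0 y144 z144 (.cons c145 145 0 y145 z145 (.cons c146 146 0 y146 z146 .nil)))))) (.cons 25 689250486 (.cons c122 122 0 y122 z122 (.cons c123 123 0 y123 z123 (.cons c124 124 0 y124 z124 (.cons c142 142 0 y142 z142 (.cons c143 143 0 y143 z143 (.cons c147 147 0 y147 z147 (.cons c148 148 0 y148 z148 (.cons c149 149 0 y149 z149 (.cons c150 150 0 y150 z150 (.cons c144 144 0 y144 z144 (.cons c151 151 41 y151 z151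 (.cons c152 152 41 y152 z152 (.cons c145 145 0 y145 z145 (.cons c153 153 41 y153 z153 (.cons c154 154 41 y154 z154 (.cons c146 146 0 y146 z146 (.cons c155 155 0 y155 z155 (.cons c156 156 0 y156 z156 (.cons c125 125 0 y125 z125 (.cons c126 126 0 y126 z126 (.cons c157 157 0 y157 z157 (.cons c158 158 0 y158 z158 (.cons c159 159 0 y159 z159 (.cons c160 160 0 y160 z160 (.cons c127 127 0 y127 z127 (.cons c161 161 0 y161 z161 (.cons c162 162 0 y162 z162 (.cons c163 163 16 y163 z163 (.cons c164 164 0 y164 z164 (.cons c165 165 16 y165 z165 (.cons c166 166 0 y166 z166 (.cons c167 167 0 y167 z167 (.cons c168 168 0 y168 z168 (.cons c169 169 16 y169 z169 (.cons c170 170 16 y170 z170 (.cons c171 171 0 y171 z171 .nil)))))))))))))))))))))))))))))))))))) (.cons 26 722804800 (.cons c128 128 0 y128 z128 (.cons c129 129 0 y129 z129 (.cons c130 130 0 y130 z130 (.cons c131 131 0 y131 z131 (.cons c132 132 0 y132 z132 (.cons c122 122 0 y122 z122 .nil)))))) (.cons 27 689250389 (.cons c130 130 0 y130 z130 (.cons c131 131 0 y131 z131 (.cons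 c132 132 0 y132 z132 (.cons c122 122 0 y122 z122 (.cons c133 133 0 y133 z133 (.cons c123 123 0 y123 z123 (.cons c124 124 0 y124 z124 (.cons c134 134 0 y134 z134 (.cons c125 125 0 y125 z125 (.cons c126 126 0 y126 z126 (.cons c127 127 0 y127 z127 .nil))))))))))) (.cons 28 722801793 (.cons c135 135 0 y135 z135 (.cons c136 136 0 y136 z136 (.cons c137 137 0 y137 z137 (.cons c122 122 0 y122 z122 (.cons c143 143 0 y143 z143 (.cons c138 138 0 y138 z138 (.cons c139 139 0 y139 z139 (.cons c172 172 0 y172 z172 (.cons c145 145 0 y145 z145 (.cons c173 173 0 y173 z173 (.cons c146 146 0 y146 z146 .nil))))))))))) (.cons 29 689247382 (.cons c122 122 0 y122 z122 (.cons c123 123 0 y123 z123 (.cons c124 124 0 y124 z124 (.cons c143 143 0 y143 z143 (.cons c149 149 0 y149 z149 (.cons c150 150 0 y150 z150 (.cons c172 172 0 y172 z172 (.cons c174 174 0 y174 z174 (.cons c175 175 0 y175 z175 (.cons c145 145 0 y145 z145 (.cons c173 173 0 y173 z173 (.cons c153 153 41 y153 z153 (.cons c176 176 41 y176 z176 (.cons c154 154 41 y154 z154 (.cons c146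 146 0 y146 z146 (.cons c155 155 0 y155 z155 (.cons c156 156 0 y156 z156 (.cons c125 125 0 y125 z125 (.cons c126 126 0 y126 z126 (.cons c158 158 0 y158 z158 (.cons c160 160 0 y160 z160 (.cons c177 177 0 y177 z177 (.cons c178 178 0 y178 z178 (.cons c127 127 0 y127 z127 (.cons c162 162 0 y162 z162 (.cons c165 165 16 y165 z165 (.cons c179 179 16 y179 z179 (.cons c166 166 0 y166 z166 (.cons c180 180 0 y180 z180 (.cons c167 167 0 y167 z167 (.cons c168 168 0 y168 z168 (.cons c170 170 16 y170 z170 (.cons c181 181 16 y181 z181 (.cons c171 171 0 y171 z171 .nil)))))))))))))))))))))))))))))))))) (.cons 30 722801696 (.cons c140 140 0 y140 z140 (.cons c128 128 0 y128 z128 (.cons c136 136 0 y136 z136 (.cons c137 137 0 y137 z137 (.cons c141 141 0 y141 z141 (.cons c129 129 0 y129 z129 (.cons c130 130 0 y130 z130 (.cons c131 131 0 y131 z131 (.cons c132 132 0 y132 z132 (.cons c122 122 0 y122 z122 (.cons c139 139 0 y139 z139 .nil))))))))))) (.cons 31 689247285 (.cons c130 130 0 y130 z130 (.cons c131 131 0 y131 z131 (.cons c132 132 0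 y132 z132 (.cons c122 122 0 y122 z122 (.cons c133 133 0 y133 z133 (.cons c123 123 0 y123 z123 (.cons c124 124 0 y124 z124 (.cons c134 134 0 y134 z134 (.cons c125 125 0 y125 z125 (.cons c126 126 0 y126 z126 (.cons c127 127 0 y127 z127 .nil))))))))))) (.cons 48 621192353 (.cons c242 242 0 y242 z242 (.cons c243 243 0 y243 z243 (.cons c244 244 0 y244 z244 (.cons c122 122 0 y122 z122 (.cons c245 245 0 y245 z245 (.cons c246 246 0 y246 z246 .nil)))))) (.cons 49 587637942 (.cons c242 242 0 y242 z242 (.cons c243 243 0 y243 z243 (.cons c244 244 0 y244 z244 (.cons c122 122 0 y122 z122 (.cons c123 123 0 y123 z123 (.cons c245 245 0 y245 z245 (.cons c246 246 0 y246 z246 (.cons c247 247 0 y247 z247 (.cons c125 125 0 y125 z125 (.cons c248 248 0 y248 z248 (.cons c126 126 0 y126 z126 .nil))))))))))) (.cons 50 621192256 (.cons c242 242 0 y242 z242 (.cons c243 243 0 y243 z243 (.cons c244 244 0 y244 z244 (.cons c122 122 0 y122 z122 (.cons c245 245 0 y245 z245 (.cons c246 246 0 y246 z246 .nil)))))) (.cons 51 587637845 (.cons c242 242 0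 y242 z242 (.cons c243 243 0 y243 z243 (.cons c244 244 0 y244 z244 (.cons c122 122 0 y122 z122 (.cons c123 123 0 y123 z123 (.cons c245 245 0 y245 z245 (.cons c246 246 0 y246 z246 (.cons c247 247 0 y247 z247 (.cons c125 125 0 y125 z125 (.cons c248 248 0 y248 z248 (.cons c126 126 0 y126 z126 .nil))))))))))) (.cons 52 621189249 (.cons c249 249 0 y249 z249 (.cons c250 250 0 y250 z250 (.cons c251 251 0 y251 z251 (.cons c252 252 0 y252 z252 (.cons c253 253 0 y253 z253 (.cons c254 254 0 y254 z254 (.cons c255 255 0 y255 z255 (.cons c256 256 0 y256 z256 (.cons c257 257 0 y257 z257 (.cons c242 242 0 y242 z242 (.cons c258 258 0 y258 z258 (.cons c259 259 0 y259 z259 (.cons c243 243 0 y243 z243 (.cons c244 244 0 y244 z244 (.cons c260 260 0 y260 z260 (.cons c261 261 0 y261 z261 (.cons c262 262 0 y262 z262 (.cons c263 263 0 y263 z263 (.cons c135 135 0 y135 z135 (.cons c264 264 63 y264 z264 (.cons c265 265 63 y265 z265 (.cons c136 136 0 y136 z136 (.cons c266 266 63 y266 z266 (.cons c267 267 63 y267 z267 (.cons c137 137 0 y137 z137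 (.cons c268 268 0 y268 z268 (.cons c269 269 0 y269 z269 (.cons c122 122 0 y122 z122 (.cons c245 245 0 y245 z245 (.cons c246 246 0 y246 z246 (.cons c138 138 0 y138 z138 (.cons c139 139 0 y139 z139 (.cons c270 270 0 y270 z270 (.cons c271 271 0 y271 z271 (.cons c272 272 0 y272 z272 (.cons c273 273 0 y273 z273 .nil)))))))))))))))))))))))))))))))))))) (.cons 53 587634838 (.cons c242 242 0 y242 z242 (.cons c243 243 0 y243 z243 (.cons c244 244 0 y244 z244 (.cons c122 122 0 y122 z122 (.cons c123 123 0 y123 z123 (.cons c245 245 0 y245 z245 (.cons c246 246 0 y246 z246 (.cons c247 247 0 y247 z247 (.cons c125 125 0 y125 z125 (.cons c248 248 0 y248 z248 (.cons c126 126 0 y126 z126 .nil))))))))))) (.cons 54 621189152 (.cons c274 274 0 y274 z274 (.cons c250 250 0 y250 z250 (.cons c251 251 0 y251 z251 (.cons c275 275 0 y275 z275 (.cons c254 254 0 y254 z254 (.cons c276 276 0 y276 z276 (.cons c255 255 0 y255 z255 (.cons c256 256 0 y256 z256 (.cons c257 257 0 y257 z257 (.cons c277 277 0 y277 z277 (.cons c278 278 0 y278 z278 (.cons c242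 242 0 y242 z242 (.cons c259 259 0 y259 z259 (.cons c243 243 0 y243 z243 (.cons c244 244 0 y244 z244 (.cons c261 261 0 y261 z261 (.cons c263 263 0 y263 z263 (.cons c140 140 0 y140 z140 (.cons c136 136 0 y136 z136 (.cons c279 279 63 y279 z279 (.cons c266 266 63 y266 z266 (.cons c267 267 63 y267 z267 (.cons c137 137 0 y137 z137 (.cons c268 268 0 y268 z268 (.cons c269 269 0 y269 z269 (.cons c141 141 0 y141 z141 (.cons c280 280 0 y280 z280 (.cons c281 281 0 y281 z281 (.cons c122 122 0 y122 z122 (.cons c245 245 0 y245 z245 (.cons c246 246 0 y246 z246 (.cons c139 139 0 y139 z139 (.cons c272 272 0 y272 z272 (.cons c273 273 0 y273 z273 .nil)))))))))))))))))))))))))))))))))) (.cons 55 587634741 (.cons c242 242 0 y242 z242 (.cons c243 243 0 y243 z243 (.cons c244 244 0 y244 z244 (.cons c122 122 0 y122 z122 (.cons c123 123 0 y123 z123 (.cons c245 245 0 y245 z245 (.cons c246 246 0 y246 z246 (.cons c247 247 0 y247 z247 (.cons c125 125 0 y125 z125 (.cons c248 248 0 y248 z248 (.cons c126 126 0 y126 z126 .nil))))))))))) (.cons 56 621093025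 (.cons c122 122 0 y122 z122 (.cons c142 142 0 y142 z142 (.cons c143 143 0 y143 z143 (.cons c144 144 0 y144 z144 (.cons c145 145 0 y145 z145 (.cons c146 146 0 y146 z146 .nil)))))) (.cons 57 587538614 (.cons c122 122 0 y122 z122 (.cons c123 123 0 y123 z123 (.cons c142 142 0 y142 z142 (.cons c143 143 0 y143 z143 (.cons c147 147 0 y147 z147 (.cons c149 149 0 y149 z149 (.cons c247 247 0 y247 z247 (.cons c282 282 0 y282 z282 (.cons c283 283 0 y283 z283 (.cons c144 144 0 y144 z144 (.cons c151 151 41 y151 z151 (.cons c145 145 0 y145 z145 (.cons c153 153 41 y153 z153 (.cons c146 146 0 y146 z146 (.cons c155 155 0 y155 z155 (.cons c284 284 41 y284 z284 (.cons c285 285 0 y285 z285 (.cons c125 125 0 y125 z125 (.cons c248 248 0 y248 z248 (.cons c126 126 0 y126 z126 (.cons c157 157 0 y157 z157 (.cons c158 158 0 y158 z158 (.cons c286 286 0 y286 z286 (.cons c159 159 0 y159 z159 (.cons c160 160 0 y160 z160 (.cons c163 163 16 y163 z163 (.cons c287 287 16 y287 z287 (.cons c164 164 0 y164 z164 (.cons c165 165 16 y165 z165 (.cons c288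 288 16 y288 z288 (.cons c166 166 0 y166 z166 (.cons c167 167 0 y167 z167 (.cons c289 289 0 y289 z289 (.cons c168 168 0 y168 z168 .nil)))))))))))))))))))))))))))))))))) (.cons 58 621092928 (.cons c122 122 0 y122 z122 .nil) (.cons 59 587538517 (.cons c122 122 0 y122 z122 (.cons c123 123 0 y123 z123 (.cons c247 247 0 y247 z247 (.cons c125 125 0 y125 z125 (.cons c248 248 0 y248 z248 (.cons c126 126 0 y126 z126 .nil)))))) (.cons 60 621089921 (.cons c135 135 0 y135 z135 (.cons c136 136 0 y136 z136 (.cons c137 137 0 y137 z137 (.cons c122 122 0 y122 z122 (.cons c143 143 0 y143 z143 (.cons c138 138 0 y138 z138 (.cons c139 139 0 y139 z139 (.cons c172 172 0 y172 z172 (.cons c145 145 0 y145 z145 (.cons c173 173 0 y173 z173 (.cons c146 146 0 y146 z146 .nil))))))))))) (.cons 61 587535510 (.cons c122 122 0 y122 z122 (.cons c123 123 0 y123 z123 (.cons c143 143 0 y143 z143 (.cons c149 149 0 y149 z149 (.cons c247 247 0 y247 z247 (.cons c283 283 0 y283 z283 (.cons c172 172 0 y172 z172 (.cons c174 174 0 y174 z174 (.cons c290 290 0 y290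 z290 (.cons c145 145 0 y145 z145 (.cons c173 173 0 y173 z173 (.cons c153 153 63 y153 z153 (.cons c176 176 63 y176 z176 (.cons c146 146 0 y146 z146 (.cons c155 155 0 y155 z155 (.cons c284 284 63 y284 z284 (.cons c291 291 63 y291 z291 (.cons c285 285 0 y285 z285 (.cons c125 125 0 y125 z125 (.cons c248 248 0 y248 z248 (.cons c126 126 0 y126 z126 (.cons c158 158 0 y158 z158 (.cons c286 286 0 y286 z286 (.cons c160 160 0 y160 z160 (.cons c177 177 0 y177 z177 (.cons c292 292 0 y292 z292 (.cons c178 178 0 y178 z178 (.cons c165 165 16 y165 z165 (.cons c179 179 16 y179 z179 (.cons c288 288 16 y288 z288 (.cons c293 293 16 y293 z293 (.cons c166 166 0 y166 z166 (.cons c180 180 0 y180 z180 (.cons c167 167 0 y167 z167 (.cons c289 289 0 y289 z289 (.cons c168 168 0 y168 z168 .nil)))))))))))))))))))))))))))))))))))) (.cons 62 621089824 (.cons c140 140 0 y140 z140 (.cons c136 136 0 y136 z136 (.cons c137 137 0 y137 z137 (.cons c141 141 0 y141 z141 (.cons c122 122 0 y122 z122 (.cons c139 139 0 y139 z139 .nil)))))) (.cons 63 587535413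 (.cons c122 122 0 y122 z122 (.cons c123 123 0 y123 z123 (.cons c247 247 0 y247 z247 (.cons c125 125 0 y125 z125 (.cons c248 248 0 y248 z248 (.cons c126 126 0 y126 z126 .nil)))))) .nil))))))))))))))))))))))))))))))))))))))))))))))))

theorem a25 : chkA TCf 726082721 E25 = true := by decide +kernel

theorem b25 : chkB row E25 = true := by decide +kernel

theorem d25 : chkC E25 = true := by decide +kernel

/-- windows 0:0 0:2 2:1 3:1 4:1 5:1 -/
def E34 : Es :=
  (.cons 0 722904128 (.cons c128 128 17 y128 z128 (.cons c129 129 10 y129 z129 (.cons c130 130 4 y130 z130 (.cons c131 131 10 y131 z131 (.cons c132 132 17 y132 z132 (.cons c122 122 32 y122 z122 .nil)))))) (.cons 1 689349717 (.cons c130 130 4 y130 z130 (.cons c131 131 10 y131 z131 (.cons c132 132 17 y132 z132 (.cons c122 122 32 y122 z122 (.cons c133 133 17 y133 z133 (.cons c123 123 17 y123 z123 (.cons c124 124 17 y124 z124 (.cons c134 134 10 y134 z134 (.cons c125 125 10 y125 z125 (.cons c126 126 0 y126 z126 (.cons c127 127 10 y127 z127 .nil))))))))))) (.cons 3 689350388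 .nil (.cons 4 722901024 (.cons c140 140 17 y140 z140 (.cons c128 128 17 y128 z128 (.cons c136 136 17 y136 z136 (.cons c137 137 0 y137 z137 (.cons c141 141 10 y141 z141 (.cons c129 129 10 y129 z129 (.cons c130 130 4 y130 z130 (.cons c131 131 10 y131 z131 (.cons c132 132 17 y132 z132 (.cons c122 122 32 y122 z122 (.cons c139 139 10 y139 z139 .nil))))))))))) (.cons 5 689346613 (.cons c130 130 4 y130 z130 (.cons c131 131 10 y131 z131 (.cons c132 132 17 y132 z132 (.cons c122 122 32 y122 z122 (.cons c133 133 17 y133 z133 (.cons c123 123 17 y123 z123 (.cons c124 124 17 y124 z124 (.cons c134 134 10 y134 z134 (.cons c125 125 10 y125 z125 (.cons c126 126 0 y126 z126 (.cons c127 127 10 y127 z127 .nil))))))))))) (.cons 7 689347284 .nil (.cons 8 722804800 (.cons c128 128 17 y128 z128 (.cons c129 129 10 y129 z129 (.cons c130 130 4 y130 z130 (.cons c131 131 10 y131 z131 (.cons c132 132 17 y132 z132 (.cons c122 122 32 y122 z122 .nil)))))) (.cons 9 689250389 (.cons c130 130 4 y130 z130 (.cons c131 131 10 y131 z131 (.cons c132 132 17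 y132 z132 (.cons c122 122 32 y122 z122 (.cons c133 133 17 y133 z133 (.cons c123 123 17 y123 z123 (.cons c124 124 17 y124 z124 (.cons c134 134 10 y134 z134 (.cons c125 125 10 y125 z125 (.cons c126 126 0 y126 z126 (.cons c127 127 10 y127 z127 .nil))))))))))) (.cons 11 689251060 .nil (.cons 12 722801696 (.cons c140 140 17 y140 z140 (.cons c128 128 17 y128 z128 (.cons c136 136 17 y136 z136 (.cons c137 137 0 y137 z137 (.cons c141 141 10 y141 z141 (.cons c129 129 10 y129 z129 (.cons c130 130 4 y130 z130 (.cons c131 131 10 y131 z131 (.cons c132 132 17 y132 z132 (.cons c122 122 32 y122 z122 (.cons c139 139 10 y139 z139 .nil))))))))))) (.cons 13 689247285 (.cons c130 130 4 y130 z130 (.cons c131 131 10 y131 z131 (.cons c132 132 17 y132 z132 (.cons c122 122 32 y122 z122 (.cons c133 133 17 y133 z133 (.cons c123 123 17 y123 z123 (.cons c124 124 17 y124 z124 (.cons c134 134 10 y134 z134 (.cons c125 125 10 y125 z125 (.cons c126 126 0 y126 z126 (.cons c127 127 10 y127 z127 .nil))))))))))) (.cons 15 689247956 .nil (.cons 16 719725632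 (.cons c191 191 0 y191 z191 (.cons c192 192 0 y192 z192 (.cons c193 193 0 y193 z193 (.cons c194 194 0 y194 z194 (.cons c195 195 0 y195 z195 (.cons c182 182 0 y182 z182 (.cons c128 128 17 y128 z128 (.cons c196 196 0 y196 z196 (.cons c197 197 0 y197 z197 (.cons c198 198 0 y198 z198 (.cons c199 199 0 y199 z199 (.cons c129 129 10 y129 z129 (.cons c200 200 0 y200 z200 (.cons c130 130 4 y130 z130 (.cons c131 131 10 y131 z131 (.cons c201 201 0 y201 z201 (.cons c202 202 0 y202 z202 (.cons c203 203 0 y203 z203 (.cons c204 204 0 y204 z204 (.cons c205 205 0 y205 z205 (.cons c206 206 0 y206 z206 (.cons c207 207 0 y207 z207 (.cons c208 208 0 y208 z208 (.cons c209 209 0 y209 z209 (.cons c210 210 0 y210 z210 (.cons c211 211 0 y211 z211 (.cons c132 132 17 y132 z132 (.cons c122 122 32 y122 z122 (.cons c212 212 0 y212 z212 (.cons c183 183 0 y183 z183 (.cons c213 213 0 y213 z213 (.cons c184 184 0 y184 z184 (.cons c214 214 0 y214 z214 (.cons c185 185 0 y185 z185 (.cons c215 215 0 y215 z215 (.cons c186 186 0 y186 z186 .nil))))))))))))))))))))))))))))))))))))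 (.cons 17 686171221 (.cons c193 193 0 y193 z193 (.cons c194 194 0 y194 z194 (.cons c195 195 0 y195 z195 (.cons c182 182 0 y182 z182 (.cons c216 216 0 y216 z216 (.cons c130 130 4 y130 z130 (.cons c131 131 10 y131 z131 (.cons c201 201 0 y201 z201 (.cons c202 202 0 y202 z202 (.cons c206 206 0 y206 z206 (.cons c207 207 0 y207 z207 (.cons c208 208 0 y208 z208 (.cons c209 209 0 y209 z209 (.cons c210 210 0 y210 z210 (.cons c211 211 0 y211 z211 (.cons c132 132 17 y132 z132 (.cons c122 122 32 y122 z122 (.cons c212 212 0 y212 z212 (.cons c183 183 0 y183 z183 (.cons c133 133 17 y133 z133 (.cons c217 217 0 y217 z217 (.cons c213 213 0 y213 z213 (.cons c184 184 0 y184 z184 (.cons c214 214 0 y214 z214 (.cons c185 185 0 y185 z185 (.cons c215 215 0 y215 z215 (.cons c186 186 0 y186 z186 (.cons c218 218 0 y218 z218 (.cons c219 219 0 y219 z219 (.cons c134 134 10 y134 z134 (.cons c220 220 0 y220 z220 (.cons c221 221 0 y221 z221 (.cons c222 222 0 y222 z222 (.cons c223 223 0 y223 z223 .nil)))))))))))))))))))))))))))))))))) (.cons 19 686171892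 .nil (.cons 20 719722528 (.cons c140 140 17 y140 z140 (.cons c128 128 17 y128 z128 (.cons c136 136 17 y136 z136 (.cons c137 137 0 y137 z137 (.cons c141 141 10 y141 z141 (.cons c129 129 10 y129 z129 (.cons c130 130 4 y130 z130 (.cons c131 131 10 y131 z131 (.cons c132 132 17 y132 z132 (.cons c122 122 32 y122 z122 (.cons c139 139 10 y139 z139 .nil))))))))))) (.cons 21 686168117 (.cons c130 130 4 y130 z130 (.cons c131 131 10 y131 z131 (.cons c132 132 17 y132 z132 (.cons c122 122 32 y122 z122 (.cons c133 133 17 y133 z133 (.cons c134 134 10 y134 z134 .nil)))))) (.cons 23 686168788 .nil (.cons 24 719626304 (.cons c128 128 17 y128 z128 (.cons c196 196 0 y196 z196 (.cons c226 226 0 y226 z226 (.cons c198 198 0 y198 z198 (.cons c199 199 0 y199 z199 (.cons c129 129 10 y129 z129 (.cons c200 200 0 y200 z200 (.cons c130 130 4 y130 z130 (.cons c131 131 10 y131 z131 (.cons c201 201 0 y201 z201 (.cons c202 202 0 y202 z202 (.cons c227 227 0 y227 z227 (.cons c228 228 0 y228 z228 (.cons c204 204 0 y204 z204 (.cons c205 205 0 y205 z205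 (.cons c208 208 0 y208 z208 (.cons c209 209 0 y209 z209 (.cons c210 210 0 y210 z210 (.cons c211 211 0 y211 z211 (.cons c132 132 17 y132 z132 (.cons c122 122 32 y122 z122 (.cons c212 212 0 y212 z212 (.cons c183 183 0 y183 z183 (.cons c229 229 0 y229 z229 (.cons c224 224 0 y224 z224 (.cons c214 214 0 y214 z214 (.cons c185 185 0 y185 z185 (.cons c215 215 0 y215 z215 (.cons c186 186 0 y186 z186 (.cons c230 230 0 y230 z230 (.cons c231 231 0 y231 z231 (.cons c232 232 0 y232 z232 (.cons c233 233 0 y233 z233 (.cons c225 225 0 y225 z225 .nil)))))))))))))))))))))))))))))))))) (.cons 25 686071893 (.cons c130 130 4 y130 z130 (.cons c131 131 10 y131 z131 (.cons c201 201 0 y201 z201 (.cons c202 202 0 y202 z202 (.cons c227 227 0 y227 z227 (.cons c228 228 0 y228 z228 (.cons c208 208 0 y208 z208 (.cons c209 209 0 y209 z209 (.cons c210 210 0 y210 z210 (.cons c211 211 0 y211 z211 (.cons c132 132 17 y132 z132 (.cons c122 122 32 y122 z122 (.cons c212 212 0 y212 z212 (.cons c183 183 0 y183 z183 (.cons c133 133 17 y133 z133 (.cons c217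 217 0 y217 z217 (.cons c229 229 0 y229 z229 (.cons c224 224 0 y224 z224 (.cons c234 234 0 y234 z234 (.cons c214 214 0 y214 z214 (.cons c185 185 0 y185 z185 (.cons c215 215 0 y215 z215 (.cons c186 186 0 y186 z186 (.cons c218 218 0 y218 z218 (.cons c219 219 0 y219 z219 (.cons c231 231 0 y231 z231 (.cons c232 232 0 y232 z232 (.cons c233 233 0 y233 z233 (.cons c225 225 0 y225 z225 (.cons c235 235 0 y235 z235 (.cons c134 134 10 y134 z134 (.cons c220 220 0 y220 z220 (.cons c236 236 0 y236 z236 (.cons c222 222 0 y222 z222 (.cons c223 223 0 y223 z223 (.cons c237 237 0 y237 z237 .nil)))))))))))))))))))))))))))))))))))) (.cons 27 686072564 .nil (.cons 28 719623200 (.cons c140 140 17 y140 z140 (.cons c128 128 17 y128 z128 (.cons c136 136 17 y136 z136 (.cons c137 137 0 y137 z137 (.cons c141 141 10 y141 z141 (.cons c129 129 10 y129 z129 (.cons c130 130 4 y130 z130 (.cons c131 131 10 y131 z131 (.cons c132 132 17 y132 z132 (.cons c122 122 32 y122 z122 (.cons c139 139 10 y139 z139 .nil))))))))))) (.cons 29 686068789 (.cons c130 130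 4 y130 z130 (.cons c131 131 10 y131 z131 (.cons c132 132 17 y132 z132 (.cons c122 122 32 y122 z122 (.cons c133 133 17 y133 z133 (.cons c134 134 10 y134 z134 .nil)))))) (.cons 31 686069460 .nil (.cons 32 621192256 (.cons c242 242 0 y242 z242 (.cons c243 243 0 y243 z243 (.cons c244 244 0 y244 z244 (.cons c122 122 32 y122 z122 (.cons c245 245 0 y245 z245 (.cons c246 246 0 y246 z246 .nil)))))) (.cons 33 587637845 (.cons c242 242 10 y242 z242 (.cons c243 243 10 y243 z243 (.cons c244 244 0 y244 z244 (.cons c122 122 32 y122 z122 (.cons c123 123 17 y123 z123 (.cons c245 245 17 y245 z245 (.cons c246 246 17 y246 z246 (.cons c247 247 17 y247 z247 (.cons c125 125 10 y125 z125 (.cons c248 248 10 y248 z248 (.cons c126 126 0 y126 z126 .nil))))))))))) (.cons 35 587638516 .nil (.cons 36 621189152 (.cons c274 274 0 y274 z274 (.cons c250 250 0 y250 z250 (.cons c251 251 0 y251 z251 (.cons c275 275 0 y275 z275 (.cons c254 254 0 y254 z254 (.cons c276 276 0 y276 z276 (.cons c255 255 0 y255 z255 (.cons c256 256 0 y256 z256 (.cons c257 257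 0 y257 z257 (.cons c277 277 0 y277 z277 (.cons c278 278 0 y278 z278 (.cons c242 242 0 y242 z242 (.cons c259 259 0 y259 z259 (.cons c243 243 0 y243 z243 (.cons c244 244 0 y244 z244 (.cons c261 261 0 y261 z261 (.cons c263 263 0 y263 z263 (.cons c140 140 17 y140 z140 (.cons c136 136 17 y136 z136 (.cons c279 279 0 y279 z279 (.cons c266 266 0 y266 z266 (.cons c267 267 0 y267 z267 (.cons c137 137 0 y137 z137 (.cons c268 268 0 y268 z268 (.cons c269 269 0 y269 z269 (.cons c141 141 10 y141 z141 (.cons c280 280 0 y280 z280 (.cons c281 281 0 y281 z281 (.cons c122 122 32 y122 z122 (.cons c245 245 0 y245 z245 (.cons c246 246 0 y246 z246 (.cons c139 139 10 y139 z139 (.cons c272 272 0 y272 z272 (.cons c273 273 0 y273 z273 .nil)))))))))))))))))))))))))))))))))) (.cons 37 587634741 (.cons c242 242 10 y242 z242 (.cons c243 243 10 y243 z243 (.cons c244 244 0 y244 z244 (.cons c122 122 32 y122 z122 (.cons c123 123 17 y123 z123 (.cons c245 245 17 y245 z245 (.cons c246 246 17 y246 z246 (.cons c247 247 17 y247 z247 (.cons c125 125 10 y125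 z125 (.cons c248 248 10 y248 z248 (.cons c126 126 0 y126 z126 .nil))))))))))) (.cons 39 587635412 .nil (.cons 40 621092928 (.cons c122 122 32 y122 z122 .nil) (.cons 41 587538517 (.cons c122 122 32 y122 z122 (.cons c123 123 17 y123 z123 (.cons c247 247 17 y247 z247 (.cons c125 125 10 y125 z125 (.cons c248 248 10 y248 z248 (.cons c126 126 0 y126 z126 .nil)))))) (.cons 43 587539188 .nil (.cons 44 621089824 (.cons c140 140 17 y140 z140 (.cons c136 136 17 y136 z136 (.cons c137 137 0 y137 z137 (.cons c141 141 10 y141 z141 (.cons c122 122 32 y122 z122 (.cons c139 139 10 y139 z139 .nil)))))) (.cons 45 587535413 (.cons c122 122 32 y122 z122 (.cons c123 123 17 y123 z123 (.cons c247 247 17 y247 z247 (.cons c125 125 10 y125 z125 (.cons c248 248 10 y248 z248 (.cons c126 126 0 y126 z126 .nil)))))) (.cons 47 587536084 .nil (.cons 48 618013760 (.cons c243 243 0 y243 z243 (.cons c182 182 0 y182 z182 (.cons c294 294 0 y294 z294 (.cons c244 244 0 y244 z244 (.cons c122 122 32 y122 z122 (.cons c183 183 0 y183 z183 (.cons c246 246 0 y246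 z246 (.cons c184 184 0 y184 z184 (.cons c185 185 0 y185 z185 (.cons c186 186 0 y186 z186 (.cons c295 295 0 y295 z295 .nil))))))))))) (.cons 49 584459349 (.cons c243 243 10 y243 z243 (.cons c182 182 10 y182 z182 (.cons c294 294 10 y294 z294 (.cons c244 244 0 y244 z244 (.cons c122 122 32 y122 z122 (.cons c183 183 10 y183 z183 (.cons c246 246 17 y246 z246 (.cons c184 184 17 y184 z184 (.cons c185 185 17 y185 z185 (.cons c186 186 0 y186 z186 (.cons c295 295 17 y295 z295 .nil))))))))))) (.cons 51 584460020 .nil (.cons 52 618010656 (.cons c275 275 0 y275 z275 (.cons c254 254 0 y254 z254 (.cons c304 304 0 y304 z304 (.cons c297 297 0 y297 z297 (.cons c276 276 0 y276 z276 (.cons c255 255 0 y255 z255 (.cons c256 256 0 y256 z256 (.cons c298 298 0 y298 z298 (.cons c257 257 0 y257 z257 (.cons c277 277 0 y277 z277 (.cons c305 305 0 y305 z305 (.cons c278 278 0 y278 z278 (.cons c243 243 0 y243 z243 (.cons c294 294 0 y294 z294 (.cons c244 244 0 y244 z244 (.cons c261 261 0 y261 z261 (.cons c299 299 0 y299 z299 (.cons c263 263 0 y263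 z263 (.cons c140 140 17 y140 z140 (.cons c136 136 17 y136 z136 (.cons c279 279 0 y279 z279 (.cons c267 267 0 y267 z267 (.cons c137 137 0 y137 z137 (.cons c269 269 0 y269 z269 (.cons c306 306 0 y306 z306 (.cons c300 300 0 y300 z300 (.cons c301 301 0 y301 z301 (.cons c141 141 10 y141 z141 (.cons c281 281 0 y281 z281 (.cons c307 307 0 y307 z307 (.cons c122 122 32 y122 z122 (.cons c246 246 0 y246 z246 (.cons c139 139 10 y139 z139 (.cons c273 273 0 y273 z273 (.cons c295 295 0 y295 z295 (.cons c303 303 0 y303 z303 .nil)))))))))))))))))))))))))))))))))))) (.cons 53 584456245 (.cons c243 243 10 y243 z243 (.cons c294 294 10 y294 z294 (.cons c244 244 0 y244 z244 (.cons c122 122 32 y122 z122 (.cons c246 246 17 y246 z246 (.cons c295 295 17 y295 z295 .nil)))))) (.cons 55 584456916 .nil (.cons 56 617914432 (.cons c122 122 32 y122 z122 (.cons c183 183 0 y183 z183 (.cons c224 224 0 y224 z224 (.cons c185 185 0 y185 z185 (.cons c186 186 0 y186 z186 (.cons c225 225 0 y225 z225 .nil)))))) (.cons 57 584360021 (.cons c122 122 32 y122 z122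 (.cons c183 183 10 y183 z183 (.cons c224 224 10 y224 z224 (.cons c185 185 17 y185 z185 (.cons c186 186 0 y186 z186 (.cons c225 225 17 y225 z225 .nil)))))) (.cons 59 584360692 .nil (.cons 60 617911328 (.cons c140 140 17 y140 z140 (.cons c136 136 17 y136 z136 (.cons c137 137 0 y137 z137 (.cons c141 141 10 y141 z141 (.cons c122 122 32 y122 z122 (.cons c139 139 10 y139 z139 .nil)))))) (.cons 61 584356917 (.cons c122 122 32 y122 z122 (.cons c308 308 0 y308 z308 (.cons c309 309 42 y309 z309 (.cons c310 310 0 y310 z310 .nil)))) (.cons 63 584357588 (.cons c311 311 0 y311 z311 (.cons c312 312 0 y312 z312 (.cons c313 313 0 y313 z313 (.cons c314 314 0 y314 z314 (.cons c315 315 0 y315 z315 (.cons c310 310 0 y310 z310 .nil)))))) .nil))))))))))))))))))))))))))))))))))))))))))))))))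

theorem a34 : chkA TCf 722904128 E34 = true := by decide +kernel

theorem b34 : chkB row E34 = true := by decide +kernel

theorem d34 : chkC E34 = true := by decide +kernel

/-- windows 0:0 0:2 2:0 2:1 3:2 5:1 -/
def E46 : Es :=
  (.cons 0 719626304 (.cons c128 128 524289 y128 z128 (.cons c196 196 10485766 y196 z196 (.cons c226 226 10485766 y226 z226 (.cons c198 198 4328521736 y198 z198 (.cons c199 199 134217744 y199 z199 (.cons c129 129 288 y129 z129 (.cons c200 200 5184 y200 z200 (.cons c130 130 128 y130 z130 (.cons c131 131 288 y131 z131 (.cons c201 201 2560 y201 z201 (.cons c202 202 5184 y202 z202 (.cons c227 227 2560 y227 z227 (.cons c228 228 5184 y228 z228 (.cons c204 204 2684428288 y204 z204 (.cons c205 205 278528 y205 z205 (.cons c208 208 1073774592 y208 z208 (.cons c209 209 2684428288 y209 z209 (.cons c210 210 131072 y210 z210 (.cons c211 211 278528 y211 z211 (.cons c132 132 524289 y132 z132 (.cons c122 122 1048576 y122 z122 (.cons c212 212 10485766 y212 z212 (.cons c183 183 20971520 y183 z183 (.cons c229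 229 10485766 y229 z229 (.cons c224 224 20971520 y224 z224 (.cons c214 214 4328521736 y214 z214 (.cons c185 185 8657043456 y185 z185 (.cons c215 215 134217744 y215 z215 (.cons c186 186 268435456 y186 z186 (.cons c230 230 2684428288 y230 z230 (.cons c231 231 1073774592 y231 z231 (.cons c232 232 2684428288 y232 z232 (.cons c233 233 4328521736 y233 z233 (.cons c225 225 8657043456 y225 z225 .nil)))))))))))))))))))))))))))))))))) (.cons 1 686071893 (.cons c130 130 128 y130 z130 (.cons c131 131 288 y131 z131 (.cons c201 201 2560 y201 z201 (.cons c202 202 5184 y202 z202 (.cons c227 227 2560 y227 z227 (.cons c228 228 5184 y228 z228 (.cons c208 208 1073774592 y208 z208 (.cons c209 209 2684428288 y209 z209 (.cons c210 210 131072 y210 z210 (.cons c211 211 278528 y211 z211 (.cons c132 132 524289 y132 z132 (.cons c122 122 1048576 y122 z122 (.cons c212 212 10485766 y212 z212 (.cons c183 183 20971520 y183 z183 (.cons c133 133 524289 y133 z133 (.cons c217 217 10485766 y217 z217 (.cons c229 229 10485766 y229 z229 (.cons c224 224 20971520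 y224 z224 (.cons c234 234 10485766 y234 z234 (.cons c214 214 4328521736 y214 z214 (.cons c185 185 8657043456 y185 z185 (.cons c215 215 134217744 y215 z215 (.cons c186 186 268435456 y186 z186 (.cons c218 218 4328521736 y218 z218 (.cons c219 219 134217744 y219 z219 (.cons c231 231 1073774592 y231 z231 (.cons c232 232 2684428288 y232 z232 (.cons c233 233 4328521736 y233 z233 (.cons c225 225 8657043456 y225 z225 (.cons c235 235 4328521736 y235 z235 (.cons c134 134 288 y134 z134 (.cons c220 220 5184 y220 z220 (.cons c236 236 5184 y236 z236 (.cons c222 222 2684428288 y222 z222 (.cons c223 223 278528 y223 z223 (.cons c237 237 2684428288 y237 z237 .nil)))))))))))))))))))))))))))))))))))) (.cons 3 686072564 .nil (.cons 4 719623200 (.cons c140 140 524289 y140 z140 (.cons c128 128 524289 y128 z128 (.cons c136 136 524289 y136 z136 (.cons c137 137 0 y137 z137 (.cons c141 141 288 y141 z141 (.cons c129 129 288 y129 z129 (.cons c130 130 128 y130 z130 (.cons c131 131 288 y131 z131 (.cons c132 132 524289 y132 z132 (.cons c122 122 1048576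 y122 z122 (.cons c139 139 288 y139 z139 .nil))))))))))) (.cons 5 686068789 (.cons c130 130 128 y130 z130 (.cons c131 131 288 y131 z131 (.cons c132 132 524289 y132 z132 (.cons c122 122 1048576 y122 z122 (.cons c133 133 524289 y133 z133 (.cons c134 134 288 y134 z134 .nil)))))) (.cons 7 686069460 .nil (.cons 12 719523872 .nil (.cons 13 685969461 .nil (.cons 15 685970132 .nil (.cons 16 716447808 .nil (.cons 17 682893397 .nil (.cons 19 682894068 (.cons c238 238 4328521736 y238 z238 (.cons c239 239 10485766 y239 z239 (.cons c240 240 2684428288 y240 z240 (.cons c241 241 5184 y241 z241 .nil)))) (.cons 20 716444704 .nil (.cons 21 682890293 .nil (.cons 23 682890964 .nil (.cons 28 716345376 .nil (.cons 29 682790965 .nil (.cons 31 682791636 .nil (.cons 32 617914432 (.cons c122 122 1048576 y122 z122 (.cons c183 183 20971520 y183 z183 (.cons c224 224 20971520 y224 z224 (.cons c185 185 8657043456 y185 z185 (.cons c186 186 268435456 y186 z186 (.cons c225 225 8657043456 y225 z225 .nil)))))) (.cons 33 584360021 (.cons c122 122 1048576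 y122 z122 (.cons c183 183 20971520 y183 z183 (.cons c224 224 20971520 y224 z224 (.cons c185 185 8657043456 y185 z185 (.cons c186 186 268435456 y186 z186 (.cons c225 225 8657043456 y225 z225 .nil)))))) (.cons 35 584360692 .nil (.cons 36 617911328 (.cons c140 140 524289 y140 z140 (.cons c136 136 524289 y136 z136 (.cons c137 137 0 y137 z137 (.cons c141 141 288 y141 z141 (.cons c122 122 1048576 y122 z122 (.cons c139 139 288 y139 z139 .nil)))))) (.cons 37 584356917 (.cons c122 122 1048576 y122 z122 (.cons c308 308 4328521736 y308 z308 (.cons c309 309 22025568 y309 z309 (.cons c310 310 4328521736 y310 z310 .nil)))) (.cons 39 584357588 (.cons c311 311 4328521736 y311 z311 (.cons c312 312 2684428288 y312 z312 (.cons c313 313 4328521736 y313 z313 (.cons c314 314 0 y314 z314 (.cons c315 315 0 y315 z315 (.cons c310 310 4328521736 y310 z310 .nil)))))) (.cons 44 617812000 .nil (.cons 45 584257589 (.cons c323 323 4328521736 y323 z323 (.cons c324 324 4328521736 y324 z324 (.cons c325 325 4328521736 y325 z325 (.cons c310 310 4328521736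 y310 z310 (.cons c326 326 4328521736 y326 z326 (.cons c327 327 4328521736 y327 z327 .nil)))))) (.cons 47 584258260 (.cons c311 311 4328521736 y311 z311 (.cons c312 312 2684428288 y312 z312 (.cons c313 313 4328521736 y313 z313 (.cons c314 314 0 y314 z314 (.cons c315 315 0 y315 z315 (.cons c310 310 4328521736 y310 z310 .nil)))))) (.cons 48 614735936 .nil (.cons 49 581181525 .nil (.cons 51 581182196 .nil (.cons 52 614732832 .nil (.cons 53 581178421 (.cons c310 310 4328521736 y310 z310 (.cons c330 330 4328521736 y330 z330 (.cons c331 331 4328521736 y331 z331 (.cons c332 332 0 y332 z332 (.cons c333 333 0 y333 z333 (.cons c334 334 10485766 y334 z334 .nil)))))) (.cons 55 581179092 (.cons c311 311 4328521736 y311 z311 (.cons c335 335 4328652808 y335 z335 (.cons c336 336 4328652808 y336 z336 (.cons c312 312 2684428288 y312 z312 (.cons c313 313 4328521736 y313 z313 (.cons c337 337 2684428288 y337 z337 (.cons c338 338 2684428288 y338 z338 (.cons c339 339 4328652808 y339 z339 (.cons c340 340 4328652808 y340 z340 (.cons c341 341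 10488454 y341 z341 (.cons c342 342 10488454 y342 z342 (.cons c343 343 10485766 y343 z343 (.cons c344 344 0 y344 z344 (.cons c345 345 10488454 y345 z345 (.cons c346 346 0 y346 z346 (.cons c347 347 10488454 y347 z347 (.cons c348 348 5184 y348 z348 (.cons c349 349 10485766 y349 z349 (.cons c314 314 0 y314 z314 (.cons c315 315 0 y315 z315 (.cons c310 310 4328521736 y310 z310 (.cons c350 350 2953142272 y350 z350 (.cons c351 351 2953142272 y351 z351 (.cons c352 352 2953142272 y352 z352 (.cons c353 353 2953142272 y353 z353 (.cons c330 330 4328521736 y330 z330 (.cons c331 331 4328521736 y331 z331 (.cons c354 354 22549857 y354 z354 (.cons c355 355 22549857 y355 z355 (.cons c332 332 0 y332 z332 (.cons c356 356 22549857 y356 z356 (.cons c357 357 22549857 y357 z357 (.cons c333 333 0 y333 z333 (.cons c358 358 0 y358 z358 (.cons c359 359 0 y359 z359 (.cons c334 334 10485766 y334 z334 .nil)))))))))))))))))))))))))))))))))))) (.cons 60 614633504 .nil (.cons 61 581079093 (.cons c323 323 4328521736 y323 z323 (.cons c324 324 4328521736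 y324 z324 (.cons c325 325 4328521736 y325 z325 (.cons c310 310 4328521736 y310 z310 (.cons c331 331 4328521736 y331 z331 (.cons c326 326 4328521736 y326 z326 (.cons c327 327 4328521736 y327 z327 (.cons c360 360 4328521736 y360 z360 (.cons c333 333 4328521736 y333 z333 (.cons c361 361 4328521736 y361 z361 (.cons c334 334 10485766 y334 z334 .nil))))))))))) (.cons 63 581079764 (.cons c311 311 4328521736 y311 z311 (.cons c336 336 4328652808 y336 z336 (.cons c312 312 2684428288 y312 z312 (.cons c313 313 4328521736 y313 z313 (.cons c338 338 2684428288 y338 z338 (.cons c340 340 4328652808 y340 z340 (.cons c362 362 2684428288 y362 z362 (.cons c363 363 4328652808 y363 z363 (.cons c342 342 10488454 y342 z342 (.cons c364 364 10488454 y364 z364 (.cons c343 343 10485766 y343 z343 (.cons c346 346 0 y346 z346 (.cons c365 365 0 y365 z365 (.cons c347 347 10488454 y347 z347 (.cons c366 366 10488454 y366 z366 (.cons c348 348 5184 y348 z348 (.cons c349 349 10485766 y349 z349 (.cons c314 314 0 y314 z314 (.cons c315 315 0 y315 z315 (.cons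 c310 310 4328521736 y310 z310 (.cons c352 352 2953142272 y352 z352 (.cons c353 353 2953142272 y353 z353 (.cons c331 331 4328521736 y331 z331 (.cons c367 367 2953142272 y367 z367 (.cons c368 368 2953142272 y368 z368 (.cons c360 360 4328521736 y360 z360 (.cons c356 356 22549857 y356 z356 (.cons c357 357 22549857 y357 z357 (.cons c369 369 22549857 y369 z369 (.cons c333 333 4328521736 y333 z333 (.cons c361 361 4328521736 y361 z361 (.cons c358 358 0 y358 z358 (.cons c359 359 0 y359 z359 (.cons c334 334 10485766 y334 z334 .nil)))))))))))))))))))))))))))))))))) .nil))))))))))))))))))))))))))))))))))))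

theorem a46 : chkA TCf 719626304 E46 = true := by decide +kernel

theorem b46 : chkB row E46 = true := by decide +kernel

theorem d46 : chkC E46 = true := by decide +kernel

/-- windows 0:0 0:2 2:0 2:2 4:0 4:2 -/
def E54 : Es :=
  (.cons 0 621092928 (.cons c122 122 1 y122 z122 .nil) (.cons 1 587538517 (.cons c122 122 1 y122 z122 (.cons c123 123 0 y123 z123 (.cons c247 247 0 y247 z247 (.cons c125 125 0 y125 z125 (.cons c248 248 0 y248 z248 (.cons c126 126 0 y126 z126 .nil)))))) (.cons 3 587539188 .nil (.cons 4 621089824 (.cons c140 140 0 y140 z140 (.cons c136 136 0 y136 z136 (.cons c137 137 0 y137 z137 (.cons c141 141 0 y141 z141 (.cons c122 122 1 y122 z122 (.cons c139 139 0 y139 z139 .nil)))))) (.cons 5 587535413 (.cons c122 122 1 y122 z122 (.cons c123 123 0 y123 z123 (.cons c247 247 0 y247 z247 (.cons c125 125 0 y125 z125 (.cons c248 248 0 y248 z248 (.cons c126 126 0 y126 z126 .nil)))))) (.cons 7 587536084 .nil (.cons 12 620990496 .nil (.cons 13 587436085 .nil (.cons 15 587436756 .nil (.cons 16 617914432 (.cons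 c122 122 1 y122 z122 (.cons c183 183 0 y183 z183 (.cons c224 224 0 y224 z224 (.cons c185 185 0 y185 z185 (.cons c186 186 0 y186 z186 (.cons c225 225 0 y225 z225 .nil)))))) (.cons 17 584360021 (.cons c122 122 1 y122 z122 (.cons c183 183 0 y183 z183 (.cons c224 224 0 y224 z224 (.cons c185 185 0 y185 z185 (.cons c186 186 0 y186 z186 (.cons c225 225 0 y225 z225 .nil)))))) (.cons 19 584360692 .nil (.cons 20 617911328 (.cons c140 140 0 y140 z140 (.cons c136 136 0 y136 z136 (.cons c137 137 0 y137 z137 (.cons c141 141 0 y141 z141 (.cons c122 122 1 y122 z122 (.cons c139 139 0 y139 z139 .nil)))))) (.cons 21 584356917 (.cons c122 122 1 y122 z122 (.cons c308 308 0 y308 z308 (.cons c309 309 1 y309 z309 (.cons c310 310 0 y310 z310 .nil)))) (.cons 23 584357588 (.cons c311 311 0 y311 z311 (.cons c312 312 0 y312 z312 (.cons c313 313 0 y313 z313 (.cons c314 314 0 y314 z314 (.cons c315 315 0 y315 z315 (.cons c310 310 0 y310 z310 .nil)))))) (.cons 28 617812000 .nil (.cons 29 584257589 (.cons c323 323 0 y323 z323 (.cons c324 324 0 y324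 z324 (.cons c325 325 0 y325 z325 (.cons c310 310 0 y310 z310 (.cons c326 326 0 y326 z326 (.cons c327 327 0 y327 z327 .nil)))))) (.cons 31 584258260 (.cons c311 311 0 y311 z311 (.cons c312 312 0 y312 z312 (.cons c313 313 0 y313 z313 (.cons c314 314 0 y314 z314 (.cons c315 315 0 y315 z315 (.cons c310 310 0 y310 z310 .nil)))))) (.cons 48 516202560 .nil (.cons 49 482648149 .nil (.cons 51 482648820 .nil (.cons 52 516199456 .nil (.cons 53 482645045 (.cons c370 370 0 y370 z370 (.cons c310 310 0 y310 z310 (.cons c371 371 0 y371 z371 (.cons c372 372 0 y372 z372 (.cons c373 373 0 y373 z373 (.cons c374 374 0 y374 z374 .nil)))))) (.cons 55 482645716 (.cons c370 370 0 y370 z370 (.cons c310 310 0 y310 z310 (.cons c371 371 0 y371 z371 (.cons c372 372 0 y372 z372 (.cons c373 373 0 y373 z373 (.cons c374 374 0 y374 z374 .nil)))))) (.cons 60 516100128 .nil (.cons 61 482545717 (.cons c323 323 0 y323 z323 (.cons c324 324 0 y324 z324 (.cons c325 325 0 y325 z325 (.cons c310 310 0 y310 z310 (.cons c326 326 0 y326 z326 (.cons c327 327 0 y327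 z327 .nil)))))) (.cons 63 482546388 (.cons c310 310 0 y310 z310 .nil) .nil)))))))))))))))))))))))))))

theorem a54 : chkA TCf 621092928 E54 = true := by decide +kernel

theorem b54 : chkB row E54 = true := by decide +kernel

theorem d54 : chkC E54 = true := by decide +kernel

/-- windows 0:0 0:1 1:2 3:0 3:1 4:2 -/
def E60 : Es :=
  (.cons 0 618010656 (.cons c275 275 15 y275 z275 (.cons c254 254 15 y254 z254 (.cons c304 304 15 y304 z304 (.cons c297 297 15 y297 z297 (.cons c276 276 48 y276 z276 (.cons c255 255 48 y255 z255 (.cons c256 256 192 y256 z256 (.cons c298 298 192 y298 z298 (.cons c257 257 256 y257 z257 (.cons c277 277 99840 y277 z277 (.cons c305 305 99840 y305 z305 (.cons c278 278 133120 y278 z278 (.cons c243 243 12288 y243 z243 (.cons c294 294 12288 y294 z294 (.cons c244 244 16384 y244 z244 (.cons c261 261 99840 y261 z261 (.cons c299 299 99840 y299 z299 (.cons c263 263 133120 y263 z263 (.cons c140 140 786432 y140 z140 (.cons c136 136 786432 y136 z136 (.cons c279 279 53477376 y279 z279 (.cons c267 267 53477376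 y267 z267 (.cons c137 137 4194304 y137 z137 (.cons c269 269 75497472 y269 z269 (.cons c306 306 53477376 y306 z306 (.cons c300 300 53477376 y300 z300 (.cons c301 301 75497472 y301 z301 (.cons c141 141 4429185024 y141 z141 (.cons c281 281 43754979328 y281 z281 (.cons c307 307 43754979328 y307 z307 (.cons c122 122 1073741824 y122 z122 (.cons c246 246 19327352832 y246 z246 (.cons c139 139 4429185024 y139 z139 (.cons c273 273 43754979328 y273 z273 (.cons c295 295 19327352832 y295 z295 (.cons c303 303 43754979328 y303 z303 .nil)))))))))))))))))))))))))))))))))))) (.cons 1 584456245 (.cons c243 243 12288 y243 z243 (.cons c294 294 12288 y294 z294 (.cons c244 244 16384 y244 z244 (.cons c122 122 1073741824 y122 z122 (.cons c246 246 19327352832 y246 z246 (.cons c295 295 19327352832 y295 z295 .nil)))))) (.cons 3 584456916 .nil (.cons 4 618007552 .nil (.cons 5 584453141 .nil (.cons 7 584453812 .nil (.cons 8 617911328 (.cons c140 140 786432 y140 z140 (.cons c136 136 786432 y136 z136 (.cons c137 137 4194304 y137 z137 (.cons c141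 141 4429185024 y141 z141 (.cons c122 122 1073741824 y122 z122 (.cons c139 139 4429185024 y139 z139 .nil)))))) (.cons 9 584356917 (.cons c122 122 1073741824 y122 z122 (.cons c308 308 53477376 y308 z308 (.cons c309 309 5503038976 y309 z309 (.cons c310 310 53477376 y310 z310 .nil)))) (.cons 11 584357588 (.cons c311 311 53477376 y311 z311 (.cons c312 312 53477376 y312 z312 (.cons c313 313 53477376 y313 z313 (.cons c314 314 53477376 y314 z314 (.cons c315 315 53477376 y315 z315 (.cons c310 310 53477376 y310 z310 .nil)))))) (.cons 12 617908224 .nil (.cons 13 584353813 (.cons c316 316 0 y316 z316 (.cons c310 310 53477376 y310 z310 (.cons c317 317 0 y317 z317 (.cons c318 318 53477376 y318 z318 (.cons c319 319 53477376 y319 z319 (.cons c320 320 43754979328 y320 z320 .nil)))))) (.cons 15 584354484 (.cons c321 321 53477376 y321 z321 (.cons c311 311 53477376 y311 z311 (.cons c312 312 53477376 y312 z312 (.cons c313 313 53477376 y313 z313 (.cons c322 322 53477376 y322 z322 (.cons c314 314 53477376 y314 z314 (.cons c315 315 53477376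 y315 z315 (.cons c310 310 53477376 y310 z310 (.cons c317 317 53477376 y317 z317 (.cons c319 319 53477376 y319 z319 (.cons c320 320 43754979328 y320 z320 .nil))))))))))) (.cons 24 614732832 .nil (.cons 25 581178421 (.cons c310 310 53477376 y310 z310 (.cons c330 330 53477376 y330 z330 (.cons c331 331 53477376 y331 z331 (.cons c332 332 53477376 y332 z332 (.cons c333 333 53477376 y333 z333 (.cons c334 334 53477376 y334 z334 .nil)))))) (.cons 27 581179092 (.cons c311 311 53477376 y311 z311 (.cons c335 335 53477376 y335 z335 (.cons c336 336 53477376 y336 z336 (.cons c312 312 53477376 y312 z312 (.cons c313 313 53477376 y313 z313 (.cons c337 337 43830476800 y337 z337 (.cons c338 338 43830476800 y338 z338 (.cons c339 339 53477376 y339 z339 (.cons c340 340 53477376 y340 z340 (.cons c341 341 255 y341 z341 (.cons c342 342 255 y342 z342 (.cons c343 343 63 y343 z343 (.cons c344 344 255 y344 z344 (.cons c345 345 255 y345 z345 (.cons c346 346 255 y346 z346 (.cons c347 347 255 y347 z347 (.cons c348 348 256 y348 z348 (.cons c349 349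 63 y349 z349 (.cons c314 314 53477376 y314 z314 (.cons c315 315 53477376 y315 z315 (.cons c310 310 53477376 y310 z310 (.cons c350 350 43830609920 y350 z350 (.cons c351 351 43830609920 y351 z351 (.cons c352 352 43830609920 y352 z352 (.cons c353 353 43830609920 y353 z353 (.cons c330 330 53477376 y330 z330 (.cons c331 331 53477376 y331 z331 (.cons c354 354 24835388928 y354 z354 (.cons c355 355 24835388928 y355 z355 (.cons c332 332 53477376 y332 z332 (.cons c356 356 24835388928 y356 z356 (.cons c357 357 24835388928 y357 z357 (.cons c333 333 53477376 y333 z333 (.cons c358 358 43830609920 y358 z358 (.cons c359 359 43830609920 y359 z359 (.cons c334 334 53477376 y334 z334 .nil)))))))))))))))))))))))))))))))))))) (.cons 28 614729728 .nil (.cons 29 581175317 (.cons c316 316 0 y316 z316 (.cons c310 310 53477376 y310 z310 (.cons c317 317 0 y317 z317 (.cons c318 318 53477376 y318 z318 (.cons c319 319 53477376 y319 z319 (.cons c320 320 43754979328 y320 z320 .nil)))))) (.cons 31 581175988 (.cons c321 321 53477376 y321 z321 (.cons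 c311 311 53477376 y311 z311 (.cons c312 312 53477376 y312 z312 (.cons c313 313 53477376 y313 z313 (.cons c322 322 53477376 y322 z322 (.cons c314 314 53477376 y314 z314 (.cons c315 315 53477376 y315 z315 (.cons c310 310 53477376 y310 z310 (.cons c317 317 53477376 y317 z317 (.cons c319 319 53477376 y319 z319 (.cons c320 320 43754979328 y320 z320 .nil))))))))))) (.cons 32 516298784 .nil (.cons 33 482744373 .nil (.cons 35 482745044 .nil (.cons 36 516295680 (.cons c375 375 15 y375 z375 (.cons c376 376 99840 y376 z376 (.cons c377 377 53477376 y377 z377 (.cons c378 378 43754979328 y378 z378 .nil)))) (.cons 37 482741269 .nil (.cons 39 482741940 .nil (.cons 40 516199456 .nil (.cons 41 482645045 (.cons c370 370 53477376 y370 z370 (.cons c310 310 53477376 y310 z310 (.cons c371 371 53477376 y371 z371 (.cons c372 372 0 y372 z372 (.cons c373 373 0 y373 z373 (.cons c374 374 15 y374 z374 .nil)))))) (.cons 43 482645716 (.cons c370 370 53477376 y370 z370 (.cons c310 310 53477376 y310 z310 (.cons c371 371 53477376 y371 z371 (.cons c372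 372 0 y372 z372 (.cons c373 373 0 y373 z373 (.cons c374 374 15 y374 z374 .nil)))))) (.cons 44 516196352 .nil (.cons 45 482641941 (.cons c379 379 43755128832 y379 z379 (.cons c370 370 53477376 y370 z370 (.cons c380 380 43755128832 y380 z380 (.cons c381 381 53477632 y381 z381 (.cons c382 382 53477632 y382 z382 (.cons c383 383 43754979328 y383 z383 (.cons c316 316 0 y316 z316 (.cons c384 384 43755128832 y384 z384 (.cons c385 385 5503038976 y385 z385 (.cons c386 386 5503038976 y386 z386 (.cons c387 387 0 y387 z387 (.cons c310 310 53477376 y310 z310 (.cons c317 317 0 y317 z317 (.cons c371 371 53477376 y371 z371 (.cons c388 388 43755128832 y388 z388 (.cons c372 372 0 y372 z372 (.cons c389 389 5503038976 y389 z389 (.cons c373 373 0 y373 z373 (.cons c390 390 5503038976 y390 z390 (.cons c374 374 15 y374 z374 (.cons c391 391 0 y391 z391 (.cons c318 318 53477376 y318 z318 (.cons c392 392 53477632 y392 z392 (.cons c319 319 53477376 y319 z319 (.cons c320 320 43754979328 y320 z320 (.cons c393 393 53477632 y393 z393 (.cons c394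 394 43754979328 y394 z394 (.cons c395 395 4194511 y395 z395 (.cons c396 396 4194511 y396 z396 (.cons c397 397 15 y397 z397 (.cons c398 398 4194511 y398 z398 (.cons c399 399 0 y399 z399 (.cons c400 400 4194511 y400 z400 (.cons c401 401 0 y401 z401 (.cons c402 402 15 y402 z402 (.cons c403 403 99840 y403 z403 .nil)))))))))))))))))))))))))))))))))))) (.cons 47 482642612 (.cons c321 321 53477376 y321 z321 (.cons c404 404 53477632 y404 z404 (.cons c405 405 4194511 y405 z405 (.cons c406 406 4194511 y406 z406 (.cons c407 407 15 y407 z407 (.cons c408 408 43755128832 y408 z408 (.cons c370 370 53477376 y370 z370 (.cons c380 380 43755128832 y380 z380 (.cons c382 382 53477632 y382 z382 (.cons c383 383 43754979328 y383 z383 (.cons c322 322 53477376 y322 z322 (.cons c409 409 43755128832 y409 z409 (.cons c310 310 53477376 y310 z310 (.cons c317 317 53477376 y317 z317 (.cons c371 371 53477376 y371 z371 (.cons c388 388 43755128832 y388 z388 (.cons c410 410 5503038976 y410 z410 (.cons c411 411 0 y411 z411 (.cons c372 372 0 y372 z372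 (.cons c389 389 5503038976 y389 z389 (.cons c373 373 0 y373 z373 (.cons c390 390 5503038976 y390 z390 (.cons c374 374 15 y374 z374 (.cons c391 391 0 y391 z391 (.cons c319 319 53477376 y319 z319 (.cons c320 320 43754979328 y320 z320 (.cons c393 393 53477632 y393 z393 (.cons c394 394 43754979328 y394 z394 (.cons c398 398 4194511 y398 z398 (.cons c399 399 0 y399 z399 (.cons c400 400 4194511 y400 z400 (.cons c401 401 0 y401 z401 (.cons c402 402 15 y402 z402 (.cons c403 403 99840 y403 z403 .nil)))))))))))))))))))))))))))))))))) (.cons 56 513020960 .nil (.cons 57 479466549 (.cons c310 310 53477376 y310 z310 (.cons c371 371 53477376 y371 z371 (.cons c330 330 53477376 y330 z330 (.cons c331 331 53477376 y331 z331 (.cons c412 412 53477376 y412 z412 (.cons c373 373 53477376 y373 z373 (.cons c374 374 15 y374 z374 (.cons c332 332 53477376 y332 z332 (.cons c333 333 53477376 y333 z333 (.cons c334 334 53477376 y334 z334 (.cons c413 413 53477376 y413 z413 .nil))))))))))) (.cons 59 479467220 (.cons c310 310 53477376 y310 z310 (.cons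 c371 371 53477376 y371 z371 (.cons c330 330 53477376 y330 z330 (.cons c331 331 53477376 y331 z331 (.cons c412 412 53477376 y412 z412 (.cons c373 373 53477376 y373 z373 (.cons c374 374 15 y374 z374 (.cons c332 332 53477376 y332 z332 (.cons c333 333 53477376 y333 z333 (.cons c334 334 53477376 y334 z334 (.cons c413 413 53477376 y413 z413 .nil))))))))))) (.cons 60 513017856 .nil (.cons 61 479463445 (.cons c316 316 0 y316 z316 (.cons c384 384 43755128832 y384 z384 (.cons c414 414 43755128832 y414 z414 (.cons c386 386 5503038976 y386 z386 (.cons c387 387 0 y387 z387 (.cons c310 310 53477376 y310 z310 (.cons c317 317 0 y317 z317 (.cons c371 371 53477376 y371 z371 (.cons c388 388 43755128832 y388 z388 (.cons c412 412 53477376 y412 z412 (.cons c415 415 43755128832 y415 z415 (.cons c373 373 53477376 y373 z373 (.cons c390 390 5503038976 y390 z390 (.cons c374 374 15 y374 z374 (.cons c391 391 0 y391 z391 (.cons c318 318 53477376 y318 z318 (.cons c392 392 53477632 y392 z392 (.cons c319 319 53477376 y319 z319 (.cons c320 320 43754979328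 y320 z320 (.cons c393 393 53477632 y393 z393 (.cons c394 394 43754979328 y394 z394 (.cons c416 416 53477632 y416 z416 (.cons c417 417 43754979328 y417 z417 (.cons c396 396 4194511 y396 z396 (.cons c397 397 15 y397 z397 (.cons c400 400 4194511 y400 z400 (.cons c401 401 0 y401 z401 (.cons c402 402 15 y402 z402 (.cons c403 403 99840 y403 z403 (.cons c413 413 53477376 y413 z413 (.cons c418 418 5503038976 y418 z418 (.cons c419 419 4194511 y419 z419 (.cons c420 420 4194511 y420 z420 (.cons c421 421 0 y421 z421 .nil)))))))))))))))))))))))))))))))))) (.cons 63 479464116 (.cons c321 321 53477376 y321 z321 (.cons c404 404 53477632 y404 z404 (.cons c422 422 53477632 y422 z422 (.cons c406 406 4194559 y406 z406 (.cons c407 407 15 y407 z407 (.cons c423 423 4194559 y423 z423 (.cons c322 322 53477376 y322 z322 (.cons c409 409 43830626304 y409 z409 (.cons c310 310 53477376 y310 z310 (.cons c317 317 53477376 y317 z317 (.cons c371 371 53477376 y371 z371 (.cons c388 388 43830626304 y388 z388 (.cons c424 424 43830626304 y424 z424 (.cons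 c412 412 53477376 y412 z412 (.cons c415 415 43830626304 y415 z415 (.cons c410 410 24835388928 y410 z410 (.cons c411 411 0 y411 z411 (.cons c373 373 53477376 y373 z373 (.cons c390 390 24835388928 y390 z390 (.cons c374 374 15 y374 z374 (.cons c391 391 0 y391 z391 (.cons c319 319 53477376 y319 z319 (.cons c320 320 43754979328 y320 z320 (.cons c393 393 53477632 y393 z393 (.cons c394 394 43754979328 y394 z394 (.cons c416 416 53477632 y416 z416 (.cons c417 417 43754979328 y417 z417 (.cons c400 400 4194559 y400 z400 (.cons c401 401 0 y401 z401 (.cons c402 402 15 y402 z402 (.cons c403 403 99840 y403 z403 (.cons c425 425 24835388928 y425 z425 (.cons c413 413 53477376 y413 z413 (.cons c418 418 24835388928 y418 z418 (.cons c420 420 4194559 y420 z420 (.cons c421 421 0 y421 z421 .nil)))))))))))))))))))))))))))))))))))) .nil))))))))))))))))))))))))))))))))))))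

theorem a60 : chkA TCf 618010656 E60 = true := by decide +kernel

theorem b60 : chkB row E60 = true := by decide +kernel

theorem d60 : chkC E60 = true := by decide +kernel

end Vale.Agent.P032.H532.T
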