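import Vale.Agent.P032.H532.TTab

/-!
# Tile windows: closures 0 .. 24
-/

set_option maxRecDepth 20000

namespace Vale.Agent.P032.H532.T

/-- windows 0:3 3:0 3:0 3:3 0:0 0:0 -/
def E0 : Es :=
  (.cons 0 504195 (.cons c0 0 1 y0 z0 (.cons c1 1 2 y1 z1 (.cons c2 2 4 y2 z2 (.cons c3 3 8 y3 z3 .nil)))) (.cons 2 504098 .nil (.cons 6 500994 .nil (.cons 16 22491523 .nil (.cons 18 22491426 (.cons c4 4 0 y4 z4 (.cons c5 5 8 y5 z5 (.cons c6 6 4 y6 z6 (.cons c7 7 0 y7 z7 (.cons c8 8 4 y8 z8 (.cons c9 9 8 y9 z9 (.cons c10 10 0 y10 z10 (.cons c11 11 0 y11 z11 (.cons c12 12 0 y12 z12 (.cons c13 13 8 y13 z13 (.cons c14 14 0 y14 z14 (.cons c15 15 2 y15 z15 (.cons c16 16 0 y16 z16 (.cons c17 17 2 y17 z17 (.cons c18 18 0 y18 z18 (.cons c19 19 0 y19 z19 (.cons c20 20 0 y20 z20 (.cons c21 21 0 y21 z21 (.cons c22 22 4 y22 z22 (.cons c23 23 0 y23 z23 (.cons c24 24 0 y24 z24 (.cons c25 25 4 y25 z25 (.cons c26 26 1 y26 z26 (.cons c27 27 0 y27 z27 (.cons c28 28 1 y28 z28 (.cons c29 29 0 y29 z29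 (.cons c30 30 0 y30 z30 (.cons c31 31 0 y31 z31 (.cons c32 32 1 y32 z32 (.cons c33 33 1 y33 z33 (.cons c34 34 0 y34 z34 (.cons c35 35 0 y35 z35 (.cons c36 36 8 y36 z36 (.cons c37 37 2 y37 z37 (.cons c38 38 2 y38 z38 (.cons c39 39 0 y39 z39 .nil)))))))))))))))))))))))))))))))))))) (.cons 22 22488322 (.cons c10 10 0 y10 z10 (.cons c11 11 0 y11 z11 (.cons c12 12 0 y12 z12 (.cons c13 13 8 y13 z13 (.cons c40 40 0 y40 z40 (.cons c41 41 8 y41 z41 (.cons c16 16 0 y16 z16 (.cons c17 17 2 y17 z17 (.cons c18 18 0 y18 z18 (.cons c19 19 0 y19 z19 (.cons c20 20 0 y20 z20 (.cons c21 21 0 y21 z21 (.cons c22 22 4 y22 z22 (.cons c23 23 0 y23 z23 (.cons c42 42 4 y42 z42 (.cons c43 43 0 y43 z43 (.cons c24 24 0 y24 z24 (.cons c25 25 4 y25 z25 (.cons c28 28 1 y28 z28 (.cons c29 29 0 y29 z29 (.cons c30 30 0 y30 z30 (.cons c31 31 0 y31 z31 (.cons c33 33 1 y33 z33 (.cons c34 34 0 y34 z34 (.cons c44 44 0 y44 z44 (.cons c45 45 2 y45 z45 (.cons c46 46 1 y46 z46 (.cons c47 47 0 y47 z47 (.cons c48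 48 1 y48 z48 (.cons c35 35 0 y35 z35 (.cons c36 36 8 y36 z36 (.cons c49 49 8 y49 z49 (.cons c38 38 2 y38 z38 (.cons c39 39 0 y39 z39 .nil)))))))))))))))))))))))))))))))))) (.cons 30 22388994 .nil (.cons 48 726086019 .nil (.cons 50 726085922 (.cons c4 4 0 y4 z4 (.cons c5 5 8 y5 z5 (.cons c50 50 8 y50 z50 (.cons c6 6 4 y6 z6 (.cons c7 7 0 y7 z7 (.cons c10 10 0 y10 z10 (.cons c11 11 0 y11 z11 (.cons c12 12 0 y12 z12 (.cons c13 13 8 y13 z13 (.cons c51 51 0 y51 z51 (.cons c52 52 8 y52 z52 (.cons c14 14 0 y14 z14 (.cons c15 15 2 y15 z15 (.cons c16 16 0 y16 z16 (.cons c17 17 2 y17 z17 (.cons c18 18 0 y18 z18 (.cons c19 19 0 y19 z19 (.cons c53 53 2 y53 z53 (.cons c54 54 0 y54 z54 (.cons c20 20 0 y20 z20 (.cons c21 21 0 y21 z21 (.cons c22 22 4 y22 z22 (.cons c23 23 0 y23 z23 (.cons c26 26 1 y26 z26 (.cons c27 27 0 y27 z27 (.cons c28 28 1 y28 z28 (.cons c29 29 0 y29 z29 (.cons c30 30 0 y30 z30 (.cons c31 31 0 y31 z31 (.cons c55 55 0 y55 z55 (.cons c56 56 4 y56 z56 (.cons c57 57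 1 y57 z57 (.cons c58 58 1 y58 z58 (.cons c59 59 0 y59 z59 .nil)))))))))))))))))))))))))))))))))) (.cons 51 692531511 .nil (.cons 54 726082818 (.cons c10 10 0 y10 z10 (.cons c11 11 0 y11 z11 (.cons c12 12 0 y12 z12 (.cons c13 13 8 y13 z13 (.cons c51 51 0 y51 z51 (.cons c52 52 8 y52 z52 (.cons c40 40 0 y40 z40 (.cons c41 41 8 y41 z41 (.cons c60 60 8 y60 z60 (.cons c16 16 0 y16 z16 (.cons c17 17 2 y17 z17 (.cons c18 18 0 y18 z18 (.cons c19 19 0 y19 z19 (.cons c53 53 2 y53 z53 (.cons c54 54 0 y54 z54 (.cons c20 20 0 y20 z20 (.cons c21 21 0 y21 z21 (.cons c22 22 4 y22 z22 (.cons c23 23 0 y23 z23 (.cons c42 42 4 y42 z42 (.cons c43 43 0 y43 z43 (.cons c28 28 1 y28 z28 (.cons c29 29 0 y29 z29 (.cons c30 30 0 y30 z30 (.cons c31 31 0 y31 z31 (.cons c44 44 0 y44 z44 (.cons c45 45 2 y45 z45 (.cons c61 61 2 y61 z61 (.cons c46 46 1 y46 z46 (.cons c47 47 0 y47 z47 (.cons c55 55 0 y55 z55 (.cons c56 56 4 y56 z56 (.cons c62 62 4 y62 z62 (.cons c58 58 1 y58 z58 (.cons c59 59 0 y59 z59 (.cons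 c63 63 1 y63 z63 .nil)))))))))))))))))))))))))))))))))))) (.cons 55 692528407 .nil (.cons 62 725983490 .nil (.cons 63 692429079 (.cons c64 64 1 y64 z64 (.cons c65 65 4 y65 z65 (.cons c66 66 2 y66 z66 (.cons c67 67 8 y67 z67 .nil)))) .nil))))))))))))))

theorem a0 : chkA TCf 504195 E0 = true := by decide +kernel

theorem b0 : chkB row E0 = true := by decide +kernel

theorem d0 : chkC E0 = true := by decide +kernel

/-- windows 0:2 2:1 3:1 4:1 5:1 0:0 -/
def E1 : Es :=
  (.cons 0 22590754 (.cons c10 10 1 y10 z10 (.cons c11 11 34 y11 z11 (.cons c20 20 20 y20 z20 (.cons c21 21 8 y21 z21 (.cons c24 24 20 y24 z24 (.cons c35 35 34 y35 z35 .nil)))))) (.cons 2 22590657 (.cons c68 68 20 y68 z68 (.cons c10 10 1 y10 z10 (.cons c11 11 34 y11 z11 (.cons c69 69 20 y69 z69 (.cons c20 20 20 y20 z20 (.cons c21 21 8 y21 z21 (.cons c24 24 20 y24 z24 (.cons c70 70 0 y70 z70 (.cons c71 71 34 y71 z71 (.cons c72 72 34 y72 z72 (.cons c35 35 34 y35 z35 .nil))))))))))) (.cons 4 22587650 (.cons c10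 10 1 y10 z10 (.cons c11 11 34 y11 z11 (.cons c20 20 20 y20 z20 (.cons c21 21 8 y21 z21 (.cons c24 24 20 y24 z24 (.cons c35 35 34 y35 z35 .nil)))))) (.cons 6 22587553 (.cons c68 68 20 y68 z68 (.cons c10 10 1 y10 z10 (.cons c11 11 34 y11 z11 (.cons c69 69 20 y69 z69 (.cons c20 20 20 y20 z20 (.cons c21 21 8 y21 z21 (.cons c24 24 20 y24 z24 (.cons c70 70 0 y70 z70 (.cons c71 71 34 y71 z71 (.cons c72 72 34 y72 z72 (.cons c35 35 34 y35 z35 .nil))))))))))) (.cons 8 22491426 (.cons c4 4 0 y4 z4 (.cons c5 5 0 y5 z5 (.cons c6 6 0 y6 z6 (.cons c7 7 0 y7 z7 (.cons c8 8 0 y8 z8 (.cons c9 9 0 y9 z9 (.cons c10 10 1 y10 z10 (.cons c11 11 34 y11 z11 (.cons c12 12 0 y12 z12 (.cons c13 13 0 y13 z13 (.cons c14 14 0 y14 z14 (.cons c15 15 0 y15 z15 (.cons c16 16 0 y16 z16 (.cons c17 17 0 y17 z17 (.cons c18 18 0 y18 z18 (.cons c19 19 0 y19 z19 (.cons c20 20 20 y20 z20 (.cons c21 21 8 y21 z21 (.cons c22 22 0 y22 z22 (.cons c23 23 0 y23 z23 (.cons c24 24 20 y24 z24 (.cons c25 25 0 y25 z25 (.cons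 c26 26 0 y26 z26 (.cons c27 27 0 y27 z27 (.cons c28 28 0 y28 z28 (.cons c29 29 0 y29 z29 (.cons c30 30 0 y30 z30 (.cons c31 31 0 y31 z31 (.cons c32 32 0 y32 z32 (.cons c33 33 0 y33 z33 (.cons c34 34 0 y34 z34 (.cons c35 35 34 y35 z35 (.cons c36 36 0 y36 z36 (.cons c37 37 0 y37 z37 (.cons c38 38 0 y38 z38 (.cons c39 39 0 y39 z39 .nil)))))))))))))))))))))))))))))))))))) (.cons 10 22491329 (.cons c68 68 20 y68 z68 (.cons c10 10 1 y10 z10 (.cons c11 11 34 y11 z11 (.cons c69 69 20 y69 z69 (.cons c20 20 20 y20 z20 (.cons c21 21 8 y21 z21 (.cons c24 24 20 y24 z24 (.cons c70 70 0 y70 z70 (.cons c71 71 34 y71 z71 (.cons c72 72 34 y72 z72 (.cons c35 35 34 y35 z35 .nil))))))))))) (.cons 12 22488322 (.cons c10 10 1 y10 z10 (.cons c11 11 34 y11 z11 (.cons c12 12 0 y12 z12 (.cons c13 13 0 y13 z13 (.cons c40 40 0 y40 z40 (.cons c41 41 0 y41 z41 (.cons c16 16 0 y16 z16 (.cons c17 17 0 y17 z17 (.cons c18 18 0 y18 z18 (.cons c19 19 0 y19 z19 (.cons c20 20 20 y20 z20 (.cons c21 21 8 y21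 z21 (.cons c22 22 0 y22 z22 (.cons c23 23 0 y23 z23 (.cons c42 42 0 y42 z42 (.cons c43 43 0 y43 z43 (.cons c24 24 20 y24 z24 (.cons c25 25 0 y25 z25 (.cons c28 28 0 y28 z28 (.cons c29 29 0 y29 z29 (.cons c30 30 0 y30 z30 (.cons c31 31 0 y31 z31 (.cons c33 33 0 y33 z33 (.cons c34 34 0 y34 z34 (.cons c44 44 0 y44 z44 (.cons c45 45 0 y45 z45 (.cons c46 46 0 y46 z46 (.cons c47 47 0 y47 z47 (.cons c48 48 0 y48 z48 (.cons c35 35 34 y35 z35 (.cons c36 36 0 y36 z36 (.cons c49 49 0 y49 z49 (.cons c38 38 0 y38 z38 (.cons c39 39 0 y39 z39 .nil)))))))))))))))))))))))))))))))))) (.cons 14 22488225 (.cons c68 68 20 y68 z68 (.cons c10 10 1 y10 z10 (.cons c11 11 34 y11 z11 (.cons c69 69 20 y69 z69 (.cons c20 20 20 y20 z20 (.cons c21 21 8 y21 z21 (.cons c24 24 20 y24 z24 (.cons c70 70 0 y70 z70 (.cons c71 71 34 y71 z71 (.cons c72 72 34 y72 z72 (.cons c35 35 34 y35 z35 .nil))))))))))) (.cons 16 19412258 (.cons c73 73 0 y73 z73 (.cons c74 74 0 y74 z74 (.cons c75 75 0 y75 z75 (.cons c10 10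 1 y10 z10 (.cons c76 76 0 y76 z76 (.cons c77 77 0 y77 z77 .nil)))))) (.cons 18 19412161 (.cons c78 78 0 y78 z78 (.cons c73 73 0 y73 z73 (.cons c79 79 0 y79 z79 (.cons c80 80 0 y80 z80 (.cons c74 74 0 y74 z74 (.cons c75 75 0 y75 z75 (.cons c81 81 0 y81 z81 (.cons c82 82 0 y82 z82 (.cons c83 83 0 y83 z83 (.cons c84 84 0 y84 z84 (.cons c85 85 0 y85 z85 (.cons c86 86 0 y86 z86 (.cons c87 87 0 y87 z87 (.cons c88 88 0 y88 z88 (.cons c89 89 0 y89 z89 (.cons c90 90 0 y90 z90 (.cons c91 91 0 y91 z91 (.cons c68 68 20 y68 z68 (.cons c92 92 0 y92 z92 (.cons c93 93 0 y93 z93 (.cons c10 10 1 y10 z10 (.cons c76 76 0 y76 z76 (.cons c77 77 0 y77 z77 (.cons c69 69 20 y69 z69 (.cons c94 94 0 y94 z94 (.cons c95 95 0 y95 z95 (.cons c70 70 0 y70 z70 (.cons c96 96 0 y96 z96 (.cons c97 97 0 y97 z97 (.cons c71 71 34 y71 z71 (.cons c72 72 34 y72 z72 (.cons c98 98 0 y98 z98 (.cons c99 99 0 y99 z99 (.cons c100 100 0 y100 z100 .nil)))))))))))))))))))))))))))))))))) (.cons 20 19409154 (.cons c10 10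 1 y10 z10 .nil) (.cons 22 19409057 (.cons c68 68 20 y68 z68 (.cons c10 10 1 y10 z10 (.cons c69 69 20 y69 z69 (.cons c70 70 0 y70 z70 (.cons c71 71 34 y71 z71 (.cons c72 72 34 y72 z72 .nil)))))) (.cons 24 19312930 (.cons c74 74 0 y74 z74 (.cons c4 4 0 y4 z4 (.cons c101 101 0 y101 z101 (.cons c75 75 0 y75 z75 (.cons c10 10 1 y10 z10 (.cons c12 12 0 y12 z12 (.cons c77 77 0 y77 z77 (.cons c14 14 0 y14 z14 (.cons c16 16 0 y16 z16 (.cons c18 18 0 y18 z18 (.cons c102 102 0 y102 z102 .nil))))))))))) (.cons 26 19312833 (.cons c79 79 0 y79 z79 (.cons c103 103 0 y103 z103 (.cons c80 80 0 y80 z80 (.cons c74 74 0 y74 z74 (.cons c101 101 0 y101 z101 (.cons c75 75 0 y75 z75 (.cons c81 81 0 y81 z81 (.cons c104 104 0 y104 z104 (.cons c82 82 0 y82 z82 (.cons c86 86 0 y86 z86 (.cons c105 105 0 y105 z105 (.cons c87 87 0 y87 z87 (.cons c88 88 0 y88 z88 (.cons c89 89 0 y89 z89 (.cons c106 106 0 y106 z106 (.cons c107 107 0 y107 z107 (.cons c90 90 0 y90 z90 (.cons c91 91 0 y91 z91 (.cons c68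 68 20 y68 z68 (.cons c93 93 0 y93 z93 (.cons c10 10 1 y10 z10 (.cons c77 77 0 y77 z77 (.cons c108 108 0 y108 z108 (.cons c102 102 0 y102 z102 (.cons c69 69 20 y69 z69 (.cons c95 95 0 y95 z95 (.cons c109 109 0 y109 z109 (.cons c70 70 0 y70 z70 (.cons c97 97 0 y97 z97 (.cons c71 71 34 y71 z71 (.cons c72 72 34 y72 z72 (.cons c99 99 0 y99 z99 (.cons c100 100 0 y100 z100 (.cons c110 110 0 y110 z110 (.cons c111 111 0 y111 z111 (.cons c112 112 0 y112 z112 .nil)))))))))))))))))))))))))))))))))))) (.cons 28 19309826 (.cons c10 10 1 y10 z10 (.cons c12 12 0 y12 z12 (.cons c40 40 0 y40 z40 (.cons c16 16 0 y16 z16 (.cons c18 18 0 y18 z18 (.cons c44 44 0 y44 z44 .nil)))))) (.cons 30 19309729 (.cons c68 68 20 y68 z68 (.cons c10 10 1 y10 z10 (.cons c69 69 20 y69 z69 (.cons c70 70 0 y70 z70 (.cons c71 71 34 y71 z71 (.cons c72 72 34 y72 z72 .nil)))))) (.cons 32 726185250 (.cons c10 10 1 y10 z10 (.cons c11 11 34 y11 z11 (.cons c113 113 34 y113 z113 (.cons c114 114 34 y114 z114 (.cons c51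 51 34 y51 z51 (.cons c20 20 20 y20 z20 (.cons c21 21 8 y21 z21 (.cons c115 115 20 y115 z115 (.cons c116 116 20 y116 z116 (.cons c117 117 0 y117 z117 (.cons c55 55 20 y55 z55 .nil))))))))))) (.cons 33 692630839 .nil (.cons 34 726185153 (.cons c10 10 1 y10 z10 (.cons c11 11 34 y11 z11 (.cons c113 113 34 y113 z113 (.cons c114 114 34 y114 z114 (.cons c51 51 34 y51 z51 (.cons c20 20 20 y20 z20 (.cons c21 21 8 y21 z21 (.cons c115 115 20 y115 z115 (.cons c116 116 20 y116 z116 (.cons c117 117 0 y117 z117 (.cons c55 55 20 y55 z55 .nil))))))))))) (.cons 35 692630742 .nil (.cons 36 726182146 (.cons c10 10 1 y10 z10 (.cons c11 11 34 y11 z11 (.cons c113 113 34 y113 z113 (.cons c114 114 34 y114 z114 (.cons c51 51 34 y51 z51 (.cons c20 20 20 y20 z20 (.cons c21 21 8 y21 z21 (.cons c115 115 20 y115 z115 (.cons c116 116 20 y116 z116 (.cons c117 117 0 y117 z117 (.cons c55 55 20 y55 z55 .nil))))))))))) (.cons 37 692627735 .nil (.cons 38 726182049 (.cons c10 10 1 y10 z10 (.cons c11 11 34 y11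 z11 (.cons c113 113 34 y113 z113 (.cons c114 114 34 y114 z114 (.cons c51 51 34 y51 z51 (.cons c20 20 20 y20 z20 (.cons c21 21 8 y21 z21 (.cons c115 115 20 y115 z115 (.cons c116 116 20 y116 z116 (.cons c117 117 0 y117 z117 (.cons c55 55 20 y55 z55 .nil))))))))))) (.cons 39 692627638 .nil (.cons 40 726085922 (.cons c4 4 0 y4 z4 (.cons c5 5 0 y5 z5 (.cons c50 50 0 y50 z50 (.cons c6 6 0 y6 z6 (.cons c7 7 0 y7 z7 (.cons c10 10 1 y10 z10 (.cons c11 11 34 y11 z11 (.cons c12 12 0 y12 z12 (.cons c13 13 0 y13 z13 (.cons c51 51 34 y51 z51 (.cons c52 52 0 y52 z52 (.cons c14 14 0 y14 z14 (.cons c15 15 0 y15 z15 (.cons c16 16 0 y16 z16 (.cons c17 17 0 y17 z17 (.cons c18 18 0 y18 z18 (.cons c19 19 0 y19 z19 (.cons c53 53 0 y53 z53 (.cons c54 54 0 y54 z54 (.cons c20 20 20 y20 z20 (.cons c21 21 8 y21 z21 (.cons c22 22 0 y22 z22 (.cons c23 23 0 y23 z23 (.cons c26 26 0 y26 z26 (.cons c27 27 0 y27 z27 (.cons c28 28 0 y28 z28 (.cons c29 29 0 y29 z29 (.cons c30 30 0 y30 z30 (.cons c31 31 0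 y31 z31 (.cons c55 55 20 y55 z55 (.cons c56 56 0 y56 z56 (.cons c57 57 0 y57 z57 (.cons c58 58 0 y58 z58 (.cons c59 59 0 y59 z59 .nil)))))))))))))))))))))))))))))))))) (.cons 41 692531511 .nil (.cons 42 726085825 (.cons c10 10 1 y10 z10 (.cons c11 11 34 y11 z11 (.cons c51 51 34 y51 z51 (.cons c20 20 20 y20 z20 (.cons c21 21 8 y21 z21 (.cons c55 55 20 y55 z55 .nil)))))) (.cons 43 692531414 .nil (.cons 44 726082818 (.cons c10 10 1 y10 z10 (.cons c11 11 34 y11 z11 (.cons c12 12 0 y12 z12 (.cons c13 13 0 y13 z13 (.cons c51 51 34 y51 z51 (.cons c52 52 0 y52 z52 (.cons c40 40 0 y40 z40 (.cons c41 41 0 y41 z41 (.cons c60 60 0 y60 z60 (.cons c16 16 0 y16 z16 (.cons c17 17 0 y17 z17 (.cons c18 18 0 y18 z18 (.cons c19 19 0 y19 z19 (.cons c53 53 0 y53 z53 (.cons c54 54 0 y54 z54 (.cons c20 20 20 y20 z20 (.cons c21 21 8 y21 z21 (.cons c22 22 0 y22 z22 (.cons c23 23 0 y23 z23 (.cons c42 42 0 y42 z42 (.cons c43 43 0 y43 z43 (.cons c28 28 0 y28 z28 (.cons c29 29 0 y29 z29 (.cons c30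 30 0 y30 z30 (.cons c31 31 0 y31 z31 (.cons c44 44 0 y44 z44 (.cons c45 45 0 y45 z45 (.cons c61 61 0 y61 z61 (.cons c46 46 0 y46 z46 (.cons c47 47 0 y47 z47 (.cons c55 55 20 y55 z55 (.cons c56 56 0 y56 z56 (.cons c62 62 0 y62 z62 (.cons c58 58 0 y58 z58 (.cons c59 59 0 y59 z59 (.cons c63 63 0 y63 z63 .nil)))))))))))))))))))))))))))))))))))) (.cons 45 692528407 .nil (.cons 46 726082721 (.cons c10 10 1 y10 z10 (.cons c11 11 34 y11 z11 (.cons c51 51 34 y51 z51 (.cons c20 20 20 y20 z20 (.cons c21 21 8 y21 z21 (.cons c55 55 20 y55 z55 .nil)))))) (.cons 47 692528310 .nil (.cons 48 723006754 (.cons c73 73 20 y73 z73 (.cons c74 74 20 y74 z74 (.cons c75 75 0 y75 z75 (.cons c10 10 1 y10 z10 (.cons c114 114 34 y114 z114 (.cons c76 76 34 y76 z76 (.cons c77 77 34 y77 z77 (.cons c118 118 34 y118 z118 (.cons c116 116 20 y116 z116 (.cons c119 119 20 y119 z119 (.cons c117 117 0 y117 z117 .nil))))))))))) (.cons 49 689452343 .nil (.cons 50 723006657 (.cons c73 73 20 y73 z73 (.cons c74 74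 20 y74 z74 (.cons c75 75 0 y75 z75 (.cons c10 10 1 y10 z10 (.cons c114 114 34 y114 z114 (.cons c76 76 34 y76 z76 (.cons c77 77 34 y77 z77 (.cons c118 118 34 y118 z118 (.cons c116 116 20 y116 z116 (.cons c119 119 20 y119 z119 (.cons c117 117 0 y117 z117 .nil))))))))))) (.cons 51 689452246 .nil (.cons 52 723003650 (.cons c10 10 1 y10 z10 (.cons c114 114 34 y114 z114 (.cons c118 118 34 y118 z118 (.cons c116 116 20 y116 z116 (.cons c119 119 20 y119 z119 (.cons c117 117 0 y117 z117 .nil)))))) (.cons 53 689449239 .nil (.cons 54 723003553 (.cons c10 10 1 y10 z10 (.cons c114 114 34 y114 z114 (.cons c118 118 34 y118 z118 (.cons c116 116 20 y116 z116 (.cons c119 119 20 y119 z119 (.cons c117 117 0 y117 z117 .nil)))))) (.cons 55 689449142 .nil (.cons 56 722907426 (.cons c74 74 20 y74 z74 (.cons c4 4 20 y4 z4 (.cons c101 101 20 y101 z101 (.cons c75 75 0 y75 z75 (.cons c10 10 1 y10 z10 (.cons c12 12 20 y12 z12 (.cons c77 77 34 y77 z77 (.cons c14 14 34 y14 z14 (.cons c16 16 34 y16 z16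 (.cons c18 18 0 y18 z18 (.cons c102 102 34 y102 z102 .nil))))))))))) (.cons 57 689353015 .nil (.cons 58 722907329 (.cons c74 74 20 y74 z74 (.cons c101 101 20 y101 z101 (.cons c75 75 0 y75 z75 (.cons c10 10 1 y10 z10 (.cons c77 77 34 y77 z77 (.cons c102 102 34 y102 z102 .nil)))))) (.cons 59 689352918 .nil (.cons 60 722904322 (.cons c10 10 1 y10 z10 (.cons c12 12 20 y12 z12 (.cons c40 40 20 y40 z40 (.cons c16 16 34 y16 z16 (.cons c18 18 0 y18 z18 (.cons c44 44 34 y44 z44 .nil)))))) (.cons 61 689349911 .nil (.cons 62 722904225 (.cons c10 10 1 y10 z10 (.cons c120 120 0 y120 z120 (.cons c121 121 21 y121 z121 (.cons c122 122 0 y122 z122 .nil)))) (.cons 63 689349814 (.cons c122 122 0 y122 z122 (.cons c123 123 0 y123 z123 (.cons c124 124 0 y124 z124 (.cons c125 125 0 y125 z125 (.cons c126 126 0 y126 z126 (.cons c127 127 0 y127 z127 .nil)))))) .nil))))))))))))))))))))))))))))))))))))))))))))))))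

theorem a1 : chkA TCf 22590754 E1 = true := by decide +kernel

theorem b1 : chkB row E1 = true := by decide +kernel

theorem d1 : chkC E1 = true := by decide +kernel

/-- windows 0:1 1:1 2:2 4:1 5:1 0:0 -/
def E4 : Es :=
  (.cons 0 22587553 (.cons c68 68 89 y68 z68 (.cons c10 10 2 y10 z10 (.cons c11 11 1796 y11 z11 (.cons c69 69 89 y69 z69 (.cons c20 20 89 y20 z20 (.cons c21 21 32 y21 z21 (.cons c24 24 89 y24 z24 (.cons c70 70 128 y70 z70 (.cons c71 71 1796 y71 z71 (.cons c72 72 1796 y72 z72 (.cons c35 35 1796 y35 z35 .nil))))))))))) (.cons 2 22587456 .nil (.cons 4 22584449 .nil (.cons 6 22584352 .nil (.cons 8 22488225 (.cons c68 68 89 y68 z68 (.cons c10 10 2 y10 z10 (.cons c11 11 1796 y11 z11 (.cons c69 69 89 y69 z69 (.cons c20 20 89 y20 z20 (.cons c21 21 32 y21 z21 (.cons c24 24 89 y24 z24 (.cons c70 70 128 y70 z70 (.cons c71 71 1796 y71 z71 (.cons c72 72 1796 y72 z72 (.cons c35 35 1796 y35 z35 .nil))))))))))) (.cons 10 22488128 .nil (.cons 12 22485121 .nil (.cons 14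 22485024 .nil (.cons 16 19409057 (.cons c68 68 89 y68 z68 (.cons c10 10 2 y10 z10 (.cons c69 69 89 y69 z69 (.cons c70 70 128 y70 z70 (.cons c71 71 1796 y71 z71 (.cons c72 72 1796 y72 z72 .nil)))))) (.cons 18 19408960 .nil (.cons 20 19405953 .nil (.cons 22 19405856 .nil (.cons 24 19309729 (.cons c68 68 89 y68 z68 (.cons c10 10 2 y10 z10 (.cons c69 69 89 y69 z69 (.cons c70 70 128 y70 z70 (.cons c71 71 1796 y71 z71 (.cons c72 72 1796 y72 z72 .nil)))))) (.cons 26 19309632 .nil (.cons 28 19306625 .nil (.cons 30 19306528 .nil (.cons 32 726182049 (.cons c10 10 2 y10 z10 (.cons c11 11 1796 y11 z11 (.cons c113 113 1796 y113 z113 (.cons c114 114 1796 y114 z114 (.cons c51 51 1796 y51 z51 (.cons c20 20 89 y20 z20 (.cons c21 21 32 y21 z21 (.cons c115 115 89 y115 z115 (.cons c116 116 89 y116 z116 (.cons c117 117 0 y117 z117 (.cons c55 55 89 y55 z55 .nil))))))))))) (.cons 33 692627638 .nil (.cons 34 726181952 .nil (.cons 35 692627541 .nil (.cons 36 726178945 .nil (.cons 37 692624534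 .nil (.cons 38 726178848 .nil (.cons 39 692624437 .nil (.cons 40 726082721 (.cons c10 10 2 y10 z10 (.cons c11 11 1796 y11 z11 (.cons c51 51 1796 y51 z51 (.cons c20 20 89 y20 z20 (.cons c21 21 32 y21 z21 (.cons c55 55 89 y55 z55 .nil)))))) (.cons 41 692528310 .nil (.cons 42 726082624 .nil (.cons 43 692528213 .nil (.cons 44 726079617 .nil (.cons 45 692525206 .nil (.cons 46 726079520 .nil (.cons 47 692525109 .nil (.cons 48 723003553 (.cons c10 10 2 y10 z10 (.cons c114 114 1796 y114 z114 (.cons c118 118 1796 y118 z118 (.cons c116 116 89 y116 z116 (.cons c119 119 89 y119 z119 (.cons c117 117 0 y117 z117 .nil)))))) (.cons 49 689449142 .nil (.cons 50 723003456 .nil (.cons 51 689449045 .nil (.cons 52 723000449 .nil (.cons 53 689446038 .nil (.cons 54 723000352 .nil (.cons 55 689445941 .nil (.cons 56 722904225 (.cons c10 10 2 y10 z10 (.cons c120 120 0 y120 z120 (.cons c121 121 91 y121 z121 (.cons c122 122 0 y122 z122 .nil)))) (.cons 57 689349814 (.cons c122 122 0 y122 z122 (.cons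 c123 123 0 y123 z123 (.cons c124 124 0 y124 z124 (.cons c125 125 0 y125 z125 (.cons c126 126 0 y126 z126 (.cons c127 127 0 y127 z127 .nil)))))) (.cons 58 722904128 (.cons c128 128 0 y128 z128 (.cons c129 129 0 y129 z129 (.cons c130 130 0 y130 z130 (.cons c131 131 0 y131 z131 (.cons c132 132 0 y132 z132 (.cons c122 122 0 y122 z122 .nil)))))) (.cons 59 689349717 (.cons c130 130 0 y130 z130 (.cons c131 131 0 y131 z131 (.cons c132 132 0 y132 z132 (.cons c122 122 0 y122 z122 (.cons c133 133 0 y133 z133 (.cons c123 123 0 y123 z123 (.cons c124 124 0 y124 z124 (.cons c134 134 0 y134 z134 (.cons c125 125 0 y125 z125 (.cons c126 126 0 y126 z126 (.cons c127 127 0 y127 z127 .nil))))))))))) (.cons 60 722901121 (.cons c135 135 0 y135 z135 (.cons c136 136 0 y136 z136 (.cons c137 137 0 y137 z137 (.cons c122 122 0 y122 z122 (.cons c138 138 0 y138 z138 (.cons c139 139 0 y139 z139 .nil)))))) (.cons 61 689346710 (.cons c122 122 0 y122 z122 (.cons c123 123 0 y123 z123 (.cons c124 124 0 y124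 z124 (.cons c125 125 0 y125 z125 (.cons c126 126 0 y126 z126 (.cons c127 127 0 y127 z127 .nil)))))) (.cons 62 722901024 (.cons c140 140 0 y140 z140 (.cons c128 128 0 y128 z128 (.cons c136 136 0 y136 z136 (.cons c137 137 0 y137 z137 (.cons c141 141 0 y141 z141 (.cons c129 129 0 y129 z129 (.cons c130 130 0 y130 z130 (.cons c131 131 0 y131 z131 (.cons c132 132 0 y132 z132 (.cons c122 122 0 y122 z122 (.cons c139 139 0 y139 z139 .nil))))))))))) (.cons 63 689346613 (.cons c130 130 0 y130 z130 (.cons c131 131 0 y131 z131 (.cons c132 132 0 y132 z132 (.cons c122 122 0 y122 z122 (.cons c133 133 0 y133 z133 (.cons c123 123 0 y123 z123 (.cons c124 124 0 y124 z124 (.cons c134 134 0 y134 z134 (.cons c125 125 0 y125 z125 (.cons c126 126 0 y126 z126 (.cons c127 127 0 y127 z127 .nil))))))))))) .nil))))))))))))))))))))))))))))))))))))))))))))))))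

theorem a4 : chkA TCf 22587553 E4 = true := by decide +kernel

theorem b4 : chkB row E4 = true := by decide +kernel

theorem d4 : chkC E4 = true := by decide +kernel

/-- windows 0:1 1:1 2:1 3:2 5:1 0:0 -/
def E8 : Es :=
  (.cons 0 22488225 (.cons c68 68 89 y68 z68 (.cons c10 10 2 y10 z10 (.cons c11 11 1796 y11 z11 (.cons c69 69 89 y69 z69 (.cons c20 20 89 y20 z20 (.cons c21 21 32 y21 z21 (.cons c24 24 89 y24 z24 (.cons c70 70 128 y70 z70 (.cons c71 71 1796 y71 z71 (.cons c72 72 1796 y72 z72 (.cons c35 35 1796 y35 z35 .nil))))))))))) (.cons 2 22488128 .nil (.cons 4 22485121 .nil (.cons 6 22485024 .nil (.cons 8 22388897 .nil (.cons 10 22388800 .nil (.cons 12 22385793 .nil (.cons 14 22385696 .nil (.cons 16 19309729 (.cons c68 68 89 y68 z68 (.cons c10 10 2 y10 z10 (.cons c69 69 89 y69 z69 (.cons c70 70 128 y70 z70 (.cons c71 71 1796 y71 z71 (.cons c72 72 1796 y72 z72 .nil)))))) (.cons 18 19309632 .nil (.cons 20 19306625 .nil (.cons 22 19306528 .nil (.cons 24 19210401 .nil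 (.cons 26 19210304 .nil (.cons 28 19207297 .nil (.cons 30 19207200 .nil (.cons 32 726082721 (.cons c10 10 2 y10 z10 (.cons c11 11 1796 y11 z11 (.cons c51 51 1796 y51 z51 (.cons c20 20 89 y20 z20 (.cons c21 21 32 y21 z21 (.cons c55 55 89 y55 z55 .nil)))))) (.cons 33 692528310 .nil (.cons 34 726082624 .nil (.cons 35 692528213 .nil (.cons 36 726079617 .nil (.cons 37 692525206 .nil (.cons 38 726079520 .nil (.cons 39 692525109 .nil (.cons 40 725983393 .nil (.cons 41 692428982 .nil (.cons 42 725983296 .nil (.cons 43 692428885 .nil (.cons 44 725980289 .nil (.cons 45 692425878 .nil (.cons 46 725980192 .nil (.cons 47 692425781 .nil (.cons 48 722904225 (.cons c10 10 2 y10 z10 (.cons c120 120 0 y120 z120 (.cons c121 121 91 y121 z121 (.cons c122 122 0 y122 z122 .nil)))) (.cons 49 689349814 (.cons c122 122 0 y122 z122 (.cons c123 123 0 y123 z123 (.cons c124 124 0 y124 z124 (.cons c125 125 0 y125 z125 (.cons c126 126 0 y126 z126 (.cons c127 127 0 y127 z127 .nil)))))) (.cons 50 722904128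 (.cons c128 128 0 y128 z128 (.cons c129 129 0 y129 z129 (.cons c130 130 0 y130 z130 (.cons c131 131 0 y131 z131 (.cons c132 132 0 y132 z132 (.cons c122 122 0 y122 z122 .nil)))))) (.cons 51 689349717 (.cons c130 130 0 y130 z130 (.cons c131 131 0 y131 z131 (.cons c132 132 0 y132 z132 (.cons c122 122 0 y122 z122 (.cons c133 133 0 y133 z133 (.cons c123 123 0 y123 z123 (.cons c124 124 0 y124 z124 (.cons c134 134 0 y134 z134 (.cons c125 125 0 y125 z125 (.cons c126 126 0 y126 z126 (.cons c127 127 0 y127 z127 .nil))))))))))) (.cons 52 722901121 (.cons c135 135 0 y135 z135 (.cons c136 136 0 y136 z136 (.cons c137 137 0 y137 z137 (.cons c122 122 0 y122 z122 (.cons c138 138 0 y138 z138 (.cons c139 139 0 y139 z139 .nil)))))) (.cons 53 689346710 (.cons c122 122 0 y122 z122 (.cons c123 123 0 y123 z123 (.cons c124 124 0 y124 z124 (.cons c125 125 0 y125 z125 (.cons c126 126 0 y126 z126 (.cons c127 127 0 y127 z127 .nil)))))) (.cons 54 722901024 (.cons c140 140 0 y140 z140 (.cons c128 128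 0 y128 z128 (.cons c136 136 0 y136 z136 (.cons c137 137 0 y137 z137 (.cons c141 141 0 y141 z141 (.cons c129 129 0 y129 z129 (.cons c130 130 0 y130 z130 (.cons c131 131 0 y131 z131 (.cons c132 132 0 y132 z132 (.cons c122 122 0 y122 z122 (.cons c139 139 0 y139 z139 .nil))))))))))) (.cons 55 689346613 (.cons c130 130 0 y130 z130 (.cons c131 131 0 y131 z131 (.cons c132 132 0 y132 z132 (.cons c122 122 0 y122 z122 (.cons c133 133 0 y133 z133 (.cons c123 123 0 y123 z123 (.cons c124 124 0 y124 z124 (.cons c134 134 0 y134 z134 (.cons c125 125 0 y125 z125 (.cons c126 126 0 y126 z126 (.cons c127 127 0 y127 z127 .nil))))))))))) (.cons 56 722804897 (.cons c122 122 0 y122 z122 (.cons c142 142 0 y142 z142 (.cons c143 143 0 y143 z143 (.cons c144 144 0 y144 z144 (.cons c145 145 0 y145 z145 (.cons c146 146 0 y146 z146 .nil)))))) (.cons 57 689250486 (.cons c122 122 0 y122 z122 (.cons c123 123 0 y123 z123 (.cons c124 124 0 y124 z124 (.cons c142 142 0 y142 z142 (.cons c143 143 0 y143 z143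 (.cons c147 147 0 y147 z147 (.cons c148 148 0 y148 z148 (.cons c149 149 0 y149 z149 (.cons c150 150 0 y150 z150 (.cons c144 144 0 y144 z144 (.cons c151 151 2015 y151 z151 (.cons c152 152 2015 y152 z152 (.cons c145 145 0 y145 z145 (.cons c153 153 2015 y153 z153 (.cons c154 154 2015 y154 z154 (.cons c146 146 0 y146 z146 (.cons c155 155 0 y155 z155 (.cons c156 156 0 y156 z156 (.cons c125 125 0 y125 z125 (.cons c126 126 0 y126 z126 (.cons c157 157 0 y157 z157 (.cons c158 158 0 y158 z158 (.cons c159 159 0 y159 z159 (.cons c160 160 0 y160 z160 (.cons c127 127 0 y127 z127 (.cons c161 161 0 y161 z161 (.cons c162 162 0 y162 z162 (.cons c163 163 32 y163 z163 (.cons c164 164 0 y164 z164 (.cons c165 165 32 y165 z165 (.cons c166 166 0 y166 z166 (.cons c167 167 0 y167 z167 (.cons c168 168 0 y168 z168 (.cons c169 169 32 y169 z169 (.cons c170 170 32 y170 z170 (.cons c171 171 0 y171 z171 .nil)))))))))))))))))))))))))))))))))))) (.cons 58 722804800 (.cons c128 128 0 y128 z128 (.cons c129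 129 0 y129 z129 (.cons c130 130 0 y130 z130 (.cons c131 131 0 y131 z131 (.cons c132 132 0 y132 z132 (.cons c122 122 0 y122 z122 .nil)))))) (.cons 59 689250389 (.cons c130 130 0 y130 z130 (.cons c131 131 0 y131 z131 (.cons c132 132 0 y132 z132 (.cons c122 122 0 y122 z122 (.cons c133 133 0 y133 z133 (.cons c123 123 0 y123 z123 (.cons c124 124 0 y124 z124 (.cons c134 134 0 y134 z134 (.cons c125 125 0 y125 z125 (.cons c126 126 0 y126 z126 (.cons c127 127 0 y127 z127 .nil))))))))))) (.cons 60 722801793 (.cons c135 135 0 y135 z135 (.cons c136 136 0 y136 z136 (.cons c137 137 0 y137 z137 (.cons c122 122 0 y122 z122 (.cons c143 143 0 y143 z143 (.cons c138 138 0 y138 z138 (.cons c139 139 0 y139 z139 (.cons c172 172 0 y172 z172 (.cons c145 145 0 y145 z145 (.cons c173 173 0 y173 z173 (.cons c146 146 0 y146 z146 .nil))))))))))) (.cons 61 689247382 (.cons c122 122 0 y122 z122 (.cons c123 123 0 y123 z123 (.cons c124 124 0 y124 z124 (.cons c143 143 0 y143 z143 (.cons c149 149 0 y149 z149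 (.cons c150 150 0 y150 z150 (.cons c172 172 0 y172 z172 (.cons c174 174 0 y174 z174 (.cons c175 175 0 y175 z175 (.cons c145 145 0 y145 z145 (.cons c173 173 0 y173 z173 (.cons c153 153 2015 y153 z153 (.cons c176 176 2015 y176 z176 (.cons c154 154 2015 y154 z154 (.cons c146 146 0 y146 z146 (.cons c155 155 0 y155 z155 (.cons c156 156 0 y156 z156 (.cons c125 125 0 y125 z125 (.cons c126 126 0 y126 z126 (.cons c158 158 0 y158 z158 (.cons c160 160 0 y160 z160 (.cons c177 177 0 y177 z177 (.cons c178 178 0 y178 z178 (.cons c127 127 0 y127 z127 (.cons c162 162 0 y162 z162 (.cons c165 165 32 y165 z165 (.cons c179 179 32 y179 z179 (.cons c166 166 0 y166 z166 (.cons c180 180 0 y180 z180 (.cons c167 167 0 y167 z167 (.cons c168 168 0 y168 z168 (.cons c170 170 32 y170 z170 (.cons c181 181 32 y181 z181 (.cons c171 171 0 y171 z171 .nil)))))))))))))))))))))))))))))))))) (.cons 62 722801696 (.cons c140 140 0 y140 z140 (.cons c128 128 0 y128 z128 (.cons c136 136 0 y136 z136 (.cons c137 137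 0 y137 z137 (.cons c141 141 0 y141 z141 (.cons c129 129 0 y129 z129 (.cons c130 130 0 y130 z130 (.cons c131 131 0 y131 z131 (.cons c132 132 0 y132 z132 (.cons c122 122 0 y122 z122 (.cons c139 139 0 y139 z139 .nil))))))))))) (.cons 63 689247285 (.cons c130 130 0 y130 z130 (.cons c131 131 0 y131 z131 (.cons c132 132 0 y132 z132 (.cons c122 122 0 y122 z122 (.cons c133 133 0 y133 z133 (.cons c123 123 0 y123 z123 (.cons c124 124 0 y124 z124 (.cons c134 134 0 y134 z134 (.cons c125 125 0 y125 z125 (.cons c126 126 0 y126 z126 (.cons c127 127 0 y127 z127 .nil))))))))))) .nil))))))))))))))))))))))))))))))))))))))))))))))))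

theorem a8 : chkA TCf 22488225 E8 = true := by decide +kernel

theorem b8 : chkB row E8 = true := by decide +kernel

theorem d8 : chkC E8 = true := by decide +kernel

/-- windows 0:2 2:0 2:2 4:0 4:2 0:0 -/
def E11 : Es :=
  (.cons 0 19409154 (.cons c10 10 1 y10 z10 .nil) (.cons 2 19409057 (.cons c68 68 0 y68 z68 (.cons c10 10 1 y10 z10 (.cons c69 69 0 y69 z69 (.cons c70 70 0 y70 z70 (.cons c71 71 0 y71 z71 (.cons c72 72 0 y72 z72 .nil)))))) (.cons 6 19405953 .nil (.cons 8 19309826 (.cons c10 10 1 y10 z10 (.cons c12 12 0 y12 z12 (.cons c40 40 0 y40 z40 (.cons c16 16 0 y16 z16 (.cons c18 18 0 y18 z18 (.cons c44 44 0 y44 z44 .nil)))))) (.cons 10 19309729 (.cons c68 68 0 y68 z68 (.cons c10 10 1 y10 z10 (.cons c69 69 0 y69 z69 (.cons c70 70 0 y70 z70 (.cons c71 71 0 y71 z71 (.cons c72 72 0 y72 z72 .nil)))))) (.cons 14 19306625 .nil (.cons 24 16131330 .nil (.cons 26 16131233 .nil (.cons 30 16128129 .nil (.cons 32 723003650 (.cons c10 10 1 y10 z10 (.cons c114 114 0 y114 z114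 (.cons c118 118 0 y118 z118 (.cons c116 116 0 y116 z116 (.cons c119 119 0 y119 z119 (.cons c117 117 0 y117 z117 .nil)))))) (.cons 33 689449239 .nil (.cons 34 723003553 (.cons c10 10 1 y10 z10 (.cons c114 114 0 y114 z114 (.cons c118 118 0 y118 z118 (.cons c116 116 0 y116 z116 (.cons c119 119 0 y119 z119 (.cons c117 117 0 y117 z117 .nil)))))) (.cons 35 689449142 .nil (.cons 38 723000449 .nil (.cons 39 689446038 .nil (.cons 40 722904322 (.cons c10 10 1 y10 z10 (.cons c12 12 0 y12 z12 (.cons c40 40 0 y40 z40 (.cons c16 16 0 y16 z16 (.cons c18 18 0 y18 z18 (.cons c44 44 0 y44 z44 .nil)))))) (.cons 41 689349911 .nil (.cons 42 722904225 (.cons c10 10 1 y10 z10 (.cons c120 120 0 y120 z120 (.cons c121 121 1 y121 z121 (.cons c122 122 0 y122 z122 .nil)))) (.cons 43 689349814 (.cons c122 122 0 y122 z122 (.cons c123 123 0 y123 z123 (.cons c124 124 0 y124 z124 (.cons c125 125 0 y125 z125 (.cons c126 126 0 y126 z126 (.cons c127 127 0 y127 z127 .nil)))))) (.cons 46 722901121 (.cons c135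 135 0 y135 z135 (.cons c136 136 0 y136 z136 (.cons c137 137 0 y137 z137 (.cons c122 122 0 y122 z122 (.cons c138 138 0 y138 z138 (.cons c139 139 0 y139 z139 .nil)))))) (.cons 47 689346710 (.cons c122 122 0 y122 z122 (.cons c123 123 0 y123 z123 (.cons c124 124 0 y124 z124 (.cons c125 125 0 y125 z125 (.cons c126 126 0 y126 z126 (.cons c127 127 0 y127 z127 .nil)))))) (.cons 56 719725826 .nil (.cons 57 686171415 .nil (.cons 58 719725729 (.cons c182 182 0 y182 z182 (.cons c122 122 0 y122 z122 (.cons c183 183 0 y183 z183 (.cons c184 184 0 y184 z184 (.cons c185 185 0 y185 z185 (.cons c186 186 0 y186 z186 .nil)))))) (.cons 59 686171318 (.cons c182 182 0 y182 z182 (.cons c122 122 0 y122 z122 (.cons c183 183 0 y183 z183 (.cons c184 184 0 y184 z184 (.cons c185 185 0 y185 z185 (.cons c186 186 0 y186 z186 .nil)))))) (.cons 62 719722625 (.cons c135 135 0 y135 z135 (.cons c136 136 0 y136 z136 (.cons c137 137 0 y137 z137 (.cons c122 122 0 y122 z122 (.cons c138 138 0 y138 z138 (.cons c139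 139 0 y139 z139 .nil)))))) (.cons 63 686168214 (.cons c122 122 0 y122 z122 .nil) .nil)))))))))))))))))))))))))))

theorem a11 : chkA TCf 19409154 E11 = true := by decide +kernel

theorem b11 : chkB row E11 = true := by decide +kernel

theorem d11 : chkC E11 = true := by decide +kernel

/-- windows 0:1 1:1 2:1 3:1 4:2 0:0 -/
def E16 : Es :=
  (.cons 0 19309729 (.cons c68 68 5 y68 z68 (.cons c10 10 2 y10 z10 (.cons c69 69 5 y69 z69 (.cons c70 70 8 y70 z70 (.cons c71 71 48 y71 z71 (.cons c72 72 48 y72 z72 .nil)))))) (.cons 2 19309632 .nil (.cons 4 19306625 .nil (.cons 6 19306528 .nil (.cons 8 19210401 .nil (.cons 10 19210304 .nil (.cons 12 19207297 .nil (.cons 14 19207200 .nil (.cons 16 16131233 .nil (.cons 18 16131136 .nil (.cons 20 16128129 .nil (.cons 22 16128032 .nil (.cons 24 16031905 .nil (.cons 26 16031808 .nil (.cons 28 16028801 .nil (.cons 30 16028704 .nil (.cons 32 722904225 (.cons c10 10 2 y10 z10 (.cons c120 120 0 y120 z120 (.cons c121 121 7 y121 z121 (.cons c122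 122 0 y122 z122 .nil)))) (.cons 33 689349814 (.cons c122 122 0 y122 z122 (.cons c123 123 0 y123 z123 (.cons c124 124 0 y124 z124 (.cons c125 125 0 y125 z125 (.cons c126 126 0 y126 z126 (.cons c127 127 0 y127 z127 .nil)))))) (.cons 34 722904128 (.cons c128 128 0 y128 z128 (.cons c129 129 0 y129 z129 (.cons c130 130 0 y130 z130 (.cons c131 131 0 y131 z131 (.cons c132 132 0 y132 z132 (.cons c122 122 0 y122 z122 .nil)))))) (.cons 35 689349717 (.cons c130 130 0 y130 z130 (.cons c131 131 0 y131 z131 (.cons c132 132 0 y132 z132 (.cons c122 122 0 y122 z122 (.cons c133 133 0 y133 z133 (.cons c123 123 0 y123 z123 (.cons c124 124 0 y124 z124 (.cons c134 134 0 y134 z134 (.cons c125 125 0 y125 z125 (.cons c126 126 0 y126 z126 (.cons c127 127 0 y127 z127 .nil))))))))))) (.cons 36 722901121 (.cons c135 135 0 y135 z135 (.cons c136 136 0 y136 z136 (.cons c137 137 0 y137 z137 (.cons c122 122 0 y122 z122 (.cons c138 138 0 y138 z138 (.cons c139 139 0 y139 z139 .nil)))))) (.cons 37 689346710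 (.cons c122 122 0 y122 z122 (.cons c123 123 0 y123 z123 (.cons c124 124 0 y124 z124 (.cons c125 125 0 y125 z125 (.cons c126 126 0 y126 z126 (.cons c127 127 0 y127 z127 .nil)))))) (.cons 38 722901024 (.cons c140 140 0 y140 z140 (.cons c128 128 0 y128 z128 (.cons c136 136 0 y136 z136 (.cons c137 137 0 y137 z137 (.cons c141 141 0 y141 z141 (.cons c129 129 0 y129 z129 (.cons c130 130 0 y130 z130 (.cons c131 131 0 y131 z131 (.cons c132 132 0 y132 z132 (.cons c122 122 0 y122 z122 (.cons c139 139 0 y139 z139 .nil))))))))))) (.cons 39 689346613 (.cons c130 130 0 y130 z130 (.cons c131 131 0 y131 z131 (.cons c132 132 0 y132 z132 (.cons c122 122 0 y122 z122 (.cons c133 133 0 y133 z133 (.cons c123 123 0 y123 z123 (.cons c124 124 0 y124 z124 (.cons c134 134 0 y134 z134 (.cons c125 125 0 y125 z125 (.cons c126 126 0 y126 z126 (.cons c127 127 0 y127 z127 .nil))))))))))) (.cons 40 722804897 (.cons c122 122 0 y122 z122 (.cons c142 142 0 y142 z142 (.cons c143 143 0 y143 z143 (.cons c144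 144 0 y144 z144 (.cons c145 145 0 y145 z145 (.cons c146 146 0 y146 z146 .nil)))))) (.cons 41 689250486 (.cons c122 122 0 y122 z122 (.cons c123 123 0 y123 z123 (.cons c124 124 0 y124 z124 (.cons c142 142 0 y142 z142 (.cons c143 143 0 y143 z143 (.cons c147 147 0 y147 z147 (.cons c148 148 0 y148 z148 (.cons c149 149 0 y149 z149 (.cons c150 150 0 y150 z150 (.cons c144 144 0 y144 z144 (.cons c151 151 63 y151 z151 (.cons c152 152 63 y152 z152 (.cons c145 145 0 y145 z145 (.cons c153 153 63 y153 z153 (.cons c154 154 63 y154 z154 (.cons c146 146 0 y146 z146 (.cons c155 155 0 y155 z155 (.cons c156 156 0 y156 z156 (.cons c125 125 0 y125 z125 (.cons c126 126 0 y126 z126 (.cons c157 157 0 y157 z157 (.cons c158 158 0 y158 z158 (.cons c159 159 0 y159 z159 (.cons c160 160 0 y160 z160 (.cons c127 127 0 y127 z127 (.cons c161 161 0 y161 z161 (.cons c162 162 0 y162 z162 (.cons c163 163 0 y163 z163 (.cons c164 164 0 y164 z164 (.cons c165 165 0 y165 z165 (.cons c166 166 0 y166 z166 (.cons c167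 167 0 y167 z167 (.cons c168 168 0 y168 z168 (.cons c169 169 0 y169 z169 (.cons c170 170 0 y170 z170 (.cons c171 171 0 y171 z171 .nil)))))))))))))))))))))))))))))))))))) (.cons 42 722804800 (.cons c128 128 0 y128 z128 (.cons c129 129 0 y129 z129 (.cons c130 130 0 y130 z130 (.cons c131 131 0 y131 z131 (.cons c132 132 0 y132 z132 (.cons c122 122 0 y122 z122 .nil)))))) (.cons 43 689250389 (.cons c130 130 0 y130 z130 (.cons c131 131 0 y131 z131 (.cons c132 132 0 y132 z132 (.cons c122 122 0 y122 z122 (.cons c133 133 0 y133 z133 (.cons c123 123 0 y123 z123 (.cons c124 124 0 y124 z124 (.cons c134 134 0 y134 z134 (.cons c125 125 0 y125 z125 (.cons c126 126 0 y126 z126 (.cons c127 127 0 y127 z127 .nil))))))))))) (.cons 44 722801793 (.cons c135 135 0 y135 z135 (.cons c136 136 0 y136 z136 (.cons c137 137 0 y137 z137 (.cons c122 122 0 y122 z122 (.cons c143 143 0 y143 z143 (.cons c138 138 0 y138 z138 (.cons c139 139 0 y139 z139 (.cons c172 172 0 y172 z172 (.cons c145 145 0 y145 z145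 (.cons c173 173 0 y173 z173 (.cons c146 146 0 y146 z146 .nil))))))))))) (.cons 45 689247382 (.cons c122 122 0 y122 z122 (.cons c123 123 0 y123 z123 (.cons c124 124 0 y124 z124 (.cons c143 143 0 y143 z143 (.cons c149 149 0 y149 z149 (.cons c150 150 0 y150 z150 (.cons c172 172 0 y172 z172 (.cons c174 174 0 y174 z174 (.cons c175 175 0 y175 z175 (.cons c145 145 0 y145 z145 (.cons c173 173 0 y173 z173 (.cons c153 153 63 y153 z153 (.cons c176 176 63 y176 z176 (.cons c154 154 63 y154 z154 (.cons c146 146 0 y146 z146 (.cons c155 155 0 y155 z155 (.cons c156 156 0 y156 z156 (.cons c125 125 0 y125 z125 (.cons c126 126 0 y126 z126 (.cons c158 158 0 y158 z158 (.cons c160 160 0 y160 z160 (.cons c177 177 0 y177 z177 (.cons c178 178 0 y178 z178 (.cons c127 127 0 y127 z127 (.cons c162 162 0 y162 z162 (.cons c165 165 0 y165 z165 (.cons c179 179 0 y179 z179 (.cons c166 166 0 y166 z166 (.cons c180 180 0 y180 z180 (.cons c167 167 0 y167 z167 (.cons c168 168 0 y168 z168 (.cons c170 170 0 y170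 z170 (.cons c181 181 0 y181 z181 (.cons c171 171 0 y171 z171 .nil)))))))))))))))))))))))))))))))))) (.cons 46 722801696 (.cons c140 140 0 y140 z140 (.cons c128 128 0 y128 z128 (.cons c136 136 0 y136 z136 (.cons c137 137 0 y137 z137 (.cons c141 141 0 y141 z141 (.cons c129 129 0 y129 z129 (.cons c130 130 0 y130 z130 (.cons c131 131 0 y131 z131 (.cons c132 132 0 y132 z132 (.cons c122 122 0 y122 z122 (.cons c139 139 0 y139 z139 .nil))))))))))) (.cons 47 689247285 (.cons c130 130 0 y130 z130 (.cons c131 131 0 y131 z131 (.cons c132 132 0 y132 z132 (.cons c122 122 0 y122 z122 (.cons c133 133 0 y133 z133 (.cons c123 123 0 y123 z123 (.cons c124 124 0 y124 z124 (.cons c134 134 0 y134 z134 (.cons c125 125 0 y125 z125 (.cons c126 126 0 y126 z126 (.cons c127 127 0 y127 z127 .nil))))))))))) (.cons 48 719725729 (.cons c182 182 0 y182 z182 (.cons c122 122 0 y122 z122 (.cons c183 183 0 y183 z183 (.cons c184 184 0 y184 z184 (.cons c185 185 0 y185 z185 (.cons c186 186 0 y186 z186 .nil))))))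 (.cons 49 686171318 (.cons c182 182 0 y182 z182 (.cons c122 122 0 y122 z122 (.cons c183 183 0 y183 z183 (.cons c184 184 0 y184 z184 (.cons c185 185 0 y185 z185 (.cons c186 186 0 y186 z186 .nil)))))) (.cons 50 719725632 (.cons c191 191 0 y191 z191 (.cons c192 192 0 y192 z192 (.cons c193 193 0 y193 z193 (.cons c194 194 0 y194 z194 (.cons c195 195 0 y195 z195 (.cons c182 182 0 y182 z182 (.cons c128 128 0 y128 z128 (.cons c196 196 0 y196 z196 (.cons c197 197 7 y197 z197 (.cons c198 198 7 y198 z198 (.cons c199 199 0 y199 z199 (.cons c129 129 0 y129 z129 (.cons c200 200 0 y200 z200 (.cons c130 130 0 y130 z130 (.cons c131 131 0 y131 z131 (.cons c201 201 0 y201 z201 (.cons c202 202 0 y202 z202 (.cons c203 203 8 y203 z203 (.cons c204 204 8 y204 z204 (.cons c205 205 0 y205 z205 (.cons c206 206 0 y206 z206 (.cons c207 207 8 y207 z207 (.cons c208 208 0 y208 z208 (.cons c209 209 8 y209 z209 (.cons c210 210 0 y210 z210 (.cons c211 211 0 y211 z211 (.cons c132 132 0 y132 z132 (.cons c122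 122 0 y122 z122 (.cons c212 212 0 y212 z212 (.cons c183 183 0 y183 z183 (.cons c213 213 7 y213 z213 (.cons c184 184 0 y184 z184 (.cons c214 214 7 y214 z214 (.cons c185 185 0 y185 z185 (.cons c215 215 0 y215 z215 (.cons c186 186 0 y186 z186 .nil)))))))))))))))))))))))))))))))))))) (.cons 51 686171221 (.cons c193 193 0 y193 z193 (.cons c194 194 0 y194 z194 (.cons c195 195 0 y195 z195 (.cons c182 182 0 y182 z182 (.cons c216 216 0 y216 z216 (.cons c130 130 0 y130 z130 (.cons c131 131 0 y131 z131 (.cons c201 201 0 y201 z201 (.cons c202 202 0 y202 z202 (.cons c206 206 0 y206 z206 (.cons c207 207 8 y207 z207 (.cons c208 208 0 y208 z208 (.cons c209 209 8 y209 z209 (.cons c210 210 0 y210 z210 (.cons c211 211 0 y211 z211 (.cons c132 132 0 y132 z132 (.cons c122 122 0 y122 z122 (.cons c212 212 0 y212 z212 (.cons c183 183 0 y183 z183 (.cons c133 133 0 y133 z133 (.cons c217 217 0 y217 z217 (.cons c213 213 7 y213 z213 (.cons c184 184 0 y184 z184 (.cons c214 214 7 y214 z214 (.cons c185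 185 0 y185 z185 (.cons c215 215 0 y215 z215 (.cons c186 186 0 y186 z186 (.cons c218 218 7 y218 z218 (.cons c219 219 0 y219 z219 (.cons c134 134 0 y134 z134 (.cons c220 220 0 y220 z220 (.cons c221 221 8 y221 z221 (.cons c222 222 8 y222 z222 (.cons c223 223 0 y223 z223 .nil)))))))))))))))))))))))))))))))))) (.cons 52 719722625 (.cons c135 135 0 y135 z135 (.cons c136 136 0 y136 z136 (.cons c137 137 0 y137 z137 (.cons c122 122 0 y122 z122 (.cons c138 138 0 y138 z138 (.cons c139 139 0 y139 z139 .nil)))))) (.cons 53 686168214 (.cons c122 122 0 y122 z122 .nil) (.cons 54 719722528 (.cons c140 140 0 y140 z140 (.cons c128 128 0 y128 z128 (.cons c136 136 0 y136 z136 (.cons c137 137 0 y137 z137 (.cons c141 141 0 y141 z141 (.cons c129 129 0 y129 z129 (.cons c130 130 0 y130 z130 (.cons c131 131 0 y131 z131 (.cons c132 132 0 y132 z132 (.cons c122 122 0 y122 z122 (.cons c139 139 0 y139 z139 .nil))))))))))) (.cons 55 686168117 (.cons c130 130 0 y130 z130 (.cons c131 131 0 y131 z131 (.cons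 c132 132 0 y132 z132 (.cons c122 122 0 y122 z122 (.cons c133 133 0 y133 z133 (.cons c134 134 0 y134 z134 .nil)))))) (.cons 56 719626401 (.cons c122 122 0 y122 z122 (.cons c183 183 0 y183 z183 (.cons c142 142 0 y142 z142 (.cons c143 143 0 y143 z143 (.cons c224 224 0 y224 z224 (.cons c185 185 0 y185 z185 (.cons c186 186 0 y186 z186 (.cons c144 144 0 y144 z144 (.cons c145 145 0 y145 z145 (.cons c146 146 0 y146 z146 (.cons c225 225 0 y225 z225 .nil))))))))))) (.cons 57 686071990 (.cons c122 122 0 y122 z122 (.cons c183 183 0 y183 z183 (.cons c142 142 0 y142 z142 (.cons c143 143 0 y143 z143 (.cons c224 224 0 y224 z224 (.cons c185 185 0 y185 z185 (.cons c186 186 0 y186 z186 (.cons c144 144 0 y144 z144 (.cons c145 145 0 y145 z145 (.cons c146 146 0 y146 z146 (.cons c225 225 0 y225 z225 .nil))))))))))) (.cons 58 719626304 (.cons c128 128 0 y128 z128 (.cons c196 196 0 y196 z196 (.cons c226 226 0 y226 z226 (.cons c198 198 7 y198 z198 (.cons c199 199 0 y199 z199 (.cons c129 129 0 y129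 z129 (.cons c200 200 0 y200 z200 (.cons c130 130 0 y130 z130 (.cons c131 131 0 y131 z131 (.cons c201 201 0 y201 z201 (.cons c202 202 0 y202 z202 (.cons c227 227 0 y227 z227 (.cons c228 228 0 y228 z228 (.cons c204 204 8 y204 z204 (.cons c205 205 0 y205 z205 (.cons c208 208 0 y208 z208 (.cons c209 209 8 y209 z209 (.cons c210 210 0 y210 z210 (.cons c211 211 0 y211 z211 (.cons c132 132 0 y132 z132 (.cons c122 122 0 y122 z122 (.cons c212 212 0 y212 z212 (.cons c183 183 0 y183 z183 (.cons c229 229 0 y229 z229 (.cons c224 224 0 y224 z224 (.cons c214 214 7 y214 z214 (.cons c185 185 0 y185 z185 (.cons c215 215 0 y215 z215 (.cons c186 186 0 y186 z186 (.cons c230 230 8 y230 z230 (.cons c231 231 0 y231 z231 (.cons c232 232 8 y232 z232 (.cons c233 233 7 y233 z233 (.cons c225 225 0 y225 z225 .nil)))))))))))))))))))))))))))))))))) (.cons 59 686071893 (.cons c130 130 0 y130 z130 (.cons c131 131 0 y131 z131 (.cons c201 201 0 y201 z201 (.cons c202 202 0 y202 z202 (.cons c227 227 0 y227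 z227 (.cons c228 228 0 y228 z228 (.cons c208 208 0 y208 z208 (.cons c209 209 8 y209 z209 (.cons c210 210 0 y210 z210 (.cons c211 211 0 y211 z211 (.cons c132 132 0 y132 z132 (.cons c122 122 0 y122 z122 (.cons c212 212 0 y212 z212 (.cons c183 183 0 y183 z183 (.cons c133 133 0 y133 z133 (.cons c217 217 0 y217 z217 (.cons c229 229 0 y229 z229 (.cons c224 224 0 y224 z224 (.cons c234 234 0 y234 z234 (.cons c214 214 63 y214 z214 (.cons c185 185 0 y185 z185 (.cons c215 215 0 y215 z215 (.cons c186 186 0 y186 z186 (.cons c218 218 63 y218 z218 (.cons c219 219 0 y219 z219 (.cons c231 231 0 y231 z231 (.cons c232 232 8 y232 z232 (.cons c233 233 63 y233 z233 (.cons c225 225 0 y225 z225 (.cons c235 235 63 y235 z235 (.cons c134 134 0 y134 z134 (.cons c220 220 0 y220 z220 (.cons c236 236 0 y236 z236 (.cons c222 222 8 y222 z222 (.cons c223 223 0 y223 z223 (.cons c237 237 8 y237 z237 .nil)))))))))))))))))))))))))))))))))))) (.cons 60 719623297 (.cons c135 135 0 y135 z135 (.cons c136 136 0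 y136 z136 (.cons c137 137 0 y137 z137 (.cons c122 122 0 y122 z122 (.cons c143 143 0 y143 z143 (.cons c138 138 0 y138 z138 (.cons c139 139 0 y139 z139 (.cons c172 172 0 y172 z172 (.cons c145 145 0 y145 z145 (.cons c173 173 0 y173 z173 (.cons c146 146 0 y146 z146 .nil))))))))))) (.cons 61 686068886 (.cons c122 122 0 y122 z122 (.cons c143 143 0 y143 z143 (.cons c172 172 0 y172 z172 (.cons c145 145 0 y145 z145 (.cons c173 173 0 y173 z173 (.cons c146 146 0 y146 z146 .nil)))))) (.cons 62 719623200 (.cons c140 140 0 y140 z140 (.cons c128 128 0 y128 z128 (.cons c136 136 0 y136 z136 (.cons c137 137 0 y137 z137 (.cons c141 141 0 y141 z141 (.cons c129 129 0 y129 z129 (.cons c130 130 0 y130 z130 (.cons c131 131 0 y131 z131 (.cons c132 132 0 y132 z132 (.cons c122 122 0 y122 z122 (.cons c139 139 0 y139 z139 .nil))))))))))) (.cons 63 686068789 (.cons c130 130 0 y130 z130 (.cons c131 131 0 y131 z131 (.cons c132 132 0 y132 z132 (.cons c122 122 0 y122 z122 (.cons c133 133 0 y133 z133 (.cons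 c134 134 0 y134 z134 .nil)))))) .nil))))))))))))))))))))))))))))))))))))))))))))))))

theorem a16 : chkA TCf 19309729 E16 = true := by decide +kernel

theorem b16 : chkB row E16 = true := by decide +kernel

theorem d16 : chkC E16 = true := by decide +kernel

/-- windows 0:2 2:1 3:0 3:2 5:0 5:1 -/
def E22 : Es :=
  (.cons 0 726085922 (.cons c4 4 129 y4 z4 (.cons c5 5 1286 y5 z5 (.cons c50 50 1286 y50 z50 (.cons c6 6 1075838984 y6 z6 (.cons c7 7 4194320 y7 z7 (.cons c10 10 32 y10 z10 (.cons c11 11 576 y11 z11 (.cons c12 12 129 y12 z12 (.cons c13 13 1286 y13 z13 (.cons c51 51 576 y51 z51 (.cons c52 52 1286 y52 z52 (.cons c14 14 10240 y14 z14 (.cons c15 15 151552 y15 z15 (.cons c16 16 10240 y16 z16 (.cons c17 17 151552 y17 z17 (.cons c18 18 32768 y18 z18 (.cons c19 19 327680 y19 z19 (.cons c53 53 151552 y53 z53 (.cons c54 54 327680 y54 z54 (.cons c20 20 537395200 y20 z20 (.cons c21 21 1048576 y21 z21 (.cons c22 22 1075838984 y22 z22 (.cons c23 23 4194320 y23 z23 (.cons c26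 26 6484393984 y26 z26 (.cons c27 27 83886080 y27 z27 (.cons c28 28 6484393984 y28 z28 (.cons c29 29 83886080 y29 z29 (.cons c30 30 8724152320 y30 z30 (.cons c31 31 268435456 y31 z31 (.cons c55 55 537395200 y55 z55 (.cons c56 56 1075838984 y56 z56 (.cons c57 57 6484393984 y57 z57 (.cons c58 58 6484393984 y58 z58 (.cons c59 59 8724152320 y59 z59 .nil)))))))))))))))))))))))))))))))))) (.cons 1 692531511 .nil (.cons 2 726085825 (.cons c10 10 32 y10 z10 (.cons c11 11 576 y11 z11 (.cons c51 51 576 y51 z51 (.cons c20 20 537395200 y20 z20 (.cons c21 21 1048576 y21 z21 (.cons c55 55 537395200 y55 z55 .nil)))))) (.cons 3 692531414 .nil (.cons 4 726082818 (.cons c10 10 32 y10 z10 (.cons c11 11 576 y11 z11 (.cons c12 12 129 y12 z12 (.cons c13 13 1286 y13 z13 (.cons c51 51 576 y51 z51 (.cons c52 52 1286 y52 z52 (.cons c40 40 129 y40 z40 (.cons c41 41 1286 y41 z41 (.cons c60 60 1286 y60 z60 (.cons c16 16 10240 y16 z16 (.cons c17 17 151552 y17 z17 (.cons c18 18 32768 y18 z18 (.cons c19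 19 327680 y19 z19 (.cons c53 53 151552 y53 z53 (.cons c54 54 327680 y54 z54 (.cons c20 20 537395200 y20 z20 (.cons c21 21 1048576 y21 z21 (.cons c22 22 1075838984 y22 z22 (.cons c23 23 4194320 y23 z23 (.cons c42 42 1075838984 y42 z42 (.cons c43 43 4194320 y43 z43 (.cons c28 28 6484393984 y28 z28 (.cons c29 29 83886080 y29 z29 (.cons c30 30 8724152320 y30 z30 (.cons c31 31 268435456 y31 z31 (.cons c44 44 10240 y44 z44 (.cons c45 45 151552 y45 z45 (.cons c61 61 151552 y61 z61 (.cons c46 46 6484393984 y46 z46 (.cons c47 47 83886080 y47 z47 (.cons c55 55 537395200 y55 z55 (.cons c56 56 1075838984 y56 z56 (.cons c62 62 1075838984 y62 z62 (.cons c58 58 6484393984 y58 z58 (.cons c59 59 8724152320 y59 z59 (.cons c63 63 6484393984 y63 z63 .nil)))))))))))))))))))))))))))))))))))) (.cons 5 692528407 .nil (.cons 6 726082721 (.cons c10 10 32 y10 z10 (.cons c11 11 576 y11 z11 (.cons c51 51 576 y51 z51 (.cons c20 20 537395200 y20 z20 (.cons c21 21 1048576 y21 z21 (.cons c55 55 537395200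 y55 z55 .nil)))))) (.cons 7 692528310 .nil (.cons 12 725983490 .nil (.cons 13 692429079 (.cons c64 64 6484393984 y64 z64 (.cons c65 65 1075838984 y65 z65 (.cons c66 66 151552 y66 z66 (.cons c67 67 1286 y67 z67 .nil)))) (.cons 14 725983393 .nil (.cons 15 692428982 .nil (.cons 16 722907426 (.cons c74 74 129 y74 z74 (.cons c4 4 129 y4 z4 (.cons c101 101 129 y101 z101 (.cons c75 75 0 y75 z75 (.cons c10 10 32 y10 z10 (.cons c12 12 129 y12 z12 (.cons c77 77 10240 y77 z77 (.cons c14 14 10240 y14 z14 (.cons c16 16 10240 y16 z16 (.cons c18 18 32768 y18 z18 (.cons c102 102 10240 y102 z102 .nil))))))))))) (.cons 17 689353015 .nil (.cons 18 722907329 (.cons c74 74 129 y74 z74 (.cons c101 101 129 y101 z101 (.cons c75 75 0 y75 z75 (.cons c10 10 32 y10 z10 (.cons c77 77 10240 y77 z77 (.cons c102 102 10240 y102 z102 .nil)))))) (.cons 19 689352918 .nil (.cons 20 722904322 (.cons c10 10 32 y10 z10 (.cons c12 12 129 y12 z12 (.cons c40 40 129 y40 z40 (.cons c16 16 10240 y16 z16 (.cons c18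 18 32768 y18 z18 (.cons c44 44 10240 y44 z44 .nil)))))) (.cons 21 689349911 .nil (.cons 22 722904225 (.cons c10 10 32 y10 z10 (.cons c120 120 151552 y120 z120 (.cons c121 121 1613234345 y121 z121 (.cons c122 122 151552 y122 z122 .nil)))) (.cons 23 689349814 (.cons c122 122 151552 y122 z122 (.cons c123 123 0 y123 z123 (.cons c124 124 0 y124 z124 (.cons c125 125 151552 y125 z125 (.cons c126 126 6484393984 y126 z126 (.cons c127 127 151552 y127 z127 .nil)))))) (.cons 28 722804994 .nil (.cons 29 689250583 .nil (.cons 30 722804897 (.cons c122 122 151552 y122 z122 (.cons c142 142 151552 y142 z142 (.cons c143 143 151552 y143 z143 (.cons c144 144 0 y144 z144 (.cons c145 145 0 y145 z145 (.cons c146 146 1286 y146 z146 .nil)))))) (.cons 31 689250486 (.cons c122 122 151552 y122 z122 (.cons c123 123 0 y123 z123 (.cons c124 124 0 y124 z124 (.cons c142 142 151552 y142 z142 (.cons c143 143 151552 y143 z143 (.cons c147 147 15208579072 y147 z147 (.cons c148 148 15208579072 y148 z148 (.cons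 c149 149 15208579072 y149 z149 (.cons c150 150 15208579072 y150 z150 (.cons c144 144 0 y144 z144 (.cons c151 151 1613244585 y151 z151 (.cons c152 152 1613244585 y152 z152 (.cons c145 145 0 y145 z145 (.cons c153 153 1613244585 y153 z153 (.cons c154 154 1613244585 y154 z154 (.cons c146 146 1286 y146 z146 (.cons c155 155 0 y155 z155 (.cons c156 156 0 y156 z156 (.cons c125 125 151552 y125 z125 (.cons c126 126 6484393984 y126 z126 (.cons c157 157 268587008 y157 z157 (.cons c158 158 268587008 y158 z158 (.cons c159 159 6484393984 y159 z159 (.cons c160 160 6484393984 y160 z160 (.cons c127 127 151552 y127 z127 (.cons c161 161 268587008 y161 z161 (.cons c162 162 268587008 y162 z162 (.cons c163 163 5244182 y163 z163 (.cons c164 164 0 y164 z164 (.cons c165 165 5244182 y165 z165 (.cons c166 166 0 y166 z166 (.cons c167 167 1286 y167 z167 (.cons c168 168 1075838984 y168 z168 (.cons c169 169 5244182 y169 z169 (.cons c170 170 5244182 y170 z170 (.cons c171 171 1286 y171 z171 .nil))))))))))))))))))))))))))))))))))))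 (.cons 48 621195554 .nil (.cons 49 587641143 .nil (.cons 50 621195457 .nil (.cons 51 587641046 .nil (.cons 52 621192450 .nil (.cons 53 587638039 .nil (.cons 54 621192353 (.cons c242 242 151552 y242 z242 (.cons c243 243 151552 y243 z243 (.cons c244 244 151552 y244 z244 (.cons c122 122 151552 y122 z122 (.cons c245 245 151552 y245 z245 (.cons c246 246 151552 y246 z246 .nil)))))) (.cons 55 587637942 (.cons c242 242 151552 y242 z242 (.cons c243 243 151552 y243 z243 (.cons c244 244 151552 y244 z244 (.cons c122 122 151552 y122 z122 (.cons c123 123 151552 y123 z123 (.cons c245 245 151552 y245 z245 (.cons c246 246 151552 y246 z246 (.cons c247 247 151552 y247 z247 (.cons c125 125 151552 y125 z125 (.cons c248 248 151552 y248 z248 (.cons c126 126 6484393984 y126 z126 .nil))))))))))) (.cons 60 621093122 .nil (.cons 61 587538711 .nil (.cons 62 621093025 (.cons c122 122 151552 y122 z122 (.cons c142 142 151552 y142 z142 (.cons c143 143 151552 y143 z143 (.cons c144 144 0 y144 z144 (.cons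 c145 145 0 y145 z145 (.cons c146 146 1286 y146 z146 .nil)))))) (.cons 63 587538614 (.cons c122 122 151552 y122 z122 (.cons c123 123 151552 y123 z123 (.cons c142 142 151552 y142 z142 (.cons c143 143 151552 y143 z143 (.cons c147 147 15208579072 y147 z147 (.cons c149 149 15208579072 y149 z149 (.cons c247 247 151552 y247 z247 (.cons c282 282 15208579072 y282 z282 (.cons c283 283 15208579072 y283 z283 (.cons c144 144 0 y144 z144 (.cons c151 151 1613244585 y151 z151 (.cons c145 145 0 y145 z145 (.cons c153 153 1613244585 y153 z153 (.cons c146 146 1286 y146 z146 (.cons c155 155 0 y155 z155 (.cons c284 284 1613244585 y284 z284 (.cons c285 285 0 y285 z285 (.cons c125 125 151552 y125 z125 (.cons c248 248 151552 y248 z248 (.cons c126 126 6484393984 y126 z126 (.cons c157 157 268587008 y157 z157 (.cons c158 158 268587008 y158 z158 (.cons c286 286 268587008 y286 z286 (.cons c159 159 6484393984 y159 z159 (.cons c160 160 6484393984 y160 z160 (.cons c163 163 5244182 y163 z163 (.cons c287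 287 5244182 y287 z287 (.cons c164 164 0 y164 z164 (.cons c165 165 5244182 y165 z165 (.cons c288 288 5244182 y288 z288 (.cons c166 166 0 y166 z166 (.cons c167 167 1286 y167 z167 (.cons c289 289 1286 y289 z289 (.cons c168 168 1075838984 y168 z168 .nil)))))))))))))))))))))))))))))))))) .nil))))))))))))))))))))))))))))))))))))

theorem a22 : chkA TCf 726085922 E22 = true := by decide +kernel

theorem b22 : chkB row E22 = true := by decide +kernel

theorem d22 : chkC E22 = true := by decide +kernel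

/-- windows 0:2 2:0 2:1 3:2 5:0 5:1 -/
def E24 : Es :=
  (.cons 0 726082818 (.cons c10 10 1 y10 z10 (.cons c11 11 18 y11 z11 (.cons c12 12 68 y12 z12 (.cons c13 13 424 y13 z13 (.cons c51 51 18 y51 z51 (.cons c52 52 424 y52 z52 (.cons c40 40 68 y40 z40 (.cons c41 41 424 y41 z41 (.cons c60 60 424 y60 z60 (.cons c16 16 33554944 y16 z16 (.cons c17 17 201335808 y17 z17 (.cons c18 18 2048 y18 z18 (.cons c19 19 20480 y19 z19 (.cons c53 53 201335808 y53 z53 (.cons c54 54 20480 y54 z54 (.cons c20 20 1073774592 y20 z20 (.cons c21 21 65536 y21 z21 (.cons c22 22 6443106304 y22 z22 (.cons c23 23 1310720 y23 z23 (.cons c42 42 6443106304 y42 z42 (.cons c43 43 1310720 y43 z43 (.cons c28 28 43220205568 y28 z28 (.cons c29 29 541065216 y29 z29 (.cons c30 30 17188257792 y30 z30 (.cons c31 31 16777216 y31 z31 (.cons c44 44 33554944 y44 z44 (.cons c45 45 201335808 y45 z45 (.cons c61 61 201335808 y61 z61 (.cons c46 46 43220205568 y46 z46 (.cons c47 47 541065216 y47 z47 (.cons c55 55 1073774592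 y55 z55 (.cons c56 56 6443106304 y56 z56 (.cons c62 62 6443106304 y62 z62 (.cons c58 58 43220205568 y58 z58 (.cons c59 59 17188257792 y59 z59 (.cons c63 63 43220205568 y63 z63 .nil)))))))))))))))))))))))))))))))))))) (.cons 1 692528407 .nil (.cons 2 726082721 (.cons c10 10 1 y10 z10 (.cons c11 11 18 y11 z11 (.cons c51 51 18 y51 z51 (.cons c20 20 1073774592 y20 z20 (.cons c21 21 65536 y21 z21 (.cons c55 55 1073774592 y55 z55 .nil)))))) (.cons 3 692528310 .nil (.cons 6 726079617 .nil (.cons 7 692525206 .nil (.cons 8 725983490 .nil (.cons 9 692429079 (.cons c64 64 43220205568 y64 z64 (.cons c65 65 6443106304 y65 z65 (.cons c66 66 201335808 y66 z66 (.cons c67 67 424 y67 z67 .nil)))) (.cons 10 725983393 .nil (.cons 11 692428982 .nil (.cons 14 725980289 .nil (.cons 15 692425878 .nil (.cons 16 722904322 (.cons c10 10 1 y10 z10 (.cons c12 12 68 y12 z12 (.cons c40 40 68 y40 z40 (.cons c16 16 33554944 y16 z16 (.cons c18 18 2048 y18 z18 (.cons c44 44 33554944 y44 z44 .nil)))))) (.cons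 17 689349911 .nil (.cons 18 722904225 (.cons c10 10 1 y10 z10 (.cons c120 120 201335808 y120 z120 (.cons c121 121 7516880965 y121 z121 (.cons c122 122 201335808 y122 z122 .nil)))) (.cons 19 689349814 (.cons c122 122 201335808 y122 z122 (.cons c123 123 0 y123 z123 (.cons c124 124 0 y124 z124 (.cons c125 125 201335808 y125 z125 (.cons c126 126 43220205568 y126 z126 (.cons c127 127 201335808 y127 z127 .nil)))))) (.cons 22 722901121 (.cons c135 135 201335808 y135 z135 (.cons c136 136 201335808 y136 z136 (.cons c137 137 201335808 y137 z137 (.cons c122 122 201335808 y122 z122 (.cons c138 138 201335808 y138 z138 (.cons c139 139 201335808 y139 z139 .nil)))))) (.cons 23 689346710 (.cons c122 122 201335808 y122 z122 (.cons c123 123 0 y123 z123 (.cons c124 124 0 y124 z124 (.cons c125 125 201335808 y125 z125 (.cons c126 126 43220205568 y126 z126 (.cons c127 127 201335808 y127 z127 .nil)))))) (.cons 24 722804994 .nil (.cons 25 689250583 .nil (.cons 26 722804897 (.cons c122 122 201335808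 y122 z122 (.cons c142 142 201335808 y142 z142 (.cons c143 143 201335808 y143 z143 (.cons c144 144 0 y144 z144 (.cons c145 145 0 y145 z145 (.cons c146 146 424 y146 z146 .nil)))))) (.cons 27 689250486 (.cons c122 122 201335808 y122 z122 (.cons c123 123 0 y123 z123 (.cons c124 124 0 y124 z124 (.cons c142 142 201335808 y142 z142 (.cons c143 143 201335808 y143 z143 (.cons c147 147 60408465408 y147 z147 (.cons c148 148 60408465408 y148 z148 (.cons c149 149 60408465408 y149 z149 (.cons c150 150 60408465408 y150 z150 (.cons c144 144 0 y144 z144 (.cons c151 151 7516880965 y151 z151 (.cons c152 152 7516880965 y152 z152 (.cons c145 145 0 y145 z145 (.cons c153 153 7516880965 y153 z153 (.cons c154 154 7516880965 y154 z154 (.cons c146 146 424 y146 z146 (.cons c155 155 0 y155 z155 (.cons c156 156 0 y156 z156 (.cons c125 125 201335808 y125 z125 (.cons c126 126 43220205568 y126 z126 (.cons c157 157 218113024 y157 z157 (.cons c158 158 218113024 y158 z158 (.cons c159 159 43220205568 y159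 z159 (.cons c160 160 43220205568 y160 z160 (.cons c127 127 201335808 y127 z127 (.cons c161 161 218113024 y161 z161 (.cons c162 162 218113024 y162 z162 (.cons c163 163 1376680 y163 z163 (.cons c164 164 0 y164 z164 (.cons c165 165 1376680 y165 z165 (.cons c166 166 0 y166 z166 (.cons c167 167 424 y167 z167 (.cons c168 168 6443106304 y168 z168 (.cons c169 169 1376680 y169 z169 (.cons c170 170 1376680 y170 z170 (.cons c171 171 424 y171 z171 .nil)))))))))))))))))))))))))))))))))))) (.cons 30 722801793 (.cons c135 135 201335808 y135 z135 (.cons c136 136 201335808 y136 z136 (.cons c137 137 201335808 y137 z137 (.cons c122 122 201335808 y122 z122 (.cons c143 143 201335808 y143 z143 (.cons c138 138 201335808 y138 z138 (.cons c139 139 201335808 y139 z139 (.cons c172 172 201335808 y172 z172 (.cons c145 145 201335808 y145 z145 (.cons c173 173 201335808 y173 z173 (.cons c146 146 424 y146 z146 .nil))))))))))) (.cons 31 689247382 (.cons c122 122 201335808 y122 z122 (.cons c123 123 0 y123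 z123 (.cons c124 124 0 y124 z124 (.cons c143 143 201335808 y143 z143 (.cons c149 149 60408465408 y149 z149 (.cons c150 150 60408465408 y150 z150 (.cons c172 172 201335808 y172 z172 (.cons c174 174 60408465408 y174 z174 (.cons c175 175 60408465408 y175 z175 (.cons c145 145 201335808 y145 z145 (.cons c173 173 201335808 y173 z173 (.cons c153 153 7516880965 y153 z153 (.cons c176 176 7516880965 y176 z176 (.cons c154 154 7516880965 y154 z154 (.cons c146 146 424 y146 z146 (.cons c155 155 0 y155 z155 (.cons c156 156 0 y156 z156 (.cons c125 125 201335808 y125 z125 (.cons c126 126 43220205568 y126 z126 (.cons c158 158 218113024 y158 z158 (.cons c160 160 43220205568 y160 z160 (.cons c177 177 218113024 y177 z177 (.cons c178 178 43220205568 y178 z178 (.cons c127 127 201335808 y127 z127 (.cons c162 162 218113024 y162 z162 (.cons c165 165 1376680 y165 z165 (.cons c179 179 1376680 y179 z179 (.cons c166 166 0 y166 z166 (.cons c180 180 0 y180 z180 (.cons c167 167 424 y167 z167 (.cons c168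 168 6443106304 y168 z168 (.cons c170 170 1376680 y170 z170 (.cons c181 181 1376680 y181 z181 (.cons c171 171 424 y171 z171 .nil)))))))))))))))))))))))))))))))))) (.cons 48 621192450 .nil (.cons 49 587638039 .nil (.cons 50 621192353 (.cons c242 242 201335808 y242 z242 (.cons c243 243 201335808 y243 z243 (.cons c244 244 201335808 y244 z244 (.cons c122 122 201335808 y122 z122 (.cons c245 245 201335808 y245 z245 (.cons c246 246 201335808 y246 z246 .nil)))))) (.cons 51 587637942 (.cons c242 242 201335808 y242 z242 (.cons c243 243 201335808 y243 z243 (.cons c244 244 201335808 y244 z244 (.cons c122 122 201335808 y122 z122 (.cons c123 123 201335808 y123 z123 (.cons c245 245 201335808 y245 z245 (.cons c246 246 201335808 y246 z246 (.cons c247 247 201335808 y247 z247 (.cons c125 125 201335808 y125 z125 (.cons c248 248 201335808 y248 z248 (.cons c126 126 43220205568 y126 z126 .nil))))))))))) (.cons 54 621189249 (.cons c249 249 1331624 y249 z249 (.cons c250 250 1331624 y250 z250 (.cons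 c251 251 20904 y251 z251 (.cons c252 252 1331624 y252 z252 (.cons c253 253 1331624 y253 z253 (.cons c254 254 1331624 y254 z254 (.cons c255 255 1331624 y255 z255 (.cons c256 256 20904 y256 z256 (.cons c257 257 16777216 y257 z257 (.cons c242 242 201335808 y242 z242 (.cons c258 258 201335808 y258 z258 (.cons c259 259 201335808 y259 z259 (.cons c243 243 201335808 y243 z243 (.cons c244 244 201335808 y244 z244 (.cons c260 260 201335808 y260 z260 (.cons c261 261 201335808 y261 z261 (.cons c262 262 43761270784 y262 z262 (.cons c263 263 43761270784 y263 z263 (.cons c135 135 201335808 y135 z135 (.cons c264 264 7550503511 y264 z264 (.cons c265 265 7550503511 y265 z265 (.cons c136 136 201335808 y136 z136 (.cons c266 266 7550503511 y266 z266 (.cons c267 267 7550503511 y267 z267 (.cons c137 137 201335808 y137 z137 (.cons c268 268 60949528576 y268 z268 (.cons c269 269 60949528576 y269 z269 (.cons c122 122 201335808 y122 z122 (.cons c245 245 201335808 y245 z245 (.cons c246 246 201335808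 y246 z246 (.cons c138 138 201335808 y138 z138 (.cons c139 139 201335808 y139 z139 (.cons c270 270 60949528576 y270 z270 (.cons c271 271 60949528576 y271 z271 (.cons c272 272 60949528576 y272 z272 (.cons c273 273 60949528576 y273 z273 .nil)))))))))))))))))))))))))))))))))))) (.cons 55 587634838 (.cons c242 242 201335808 y242 z242 (.cons c243 243 201335808 y243 z243 (.cons c244 244 201335808 y244 z244 (.cons c122 122 201335808 y122 z122 (.cons c123 123 201335808 y123 z123 (.cons c245 245 201335808 y245 z245 (.cons c246 246 201335808 y246 z246 (.cons c247 247 201335808 y247 z247 (.cons c125 125 201335808 y125 z125 (.cons c248 248 201335808 y248 z248 (.cons c126 126 43220205568 y126 z126 .nil))))))))))) (.cons 56 621093122 .nil (.cons 57 587538711 .nil (.cons 58 621093025 (.cons c122 122 201335808 y122 z122 (.cons c142 142 201335808 y142 z142 (.cons c143 143 201335808 y143 z143 (.cons c144 144 0 y144 z144 (.cons c145 145 0 y145 z145 (.cons c146 146 424 y146 z146 .nil))))))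 (.cons 59 587538614 (.cons c122 122 201335808 y122 z122 (.cons c123 123 201335808 y123 z123 (.cons c142 142 201335808 y142 z142 (.cons c143 143 201335808 y143 z143 (.cons c147 147 60408465408 y147 z147 (.cons c149 149 60408465408 y149 z149 (.cons c247 247 201335808 y247 z247 (.cons c282 282 60408465408 y282 z282 (.cons c283 283 60408465408 y283 z283 (.cons c144 144 0 y144 z144 (.cons c151 151 7516880965 y151 z151 (.cons c145 145 0 y145 z145 (.cons c153 153 7516880965 y153 z153 (.cons c146 146 424 y146 z146 (.cons c155 155 0 y155 z155 (.cons c284 284 7516880965 y284 z284 (.cons c285 285 0 y285 z285 (.cons c125 125 201335808 y125 z125 (.cons c248 248 201335808 y248 z248 (.cons c126 126 43220205568 y126 z126 (.cons c157 157 218113024 y157 z157 (.cons c158 158 218113024 y158 z158 (.cons c286 286 218113024 y286 z286 (.cons c159 159 43220205568 y159 z159 (.cons c160 160 43220205568 y160 z160 (.cons c163 163 1376680 y163 z163 (.cons c287 287 1376680 y287 z287 (.cons c164 164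 0 y164 z164 (.cons c165 165 1376680 y165 z165 (.cons c288 288 1376680 y288 z288 (.cons c166 166 0 y166 z166 (.cons c167 167 424 y167 z167 (.cons c289 289 424 y289 z289 (.cons c168 168 6443106304 y168 z168 .nil)))))))))))))))))))))))))))))))))) (.cons 62 621089921 (.cons c135 135 201335808 y135 z135 (.cons c136 136 201335808 y136 z136 (.cons c137 137 201335808 y137 z137 (.cons c122 122 201335808 y122 z122 (.cons c143 143 201335808 y143 z143 (.cons c138 138 201335808 y138 z138 (.cons c139 139 201335808 y139 z139 (.cons c172 172 201335808 y172 z172 (.cons c145 145 201335808 y145 z145 (.cons c173 173 201335808 y173 z173 (.cons c146 146 424 y146 z146 .nil))))))))))) (.cons 63 587535510 (.cons c122 122 201335808 y122 z122 (.cons c123 123 201335808 y123 z123 (.cons c143 143 201335808 y143 z143 (.cons c149 149 60949530624 y149 z149 (.cons c247 247 201335808 y247 z247 (.cons c283 283 60949530624 y283 z283 (.cons c172 172 201335808 y172 z172 (.cons c174 174 60949530624 y174 z174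 (.cons c290 290 60949530624 y290 z290 (.cons c145 145 201335808 y145 z145 (.cons c173 173 201335808 y173 z173 (.cons c153 153 7550503511 y153 z153 (.cons c176 176 7550503511 y176 z176 (.cons c146 146 424 y146 z146 (.cons c155 155 0 y155 z155 (.cons c284 284 7550503511 y284 z284 (.cons c291 291 7550503511 y291 z291 (.cons c285 285 0 y285 z285 (.cons c125 125 201335808 y125 z125 (.cons c248 248 201335808 y248 z248 (.cons c126 126 43220205568 y126 z126 (.cons c158 158 218113024 y158 z158 (.cons c286 286 218113024 y286 z286 (.cons c160 160 43220205568 y160 z160 (.cons c177 177 218113024 y177 z177 (.cons c292 292 218113024 y292 z292 (.cons c178 178 43220205568 y178 z178 (.cons c165 165 1397160 y165 z165 (.cons c179 179 1397160 y179 z179 (.cons c288 288 1397160 y288 z288 (.cons c293 293 1397160 y293 z293 (.cons c166 166 0 y166 z166 (.cons c180 180 0 y180 z180 (.cons c167 167 424 y167 z167 (.cons c289 289 424 y289 z289 (.cons c168 168 6443106304 y168 z168 .nil))))))))))))))))))))))))))))))))))))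 .nil))))))))))))))))))))))))))))))))))))

theorem a24 : chkA TCf 726082818 E24 = true := by decide +kernel

theorem b24 : chkB row E24 = true := by decide +kernel

theorem d24 : chkC E24 = true := by decide +kernel

end Vale.Agent.P032.H532.T
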