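import Vale.Agent.P032.H532.TTab

/-!
# Tile windows: closures 2 .. 57
-/

set_option maxRecDepth 20000

namespace Vale.Agent.P032.H532.T

/-- windows 0:1 1:2 3:1 4:1 5:1 0:0 -/
def E2 : Es :=
  (.cons 0 22590657 (.cons c68 68 89 y68 z68 (.cons c10 10 2 y10 z10 (.cons c11 11 1796 y11 z11 (.cons c69 69 89 y69 z69 (.cons c20 20 89 y20 z20 (.cons c21 21 32 y21 z21 (.cons c24 24 89 y24 z24 (.cons c70 70 128 y70 z70 (.cons c71 71 1796 y71 z71 (.cons c72 72 1796 y72 z72 (.cons c35 35 1796 y35 z35 .nil))))))))))) (.cons 2 22590560 .nil (.cons 4 22587553 (.cons c68 68 89 y68 z68 (.cons c10 10 2 y10 z10 (.cons c11 11 1796 y11 z11 (.cons c69 69 89 y69 z69 (.cons c20 20 89 y20 z20 (.cons c21 21 32 y21 z21 (.cons c24 24 89 y24 z24 (.cons c70 70 128 y70 z70 (.cons c71 71 1796 y71 z71 (.cons c72 72 1796 y72 z72 (.cons c35 35 1796 y35 z35 .nil))))))))))) (.cons 6 22587456 .nil (.cons 8 22491329 (.cons c68 68 89 y68 z68 (.cons c10 10 2 y10 z10 (.cons c11 11 1796 y11 z11 (.cons c69 69 89 y69 z69 (.cons c20 20 89 y20 z20 (.cons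 c21 21 32 y21 z21 (.cons c24 24 89 y24 z24 (.cons c70 70 128 y70 z70 (.cons c71 71 1796 y71 z71 (.cons c72 72 1796 y72 z72 (.cons c35 35 1796 y35 z35 .nil))))))))))) (.cons 10 22491232 .nil (.cons 12 22488225 (.cons c68 68 89 y68 z68 (.cons c10 10 2 y10 z10 (.cons c11 11 1796 y11 z11 (.cons c69 69 89 y69 z69 (.cons c20 20 89 y20 z20 (.cons c21 21 32 y21 z21 (.cons c24 24 89 y24 z24 (.cons c70 70 128 y70 z70 (.cons c71 71 1796 y71 z71 (.cons c72 72 1796 y72 z72 (.cons c35 35 1796 y35 z35 .nil))))))))))) (.cons 14 22488128 .nil (.cons 16 19412161 (.cons c78 78 0 y78 z78 (.cons c73 73 0 y73 z73 (.cons c79 79 0 y79 z79 (.cons c80 80 0 y80 z80 (.cons c74 74 0 y74 z74 (.cons c75 75 0 y75 z75 (.cons c81 81 0 y81 z81 (.cons c82 82 0 y82 z82 (.cons c83 83 0 y83 z83 (.cons c84 84 0 y84 z84 (.cons c85 85 0 y85 z85 (.cons c86 86 0 y86 z86 (.cons c87 87 0 y87 z87 (.cons c88 88 0 y88 z88 (.cons c89 89 0 y89 z89 (.cons c90 90 0 y90 z90 (.cons c91 91 0 y91 z91 (.cons c68 68 89 y68 z68 (.cons c92 92 0 y92 z92 (.cons c93 93 0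 y93 z93 (.cons c10 10 2 y10 z10 (.cons c76 76 0 y76 z76 (.cons c77 77 0 y77 z77 (.cons c69 69 89 y69 z69 (.cons c94 94 0 y94 z94 (.cons c95 95 0 y95 z95 (.cons c70 70 128 y70 z70 (.cons c96 96 0 y96 z96 (.cons c97 97 0 y97 z97 (.cons c71 71 1796 y71 z71 (.cons c72 72 1796 y72 z72 (.cons c98 98 0 y98 z98 (.cons c99 99 0 y99 z99 (.cons c100 100 0 y100 z100 .nil)))))))))))))))))))))))))))))))))) (.cons 18 19412064 .nil (.cons 20 19409057 (.cons c68 68 89 y68 z68 (.cons c10 10 2 y10 z10 (.cons c69 69 89 y69 z69 (.cons c70 70 128 y70 z70 (.cons c71 71 1796 y71 z71 (.cons c72 72 1796 y72 z72 .nil)))))) (.cons 22 19408960 .nil (.cons 24 19312833 (.cons c79 79 0 y79 z79 (.cons c103 103 0 y103 z103 (.cons c80 80 0 y80 z80 (.cons c74 74 0 y74 z74 (.cons c101 101 0 y101 z101 (.cons c75 75 0 y75 z75 (.cons c81 81 0 y81 z81 (.cons c104 104 0 y104 z104 (.cons c82 82 0 y82 z82 (.cons c86 86 0 y86 z86 (.cons c105 105 0 y105 z105 (.cons c87 87 0 y87 z87 (.cons c88 88 0 y88 z88 (.cons c89 89 0 y89 z89 (.cons c106 106 0 y106 z106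 (.cons c107 107 0 y107 z107 (.cons c90 90 0 y90 z90 (.cons c91 91 0 y91 z91 (.cons c68 68 89 y68 z68 (.cons c93 93 0 y93 z93 (.cons c10 10 2 y10 z10 (.cons c77 77 0 y77 z77 (.cons c108 108 0 y108 z108 (.cons c102 102 0 y102 z102 (.cons c69 69 89 y69 z69 (.cons c95 95 0 y95 z95 (.cons c109 109 0 y109 z109 (.cons c70 70 128 y70 z70 (.cons c97 97 0 y97 z97 (.cons c71 71 1796 y71 z71 (.cons c72 72 1796 y72 z72 (.cons c99 99 0 y99 z99 (.cons c100 100 0 y100 z100 (.cons c110 110 0 y110 z110 (.cons c111 111 0 y111 z111 (.cons c112 112 0 y112 z112 .nil)))))))))))))))))))))))))))))))))))) (.cons 26 19312736 .nil (.cons 28 19309729 (.cons c68 68 89 y68 z68 (.cons c10 10 2 y10 z10 (.cons c69 69 89 y69 z69 (.cons c70 70 128 y70 z70 (.cons c71 71 1796 y71 z71 (.cons c72 72 1796 y72 z72 .nil)))))) (.cons 30 19309632 .nil (.cons 32 726185153 (.cons c10 10 2 y10 z10 (.cons c11 11 1796 y11 z11 (.cons c113 113 1796 y113 z113 (.cons c114 114 1796 y114 z114 (.cons c51 51 1796 y51 z51 (.cons c20 20 89 y20 z20 (.cons c21 21 32 y21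 z21 (.cons c115 115 89 y115 z115 (.cons c116 116 89 y116 z116 (.cons c117 117 0 y117 z117 (.cons c55 55 89 y55 z55 .nil))))))))))) (.cons 33 692630742 .nil (.cons 34 726185056 .nil (.cons 35 692630645 .nil (.cons 36 726182049 (.cons c10 10 2 y10 z10 (.cons c11 11 1796 y11 z11 (.cons c113 113 1796 y113 z113 (.cons c114 114 1796 y114 z114 (.cons c51 51 1796 y51 z51 (.cons c20 20 89 y20 z20 (.cons c21 21 32 y21 z21 (.cons c115 115 89 y115 z115 (.cons c116 116 89 y116 z116 (.cons c117 117 0 y117 z117 (.cons c55 55 89 y55 z55 .nil))))))))))) (.cons 37 692627638 .nil (.cons 38 726181952 .nil (.cons 39 692627541 .nil (.cons 40 726085825 (.cons c10 10 2 y10 z10 (.cons c11 11 1796 y11 z11 (.cons c51 51 1796 y51 z51 (.cons c20 20 89 y20 z20 (.cons c21 21 32 y21 z21 (.cons c55 55 89 y55 z55 .nil)))))) (.cons 41 692531414 .nil (.cons 42 726085728 .nil (.cons 43 692531317 .nil (.cons 44 726082721 (.cons c10 10 2 y10 z10 (.cons c11 11 1796 y11 z11 (.cons c51 51 1796 y51 z51 (.cons c20 20 89 y20 z20 (.cons c21 21 32 y21 z21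 (.cons c55 55 89 y55 z55 .nil)))))) (.cons 45 692528310 .nil (.cons 46 726082624 .nil (.cons 47 692528213 .nil (.cons 48 723006657 (.cons c73 73 89 y73 z73 (.cons c74 74 89 y74 z74 (.cons c75 75 0 y75 z75 (.cons c10 10 2 y10 z10 (.cons c114 114 1796 y114 z114 (.cons c76 76 1796 y76 z76 (.cons c77 77 1796 y77 z77 (.cons c118 118 1796 y118 z118 (.cons c116 116 89 y116 z116 (.cons c119 119 89 y119 z119 (.cons c117 117 0 y117 z117 .nil))))))))))) (.cons 49 689452246 .nil (.cons 50 723006560 .nil (.cons 51 689452149 .nil (.cons 52 723003553 (.cons c10 10 2 y10 z10 (.cons c114 114 1796 y114 z114 (.cons c118 118 1796 y118 z118 (.cons c116 116 89 y116 z116 (.cons c119 119 89 y119 z119 (.cons c117 117 0 y117 z117 .nil)))))) (.cons 53 689449142 .nil (.cons 54 723003456 .nil (.cons 55 689449045 .nil (.cons 56 722907329 (.cons c74 74 89 y74 z74 (.cons c101 101 89 y101 z101 (.cons c75 75 0 y75 z75 (.cons c10 10 2 y10 z10 (.cons c77 77 1796 y77 z77 (.cons c102 102 1796 y102 z102 .nil)))))) (.cons 57 689352918 .nil (.cons 58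 722907232 .nil (.cons 59 689352821 .nil (.cons 60 722904225 (.cons c10 10 2 y10 z10 (.cons c120 120 0 y120 z120 (.cons c121 121 91 y121 z121 (.cons c122 122 0 y122 z122 .nil)))) (.cons 61 689349814 (.cons c122 122 0 y122 z122 (.cons c123 123 0 y123 z123 (.cons c124 124 0 y124 z124 (.cons c125 125 0 y125 z125 (.cons c126 126 0 y126 z126 (.cons c127 127 0 y127 z127 .nil)))))) (.cons 62 722904128 (.cons c128 128 0 y128 z128 (.cons c129 129 0 y129 z129 (.cons c130 130 0 y130 z130 (.cons c131 131 0 y131 z131 (.cons c132 132 0 y132 z132 (.cons c122 122 0 y122 z122 .nil)))))) (.cons 63 689349717 (.cons c130 130 0 y130 z130 (.cons c131 131 0 y131 z131 (.cons c132 132 0 y132 z132 (.cons c122 122 0 y122 z122 (.cons c133 133 0 y133 z133 (.cons c123 123 0 y123 z123 (.cons c124 124 0 y124 z124 (.cons c134 134 0 y134 z134 (.cons c125 125 0 y125 z125 (.cons c126 126 0 y126 z126 (.cons c127 127 0 y127 z127 .nil))))))))))) .nil))))))))))))))))))))))))))))))))))))))))))))))))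

theorem a2 : chkA TCf 22590657 E2 = true := by decide +kernel

theorem b2 : chkB row E2 = true := by decide +kernel

theorem d2 : chkC E2 = true := by decide +kernel

/-- windows 0:1 1:2 3:1 4:0 4:2 0:0 -/
def E10 : Es :=
  (.cons 0 19412161 (.cons c78 78 69 y78 z78 (.cons c73 73 18 y73 z73 (.cons c79 79 69 y79 z79 (.cons c80 80 136 y80 z80 (.cons c74 74 18 y74 z74 (.cons c75 75 32 y75 z75 (.cons c81 81 69 y81 z81 (.cons c82 82 136 y82 z82 (.cons c83 83 2304 y83 z83 (.cons c84 84 26112 y84 z84 (.cons c85 85 26112 y85 z85 (.cons c86 86 2304 y86 z86 (.cons c87 87 4096 y87 z87 (.cons c88 88 26112 y88 z88 (.cons c89 89 26112 y89 z89 (.cons c90 90 98304 y90 z90 (.cons c91 91 98304 y91 z91 (.cons c68 68 8519680 y68 z68 (.cons c92 92 51118080 y92 z92 (.cons c93 93 51118080 y93 z93 (.cons c10 10 1048576 y10 z10 (.cons c76 76 6291456 y76 z76 (.cons c77 77 6291456 y77 z77 (.cons c69 69 8519680 y69 z69 (.cons c94 94 51118080 y94 z94 (.cons c95 95 51118080 y95 z95 (.cons c70 70 67108864 y70 z70 (.cons c96 96 402653184 y96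 z96 (.cons c97 97 402653184 y97 z97 (.cons c71 71 1610612736 y71 z71 (.cons c72 72 1610612736 y72 z72 (.cons c98 98 15032385536 y98 z98 (.cons c99 99 15032385536 y99 z99 (.cons c100 100 15032385536 y100 z100 .nil)))))))))))))))))))))))))))))))))) (.cons 2 19412064 .nil (.cons 4 19409057 (.cons c68 68 8519680 y68 z68 (.cons c10 10 1048576 y10 z10 (.cons c69 69 8519680 y69 z69 (.cons c70 70 67108864 y70 z70 (.cons c71 71 1610612736 y71 z71 (.cons c72 72 1610612736 y72 z72 .nil)))))) (.cons 6 19408960 .nil (.cons 8 19312833 (.cons c79 79 69 y79 z79 (.cons c103 103 69 y103 z103 (.cons c80 80 136 y80 z80 (.cons c74 74 18 y74 z74 (.cons c101 101 18 y101 z101 (.cons c75 75 32 y75 z75 (.cons c81 81 69 y81 z81 (.cons c104 104 69 y104 z104 (.cons c82 82 136 y82 z82 (.cons c86 86 2304 y86 z86 (.cons c105 105 2304 y105 z105 (.cons c87 87 4096 y87 z87 (.cons c88 88 26112 y88 z88 (.cons c89 89 26112 y89 z89 (.cons c106 106 26112 y106 z106 (.cons c107 107 26112 y107 z107 (.cons c90 90 98304 y90 z90 (.cons c91 91 98304 y91 z91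 (.cons c68 68 8519680 y68 z68 (.cons c93 93 51118080 y93 z93 (.cons c10 10 1048576 y10 z10 (.cons c77 77 6291456 y77 z77 (.cons c108 108 51118080 y108 z108 (.cons c102 102 6291456 y102 z102 (.cons c69 69 8519680 y69 z69 (.cons c95 95 51118080 y95 z95 (.cons c109 109 51118080 y109 z109 (.cons c70 70 67108864 y70 z70 (.cons c97 97 402653184 y97 z97 (.cons c71 71 1610612736 y71 z71 (.cons c72 72 1610612736 y72 z72 (.cons c99 99 15032385536 y99 z99 (.cons c100 100 15032385536 y100 z100 (.cons c110 110 402653184 y110 z110 (.cons c111 111 15032385536 y111 z111 (.cons c112 112 15032385536 y112 z112 .nil)))))))))))))))))))))))))))))))))))) (.cons 10 19312736 .nil (.cons 12 19309729 (.cons c68 68 8519680 y68 z68 (.cons c10 10 1048576 y10 z10 (.cons c69 69 8519680 y69 z69 (.cons c70 70 67108864 y70 z70 (.cons c71 71 1610612736 y71 z71 (.cons c72 72 1610612736 y72 z72 .nil)))))) (.cons 14 19309632 .nil (.cons 24 16134337 .nil (.cons 26 16134240 (.cons c187 187 69 y187 z187 (.cons c188 188 26112 y188 z188 (.cons c189 189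 51118080 y189 z189 (.cons c190 190 15032385536 y190 z190 .nil)))) (.cons 28 16131233 .nil (.cons 30 16131136 .nil (.cons 32 723006657 (.cons c73 73 18 y73 z73 (.cons c74 74 18 y74 z74 (.cons c75 75 32 y75 z75 (.cons c10 10 1048576 y10 z10 (.cons c114 114 6291456 y114 z114 (.cons c76 76 6291456 y76 z76 (.cons c77 77 6291456 y77 z77 (.cons c118 118 6291456 y118 z118 (.cons c116 116 18 y116 z116 (.cons c119 119 18 y119 z119 (.cons c117 117 0 y117 z117 .nil))))))))))) (.cons 33 689452246 .nil (.cons 34 723006560 .nil (.cons 35 689452149 .nil (.cons 36 723003553 (.cons c10 10 1048576 y10 z10 (.cons c114 114 6291456 y114 z114 (.cons c118 118 6291456 y118 z118 (.cons c116 116 18 y116 z116 (.cons c119 119 18 y119 z119 (.cons c117 117 0 y117 z117 .nil)))))) (.cons 37 689449142 .nil (.cons 38 723003456 .nil (.cons 39 689449045 .nil (.cons 40 722907329 (.cons c74 74 18 y74 z74 (.cons c101 101 18 y101 z101 (.cons c75 75 32 y75 z75 (.cons c10 10 1048576 y10 z10 (.cons c77 77 6291456 y77 z77 (.cons c102 102 6291456 y102 z102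 .nil)))))) (.cons 41 689352918 .nil (.cons 42 722907232 .nil (.cons 43 689352821 .nil (.cons 44 722904225 (.cons c10 10 1048576 y10 z10 (.cons c120 120 15032385536 y120 z120 (.cons c121 121 9568343 y121 z121 (.cons c122 122 15032385536 y122 z122 .nil)))) (.cons 45 689349814 (.cons c122 122 15032385536 y122 z122 (.cons c123 123 15032385536 y123 z123 (.cons c124 124 15032385536 y124 z124 (.cons c125 125 15032385536 y125 z125 (.cons c126 126 15032385536 y126 z126 (.cons c127 127 15032385536 y127 z127 .nil)))))) (.cons 46 722904128 (.cons c128 128 0 y128 z128 (.cons c129 129 15032385536 y129 z129 (.cons c130 130 51118080 y130 z130 (.cons c131 131 15032385536 y131 z131 (.cons c132 132 0 y132 z132 (.cons c122 122 15032385536 y122 z122 .nil)))))) (.cons 47 689349717 (.cons c130 130 51118080 y130 z130 (.cons c131 131 15032385536 y131 z131 (.cons c132 132 15032385536 y132 z132 (.cons c122 122 15032385536 y122 z122 (.cons c133 133 15032385536 y133 z133 (.cons c123 123 15032385536 y123 z123 (.cons c124 124 15032385536 y124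 z124 (.cons c134 134 15032385536 y134 z134 (.cons c125 125 15032385536 y125 z125 (.cons c126 126 15032385536 y126 z126 (.cons c127 127 15032385536 y127 z127 .nil))))))))))) (.cons 56 719728833 .nil (.cons 57 686174422 .nil (.cons 58 719728736 .nil (.cons 59 686174325 .nil (.cons 60 719725729 (.cons c182 182 15032385536 y182 z182 (.cons c122 122 15032385536 y122 z122 (.cons c183 183 15032385536 y183 z183 (.cons c184 184 0 y184 z184 (.cons c185 185 0 y185 z185 (.cons c186 186 26112 y186 z186 .nil)))))) (.cons 61 686171318 (.cons c182 182 15032385536 y182 z182 (.cons c122 122 15032385536 y122 z122 (.cons c183 183 15032385536 y183 z183 (.cons c184 184 0 y184 z184 (.cons c185 185 0 y185 z185 (.cons c186 186 26112 y186 z186 .nil)))))) (.cons 62 719725632 (.cons c191 191 51118248 y191 z191 (.cons c192 192 15032389632 y192 z192 (.cons c193 193 51118080 y193 z193 (.cons c194 194 15032389632 y194 z194 (.cons c195 195 51118248 y195 z195 (.cons c182 182 15032385536 y182 z182 (.cons c128 128 0 y128 z128 (.cons c196 196 51118248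 y196 z196 (.cons c197 197 15859799 y197 z197 (.cons c198 198 15859799 y198 z198 (.cons c199 199 0 y199 z199 (.cons c129 129 15032385536 y129 z129 (.cons c200 200 15032389632 y200 z200 (.cons c130 130 51118080 y130 z130 (.cons c131 131 15032385536 y131 z131 (.cons c201 201 51118080 y201 z201 (.cons c202 202 15032389632 y202 z202 (.cons c203 203 67137280 y203 z203 (.cons c204 204 67137280 y204 z204 (.cons c205 205 26112 y205 z205 (.cons c206 206 0 y206 z206 (.cons c207 207 67137280 y207 z207 (.cons c208 208 0 y208 z208 (.cons c209 209 67137280 y209 z209 (.cons c210 210 69 y210 z210 (.cons c211 211 26112 y211 z211 (.cons c132 132 0 y132 z132 (.cons c122 122 15032385536 y122 z122 (.cons c212 212 51118248 y212 z212 (.cons c183 183 15032385536 y183 z183 (.cons c213 213 15859799 y213 z213 (.cons c184 184 0 y184 z184 (.cons c214 214 15859799 y214 z214 (.cons c185 185 0 y185 z185 (.cons c215 215 0 y215 z215 (.cons c186 186 26112 y186 z186 .nil)))))))))))))))))))))))))))))))))))) (.cons 63 686171221 (.cons c193 193 51118080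 y193 z193 (.cons c194 194 15032389632 y194 z194 (.cons c195 195 51118248 y195 z195 (.cons c182 182 15032385536 y182 z182 (.cons c216 216 51118248 y216 z216 (.cons c130 130 51118080 y130 z130 (.cons c131 131 15032385536 y131 z131 (.cons c201 201 51118080 y201 z201 (.cons c202 202 15032389632 y202 z202 (.cons c206 206 0 y206 z206 (.cons c207 207 67137280 y207 z207 (.cons c208 208 0 y208 z208 (.cons c209 209 67137280 y209 z209 (.cons c210 210 69 y210 z210 (.cons c211 211 26112 y211 z211 (.cons c132 132 15032385536 y132 z132 (.cons c122 122 15032385536 y122 z122 (.cons c212 212 51118248 y212 z212 (.cons c183 183 15032385536 y183 z183 (.cons c133 133 15032385536 y133 z133 (.cons c217 217 51118248 y217 z217 (.cons c213 213 15859799 y213 z213 (.cons c184 184 0 y184 z184 (.cons c214 214 15859799 y214 z214 (.cons c185 185 0 y185 z185 (.cons c215 215 0 y215 z215 (.cons c186 186 26112 y186 z186 (.cons c218 218 15859799 y218 z218 (.cons c219 219 0 y219 z219 (.cons c134 134 15032385536 y134 z134 (.cons c220 220 15032389632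 y220 z220 (.cons c221 221 67137280 y221 z221 (.cons c222 222 67137280 y222 z222 (.cons c223 223 26112 y223 z223 .nil)))))))))))))))))))))))))))))))))) .nil))))))))))))))))))))))))))))))))))))

theorem a10 : chkA TCf 19412161 E10 = true := by decide +kernel

theorem b10 : chkB row E10 = true := by decide +kernel

theorem d10 : chkC E10 = true := by decide +kernel

/-- windows 0:1 1:2 3:0 3:1 4:2 0:0 -/
def E14 : Es :=
  (.cons 0 19312833 (.cons c79 79 195 y79 z79 (.cons c103 103 195 y103 z103 (.cons c80 80 260 y80 z80 (.cons c74 74 24 y74 z74 (.cons c101 101 24 y101 z101 (.cons c75 75 32 y75 z75 (.cons c81 81 195 y81 z81 (.cons c104 104 195 y104 z104 (.cons c82 82 260 y82 z82 (.cons c86 86 1536 y86 z86 (.cons c105 105 1536 y105 z105 (.cons c87 87 2048 y87 z87 (.cons c88 88 61440 y88 z88 (.cons c89 89 61440 y89 z89 (.cons c106 106 61440 y106 z106 (.cons c107 107 61440 y107 z107 (.cons c90 90 196608 y90 z90 (.cons c91 91 196608 y91 z91 (.cons c68 68 17039360 y68 z68 (.cons c93 93 105381888 y93 z93 (.cons c10 10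 1048576 y10 z10 (.cons c77 77 10485760 y77 z77 (.cons c108 108 105381888 y108 z108 (.cons c102 102 10485760 y102 z102 (.cons c69 69 17039360 y69 z69 (.cons c95 95 105381888 y95 z95 (.cons c109 109 105381888 y109 z109 (.cons c70 70 134217728 y70 z70 (.cons c97 97 8858370048 y97 z97 (.cons c71 71 1610612736 y71 z71 (.cons c72 72 1610612736 y72 z72 (.cons c99 99 57982058496 y99 z99 (.cons c100 100 57982058496 y100 z100 (.cons c110 110 8858370048 y110 z110 (.cons c111 111 57982058496 y111 z111 (.cons c112 112 57982058496 y112 z112 .nil)))))))))))))))))))))))))))))))))))) (.cons 2 19312736 .nil (.cons 4 19309729 (.cons c68 68 17039360 y68 z68 (.cons c10 10 1048576 y10 z10 (.cons c69 69 17039360 y69 z69 (.cons c70 70 134217728 y70 z70 (.cons c71 71 1610612736 y71 z71 (.cons c72 72 1610612736 y72 z72 .nil)))))) (.cons 6 19309632 .nil (.cons 12 19210401 .nil (.cons 14 19210304 .nil (.cons 16 16134337 .nil (.cons 18 16134240 (.cons c187 187 195 y187 z187 (.cons c188 188 61440 y188 z188 (.cons c189 189 105381888 y189 z189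 (.cons c190 190 57982058496 y190 z190 .nil)))) (.cons 20 16131233 .nil (.cons 22 16131136 .nil (.cons 28 16031905 .nil (.cons 30 16031808 .nil (.cons 32 722907329 (.cons c74 74 24 y74 z74 (.cons c101 101 24 y101 z101 (.cons c75 75 32 y75 z75 (.cons c10 10 1048576 y10 z10 (.cons c77 77 10485760 y77 z77 (.cons c102 102 10485760 y102 z102 .nil)))))) (.cons 33 689352918 .nil (.cons 34 722907232 .nil (.cons 35 689352821 .nil (.cons 36 722904225 (.cons c10 10 1048576 y10 z10 (.cons c120 120 57982058496 y120 z120 (.cons c121 121 18088155 y121 z121 (.cons c122 122 57982058496 y122 z122 .nil)))) (.cons 37 689349814 (.cons c122 122 57982058496 y122 z122 (.cons c123 123 57982058496 y123 z123 (.cons c124 124 57982058496 y124 z124 (.cons c125 125 57982058496 y125 z125 (.cons c126 126 57982058496 y126 z126 (.cons c127 127 57982058496 y127 z127 .nil)))))) (.cons 38 722904128 (.cons c128 128 0 y128 z128 (.cons c129 129 57982058496 y129 z129 (.cons c130 130 105381888 y130 z130 (.cons c131 131 57982058496 y131 z131 (.cons c132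 132 0 y132 z132 (.cons c122 122 57982058496 y122 z122 .nil)))))) (.cons 39 689349717 (.cons c130 130 105381888 y130 z130 (.cons c131 131 57982058496 y131 z131 (.cons c132 132 57982058496 y132 z132 (.cons c122 122 57982058496 y122 z122 (.cons c133 133 57982058496 y133 z133 (.cons c123 123 57982058496 y123 z123 (.cons c124 124 57982058496 y124 z124 (.cons c134 134 57982058496 y134 z134 (.cons c125 125 57982058496 y125 z125 (.cons c126 126 57982058496 y126 z126 (.cons c127 127 57982058496 y127 z127 .nil))))))))))) (.cons 44 722804897 (.cons c122 122 57982058496 y122 z122 (.cons c142 142 57982058496 y142 z142 (.cons c143 143 57982058496 y143 z143 (.cons c144 144 57982058496 y144 z144 (.cons c145 145 57982058496 y145 z145 (.cons c146 146 57982058496 y146 z146 .nil)))))) (.cons 45 689250486 (.cons c122 122 57982058496 y122 z122 (.cons c123 123 57982058496 y123 z123 (.cons c124 124 57982058496 y124 z124 (.cons c142 142 57982058496 y142 z142 (.cons c143 143 57982058496 y143 z143 (.cons c147 147 8963752196 y147 z147 (.cons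 c148 148 8963752196 y148 z148 (.cons c149 149 8963752196 y149 z149 (.cons c150 150 8963752196 y150 z150 (.cons c144 144 57982058496 y144 z144 (.cons c151 151 1773404411 y151 z151 (.cons c152 152 1773404411 y152 z152 (.cons c145 145 57982058496 y145 z145 (.cons c153 153 1773404411 y153 z153 (.cons c154 154 1773404411 y154 z154 (.cons c146 146 57982058496 y146 z146 (.cons c155 155 8963752196 y155 z155 (.cons c156 156 8963752196 y156 z156 (.cons c125 125 57982058496 y125 z125 (.cons c126 126 57982058496 y126 z126 (.cons c157 157 57982058496 y157 z157 (.cons c158 158 57982058496 y158 z158 (.cons c159 159 8963751936 y159 z159 (.cons c160 160 8963751936 y160 z160 (.cons c127 127 57982058496 y127 z127 (.cons c161 161 57982058496 y161 z161 (.cons c162 162 57982058496 y162 z162 (.cons c163 163 259584 y163 z163 (.cons c164 164 259584 y164 z164 (.cons c165 165 259584 y165 z165 (.cons c166 166 259584 y166 z166 (.cons c167 167 258048 y167 z167 (.cons c168 168 2048 y168 z168 (.cons c169 169 259584 y169 z169 (.cons c170 170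 259584 y170 z170 (.cons c171 171 258048 y171 z171 .nil)))))))))))))))))))))))))))))))))))) (.cons 46 722804800 (.cons c128 128 0 y128 z128 (.cons c129 129 57982058496 y129 z129 (.cons c130 130 105381888 y130 z130 (.cons c131 131 57982058496 y131 z131 (.cons c132 132 0 y132 z132 (.cons c122 122 57982058496 y122 z122 .nil)))))) (.cons 47 689250389 (.cons c130 130 105381888 y130 z130 (.cons c131 131 57982058496 y131 z131 (.cons c132 132 57982058496 y132 z132 (.cons c122 122 57982058496 y122 z122 (.cons c133 133 57982058496 y133 z133 (.cons c123 123 57982058496 y123 z123 (.cons c124 124 57982058496 y124 z124 (.cons c134 134 57982058496 y134 z134 (.cons c125 125 57982058496 y125 z125 (.cons c126 126 57982058496 y126 z126 (.cons c127 127 57982058496 y127 z127 .nil))))))))))) (.cons 48 719728833 .nil (.cons 49 686174422 .nil (.cons 50 719728736 .nil (.cons 51 686174325 .nil (.cons 52 719725729 (.cons c182 182 57982058496 y182 z182 (.cons c122 122 57982058496 y122 z122 (.cons c183 183 57982058496 y183 z183 (.cons c184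 184 0 y184 z184 (.cons c185 185 0 y185 z185 (.cons c186 186 61440 y186 z186 .nil)))))) (.cons 53 686171318 (.cons c182 182 57982058496 y182 z182 (.cons c122 122 57982058496 y122 z122 (.cons c183 183 57982058496 y183 z183 (.cons c184 184 0 y184 z184 (.cons c185 185 0 y185 z185 (.cons c186 186 61440 y186 z186 .nil)))))) (.cons 54 719725632 (.cons c191 191 105382180 y191 z191 (.cons c192 192 57982060544 y192 z192 (.cons c193 193 105381888 y193 z193 (.cons c194 194 57982060544 y194 z194 (.cons c195 195 105382180 y195 z195 (.cons c182 182 57982058496 y182 z182 (.cons c128 128 0 y128 z128 (.cons c196 196 105382180 y196 z196 (.cons c197 197 18088155 y197 z197 (.cons c198 198 18088155 y198 z198 (.cons c199 199 0 y199 z199 (.cons c129 129 57982058496 y129 z129 (.cons c200 200 57982060544 y200 z200 (.cons c130 130 105381888 y130 z130 (.cons c131 131 57982058496 y131 z131 (.cons c201 201 105381888 y201 z201 (.cons c202 202 57982060544 y202 z202 (.cons c203 203 134280704 y203 z203 (.cons c204 204 134280704 y204 z204 (.cons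 c205 205 61440 y205 z205 (.cons c206 206 0 y206 z206 (.cons c207 207 134280704 y207 z207 (.cons c208 208 0 y208 z208 (.cons c209 209 134280704 y209 z209 (.cons c210 210 195 y210 z210 (.cons c211 211 61440 y211 z211 (.cons c132 132 0 y132 z132 (.cons c122 122 57982058496 y122 z122 (.cons c212 212 105382180 y212 z212 (.cons c183 183 57982058496 y183 z183 (.cons c213 213 18088155 y213 z213 (.cons c184 184 0 y184 z184 (.cons c214 214 18088155 y214 z214 (.cons c185 185 0 y185 z185 (.cons c215 215 0 y215 z215 (.cons c186 186 61440 y186 z186 .nil)))))))))))))))))))))))))))))))))))) (.cons 55 686171221 (.cons c193 193 105381888 y193 z193 (.cons c194 194 57982060544 y194 z194 (.cons c195 195 105382180 y195 z195 (.cons c182 182 57982058496 y182 z182 (.cons c216 216 105382180 y216 z216 (.cons c130 130 105381888 y130 z130 (.cons c131 131 57982058496 y131 z131 (.cons c201 201 105381888 y201 z201 (.cons c202 202 57982060544 y202 z202 (.cons c206 206 0 y206 z206 (.cons c207 207 134280704 y207 z207 (.cons c208 208 0 y208 z208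 (.cons c209 209 134280704 y209 z209 (.cons c210 210 195 y210 z210 (.cons c211 211 61440 y211 z211 (.cons c132 132 57982058496 y132 z132 (.cons c122 122 57982058496 y122 z122 (.cons c212 212 105382180 y212 z212 (.cons c183 183 57982058496 y183 z183 (.cons c133 133 57982058496 y133 z133 (.cons c217 217 105382180 y217 z217 (.cons c213 213 18088155 y213 z213 (.cons c184 184 0 y184 z184 (.cons c214 214 18088155 y214 z214 (.cons c185 185 0 y185 z185 (.cons c215 215 0 y215 z215 (.cons c186 186 61440 y186 z186 (.cons c218 218 18088155 y218 z218 (.cons c219 219 0 y219 z219 (.cons c134 134 57982058496 y134 z134 (.cons c220 220 57982060544 y220 z220 (.cons c221 221 134280704 y221 z221 (.cons c222 222 134280704 y222 z222 (.cons c223 223 61440 y223 z223 .nil)))))))))))))))))))))))))))))))))) (.cons 60 719626401 (.cons c122 122 57982058496 y122 z122 (.cons c183 183 57982058496 y183 z183 (.cons c142 142 57982058496 y142 z142 (.cons c143 143 57982058496 y143 z143 (.cons c224 224 57982058496 y224 z224 (.cons c185 185 57982058496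 y185 z185 (.cons c186 186 61440 y186 z186 (.cons c144 144 57982058496 y144 z144 (.cons c145 145 57982058496 y145 z145 (.cons c146 146 57982058496 y146 z146 (.cons c225 225 57982058496 y225 z225 .nil))))))))))) (.cons 61 686071990 (.cons c122 122 57982058496 y122 z122 (.cons c183 183 57982058496 y183 z183 (.cons c142 142 57982058496 y142 z142 (.cons c143 143 57982058496 y143 z143 (.cons c224 224 57982058496 y224 z224 (.cons c185 185 57982058496 y185 z185 (.cons c186 186 61440 y186 z186 (.cons c144 144 57982058496 y144 z144 (.cons c145 145 57982058496 y145 z145 (.cons c146 146 57982058496 y146 z146 (.cons c225 225 57982058496 y225 z225 .nil))))))))))) (.cons 62 719626304 (.cons c128 128 0 y128 z128 (.cons c196 196 105382180 y196 z196 (.cons c226 226 105382180 y226 z226 (.cons c198 198 18088155 y198 z198 (.cons c199 199 0 y199 z199 (.cons c129 129 57982058496 y129 z129 (.cons c200 200 57982060544 y200 z200 (.cons c130 130 105381888 y130 z130 (.cons c131 131 57982058496 y131 z131 (.cons c201 201 105381888 y201 z201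 (.cons c202 202 57982060544 y202 z202 (.cons c227 227 105381888 y227 z227 (.cons c228 228 57982060544 y228 z228 (.cons c204 204 134280704 y204 z204 (.cons c205 205 61440 y205 z205 (.cons c208 208 0 y208 z208 (.cons c209 209 134280704 y209 z209 (.cons c210 210 195 y210 z210 (.cons c211 211 61440 y211 z211 (.cons c132 132 0 y132 z132 (.cons c122 122 57982058496 y122 z122 (.cons c212 212 105382180 y212 z212 (.cons c183 183 57982058496 y183 z183 (.cons c229 229 105382180 y229 z229 (.cons c224 224 57982058496 y224 z224 (.cons c214 214 18088155 y214 z214 (.cons c185 185 57982058496 y185 z185 (.cons c215 215 0 y215 z215 (.cons c186 186 61440 y186 z186 (.cons c230 230 134280704 y230 z230 (.cons c231 231 0 y231 z231 (.cons c232 232 134280704 y232 z232 (.cons c233 233 18088155 y233 z233 (.cons c225 225 57982058496 y225 z225 .nil)))))))))))))))))))))))))))))))))) (.cons 63 686071893 (.cons c130 130 105381888 y130 z130 (.cons c131 131 57982058496 y131 z131 (.cons c201 201 105381888 y201 z201 (.cons c202 202 57982060544 y202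 z202 (.cons c227 227 105381888 y227 z227 (.cons c228 228 57982060544 y228 z228 (.cons c208 208 0 y208 z208 (.cons c209 209 134477312 y209 z209 (.cons c210 210 195 y210 z210 (.cons c211 211 61440 y211 z211 (.cons c132 132 57982058496 y132 z132 (.cons c122 122 57982058496 y122 z122 (.cons c212 212 8963752228 y212 z212 (.cons c183 183 57982058496 y183 z183 (.cons c133 133 57982058496 y133 z133 (.cons c217 217 8963752228 y217 z217 (.cons c229 229 8963752228 y229 z229 (.cons c224 224 57982058496 y224 z224 (.cons c234 234 8963752228 y234 z234 (.cons c214 214 1773404411 y214 z214 (.cons c185 185 57982058496 y185 z185 (.cons c215 215 0 y215 z215 (.cons c186 186 61440 y186 z186 (.cons c218 218 1773404411 y218 z218 (.cons c219 219 0 y219 z219 (.cons c231 231 0 y231 z231 (.cons c232 232 134477312 y232 z232 (.cons c233 233 1773404411 y233 z233 (.cons c225 225 57982058496 y225 z225 (.cons c235 235 1773404411 y235 z235 (.cons c134 134 57982058496 y134 z134 (.cons c220 220 57982060544 y220 z220 (.cons c236 236 57982060544 y236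 z236 (.cons c222 222 134477312 y222 z222 (.cons c223 223 61440 y223 z223 (.cons c237 237 134477312 y237 z237 .nil)))))))))))))))))))))))))))))))))))) .nil))))))))))))))))))))))))))))))))))))

theorem a14 : chkA TCf 19312833 E14 = true := by decide +kernel

theorem b14 : chkB row E14 = true := by decide +kernel

theorem d14 : chkC E14 = true := by decide +kernel

/-- windows 0:2 2:0 2:1 3:1 4:2 0:0 -/
def E15 : Es :=
  (.cons 0 19309826 (.cons c10 10 1 y10 z10 (.cons c12 12 6 y12 z12 (.cons c40 40 6 y40 z40 (.cons c16 16 40 y16 z16 (.cons c18 18 16 y18 z18 (.cons c44 44 40 y44 z44 .nil)))))) (.cons 2 19309729 (.cons c68 68 0 y68 z68 (.cons c10 10 1 y10 z10 (.cons c69 69 0 y69 z69 (.cons c70 70 0 y70 z70 (.cons c71 71 0 y71 z71 (.cons c72 72 0 y72 z72 .nil)))))) (.cons 6 19306625 .nil (.cons 8 19210498 .nil (.cons 10 19210401 .nil (.cons 14 19207297 .nil (.cons 16 16131330 .nil (.cons 18 16131233 .nil (.cons 22 16128129 .nil (.cons 24 16032002 .nil (.cons 26 16031905 .nil (.cons 30 16028801 .nil (.cons 32 722904322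 (.cons c10 10 1 y10 z10 (.cons c12 12 6 y12 z12 (.cons c40 40 6 y40 z40 (.cons c16 16 40 y16 z16 (.cons c18 18 16 y18 z18 (.cons c44 44 40 y44 z44 .nil)))))) (.cons 33 689349911 .nil (.cons 34 722904225 (.cons c10 10 1 y10 z10 (.cons c120 120 0 y120 z120 (.cons c121 121 7 y121 z121 (.cons c122 122 0 y122 z122 .nil)))) (.cons 35 689349814 (.cons c122 122 0 y122 z122 (.cons c123 123 0 y123 z123 (.cons c124 124 0 y124 z124 (.cons c125 125 0 y125 z125 (.cons c126 126 0 y126 z126 (.cons c127 127 0 y127 z127 .nil)))))) (.cons 38 722901121 (.cons c135 135 0 y135 z135 (.cons c136 136 0 y136 z136 (.cons c137 137 0 y137 z137 (.cons c122 122 0 y122 z122 (.cons c138 138 0 y138 z138 (.cons c139 139 0 y139 z139 .nil)))))) (.cons 39 689346710 (.cons c122 122 0 y122 z122 (.cons c123 123 0 y123 z123 (.cons c124 124 0 y124 z124 (.cons c125 125 0 y125 z125 (.cons c126 126 0 y126 z126 (.cons c127 127 0 y127 z127 .nil)))))) (.cons 40 722804994 .nil (.cons 41 689250583 .nil (.cons 42 722804897 (.cons c122 122 0 y122 z122 (.cons c142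 142 0 y142 z142 (.cons c143 143 0 y143 z143 (.cons c144 144 0 y144 z144 (.cons c145 145 0 y145 z145 (.cons c146 146 0 y146 z146 .nil)))))) (.cons 43 689250486 (.cons c122 122 0 y122 z122 (.cons c123 123 0 y123 z123 (.cons c124 124 0 y124 z124 (.cons c142 142 0 y142 z142 (.cons c143 143 0 y143 z143 (.cons c147 147 16 y147 z147 (.cons c148 148 16 y148 z148 (.cons c149 149 16 y149 z149 (.cons c150 150 16 y150 z150 (.cons c144 144 0 y144 z144 (.cons c151 151 7 y151 z151 (.cons c152 152 7 y152 z152 (.cons c145 145 0 y145 z145 (.cons c153 153 7 y153 z153 (.cons c154 154 7 y154 z154 (.cons c146 146 0 y146 z146 (.cons c155 155 0 y155 z155 (.cons c156 156 0 y156 z156 (.cons c125 125 0 y125 z125 (.cons c126 126 0 y126 z126 (.cons c157 157 0 y157 z157 (.cons c158 158 0 y158 z158 (.cons c159 159 0 y159 z159 (.cons c160 160 0 y160 z160 (.cons c127 127 0 y127 z127 (.cons c161 161 0 y161 z161 (.cons c162 162 0 y162 z162 (.cons c163 163 0 y163 z163 (.cons c164 164 0 y164 z164 (.cons c165 165 0 y165 z165 (.cons c166 166 0 y166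 z166 (.cons c167 167 0 y167 z167 (.cons c168 168 0 y168 z168 (.cons c169 169 0 y169 z169 (.cons c170 170 0 y170 z170 (.cons c171 171 0 y171 z171 .nil)))))))))))))))))))))))))))))))))))) (.cons 46 722801793 (.cons c135 135 0 y135 z135 (.cons c136 136 0 y136 z136 (.cons c137 137 0 y137 z137 (.cons c122 122 0 y122 z122 (.cons c143 143 0 y143 z143 (.cons c138 138 0 y138 z138 (.cons c139 139 0 y139 z139 (.cons c172 172 0 y172 z172 (.cons c145 145 0 y145 z145 (.cons c173 173 0 y173 z173 (.cons c146 146 0 y146 z146 .nil))))))))))) (.cons 47 689247382 (.cons c122 122 0 y122 z122 (.cons c123 123 0 y123 z123 (.cons c124 124 0 y124 z124 (.cons c143 143 0 y143 z143 (.cons c149 149 16 y149 z149 (.cons c150 150 16 y150 z150 (.cons c172 172 0 y172 z172 (.cons c174 174 16 y174 z174 (.cons c175 175 16 y175 z175 (.cons c145 145 0 y145 z145 (.cons c173 173 0 y173 z173 (.cons c153 153 7 y153 z153 (.cons c176 176 7 y176 z176 (.cons c154 154 7 y154 z154 (.cons c146 146 0 y146 z146 (.cons c155 155 0 y155 z155 (.cons c156 156 0 y156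 z156 (.cons c125 125 0 y125 z125 (.cons c126 126 0 y126 z126 (.cons c158 158 0 y158 z158 (.cons c160 160 0 y160 z160 (.cons c177 177 0 y177 z177 (.cons c178 178 0 y178 z178 (.cons c127 127 0 y127 z127 (.cons c162 162 0 y162 z162 (.cons c165 165 0 y165 z165 (.cons c179 179 0 y179 z179 (.cons c166 166 0 y166 z166 (.cons c180 180 0 y180 z180 (.cons c167 167 0 y167 z167 (.cons c168 168 0 y168 z168 (.cons c170 170 0 y170 z170 (.cons c181 181 0 y181 z181 (.cons c171 171 0 y171 z171 .nil)))))))))))))))))))))))))))))))))) (.cons 48 719725826 .nil (.cons 49 686171415 .nil (.cons 50 719725729 (.cons c182 182 0 y182 z182 (.cons c122 122 0 y122 z122 (.cons c183 183 0 y183 z183 (.cons c184 184 0 y184 z184 (.cons c185 185 0 y185 z185 (.cons c186 186 0 y186 z186 .nil)))))) (.cons 51 686171318 (.cons c182 182 0 y182 z182 (.cons c122 122 0 y122 z122 (.cons c183 183 0 y183 z183 (.cons c184 184 0 y184 z184 (.cons c185 185 0 y185 z185 (.cons c186 186 0 y186 z186 .nil)))))) (.cons 54 719722625 (.cons c135 135 0 y135 z135 (.cons c136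 136 0 y136 z136 (.cons c137 137 0 y137 z137 (.cons c122 122 0 y122 z122 (.cons c138 138 0 y138 z138 (.cons c139 139 0 y139 z139 .nil)))))) (.cons 55 686168214 (.cons c122 122 0 y122 z122 .nil) (.cons 56 719626498 .nil (.cons 57 686072087 .nil (.cons 58 719626401 (.cons c122 122 0 y122 z122 (.cons c183 183 0 y183 z183 (.cons c142 142 0 y142 z142 (.cons c143 143 0 y143 z143 (.cons c224 224 0 y224 z224 (.cons c185 185 0 y185 z185 (.cons c186 186 0 y186 z186 (.cons c144 144 0 y144 z144 (.cons c145 145 0 y145 z145 (.cons c146 146 0 y146 z146 (.cons c225 225 0 y225 z225 .nil))))))))))) (.cons 59 686071990 (.cons c122 122 0 y122 z122 (.cons c183 183 0 y183 z183 (.cons c142 142 0 y142 z142 (.cons c143 143 0 y143 z143 (.cons c224 224 0 y224 z224 (.cons c185 185 0 y185 z185 (.cons c186 186 0 y186 z186 (.cons c144 144 0 y144 z144 (.cons c145 145 0 y145 z145 (.cons c146 146 0 y146 z146 (.cons c225 225 0 y225 z225 .nil))))))))))) (.cons 62 719623297 (.cons c135 135 0 y135 z135 (.cons c136 136 0 y136 z136 (.cons c137 137 0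 y137 z137 (.cons c122 122 0 y122 z122 (.cons c143 143 0 y143 z143 (.cons c138 138 0 y138 z138 (.cons c139 139 0 y139 z139 (.cons c172 172 0 y172 z172 (.cons c145 145 0 y145 z145 (.cons c173 173 0 y173 z173 (.cons c146 146 0 y146 z146 .nil))))))))))) (.cons 63 686068886 (.cons c122 122 0 y122 z122 (.cons c143 143 0 y143 z143 (.cons c172 172 0 y172 z172 (.cons c145 145 0 y145 z145 (.cons c173 173 0 y173 z173 (.cons c146 146 0 y146 z146 .nil)))))) .nil))))))))))))))))))))))))))))))))))))

theorem a15 : chkA TCf 19309826 E15 = true := by decide +kernel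

theorem b15 : chkB row E15 = true := by decide +kernel

theorem d15 : chkC E15 = true := by decide +kernel

/-- windows 0:0 0:2 2:0 2:2 4:1 5:1 -/
def E38 : Es :=
  (.cons 0 722804800 (.cons c128 128 17 y128 z128 (.cons c129 129 10 y129 z129 (.cons c130 130 4 y130 z130 (.cons c131 131 10 y131 z131 (.cons c132 132 17 y132 z132 (.cons c122 122 32 y122 z122 .nil)))))) (.cons 1 689250389 (.cons c130 130 4 y130 z130 (.cons c131 131 10 y131 z131 (.cons c132 132 17 y132 z132 (.cons c122 122 32 y122 z122 (.cons c133 133 17 y133 z133 (.cons c123 123 17 y123 z123 (.cons c124 124 17 y124 z124 (.cons c134 134 10 y134 z134 (.cons c125 125 10 y125 z125 (.cons c126 126 0 y126 z126 (.cons c127 127 10 y127 z127 .nil))))))))))) (.cons 3 689251060 .nil (.cons 4 722801696 (.cons c140 140 17 y140 z140 (.cons c128 128 17 y128 z128 (.cons c136 136 17 y136 z136 (.cons c137 137 0 y137 z137 (.cons c141 141 10 y141 z141 (.cons c129 129 10 y129 z129 (.cons c130 130 4 y130 z130 (.cons c131 131 10 y131 z131 (.cons c132 132 17 y132 z132 (.cons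 c122 122 32 y122 z122 (.cons c139 139 10 y139 z139 .nil))))))))))) (.cons 5 689247285 (.cons c130 130 4 y130 z130 (.cons c131 131 10 y131 z131 (.cons c132 132 17 y132 z132 (.cons c122 122 32 y122 z122 (.cons c133 133 17 y133 z133 (.cons c123 123 17 y123 z123 (.cons c124 124 17 y124 z124 (.cons c134 134 10 y134 z134 (.cons c125 125 10 y125 z125 (.cons c126 126 0 y126 z126 (.cons c127 127 10 y127 z127 .nil))))))))))) (.cons 7 689247956 .nil (.cons 12 722702368 .nil (.cons 13 689147957 .nil (.cons 15 689148628 .nil (.cons 16 719626304 (.cons c128 128 17 y128 z128 (.cons c196 196 0 y196 z196 (.cons c226 226 0 y226 z226 (.cons c198 198 0 y198 z198 (.cons c199 199 0 y199 z199 (.cons c129 129 10 y129 z129 (.cons c200 200 0 y200 z200 (.cons c130 130 4 y130 z130 (.cons c131 131 10 y131 z131 (.cons c201 201 0 y201 z201 (.cons c202 202 0 y202 z202 (.cons c227 227 0 y227 z227 (.cons c228 228 0 y228 z228 (.cons c204 204 0 y204 z204 (.cons c205 205 0 y205 z205 (.cons c208 208 0 y208 z208 (.cons c209 209 0 y209 z209 (.cons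 c210 210 0 y210 z210 (.cons c211 211 0 y211 z211 (.cons c132 132 17 y132 z132 (.cons c122 122 32 y122 z122 (.cons c212 212 0 y212 z212 (.cons c183 183 0 y183 z183 (.cons c229 229 0 y229 z229 (.cons c224 224 0 y224 z224 (.cons c214 214 0 y214 z214 (.cons c185 185 0 y185 z185 (.cons c215 215 0 y215 z215 (.cons c186 186 0 y186 z186 (.cons c230 230 0 y230 z230 (.cons c231 231 0 y231 z231 (.cons c232 232 0 y232 z232 (.cons c233 233 0 y233 z233 (.cons c225 225 0 y225 z225 .nil)))))))))))))))))))))))))))))))))) (.cons 17 686071893 (.cons c130 130 4 y130 z130 (.cons c131 131 10 y131 z131 (.cons c201 201 0 y201 z201 (.cons c202 202 0 y202 z202 (.cons c227 227 0 y227 z227 (.cons c228 228 0 y228 z228 (.cons c208 208 0 y208 z208 (.cons c209 209 0 y209 z209 (.cons c210 210 0 y210 z210 (.cons c211 211 0 y211 z211 (.cons c132 132 17 y132 z132 (.cons c122 122 32 y122 z122 (.cons c212 212 0 y212 z212 (.cons c183 183 0 y183 z183 (.cons c133 133 17 y133 z133 (.cons c217 217 0 y217 z217 (.cons c229 229 0 y229 z229 (.cons c224 224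 0 y224 z224 (.cons c234 234 0 y234 z234 (.cons c214 214 0 y214 z214 (.cons c185 185 0 y185 z185 (.cons c215 215 0 y215 z215 (.cons c186 186 0 y186 z186 (.cons c218 218 0 y218 z218 (.cons c219 219 0 y219 z219 (.cons c231 231 0 y231 z231 (.cons c232 232 0 y232 z232 (.cons c233 233 0 y233 z233 (.cons c225 225 0 y225 z225 (.cons c235 235 0 y235 z235 (.cons c134 134 10 y134 z134 (.cons c220 220 0 y220 z220 (.cons c236 236 0 y236 z236 (.cons c222 222 0 y222 z222 (.cons c223 223 0 y223 z223 (.cons c237 237 0 y237 z237 .nil)))))))))))))))))))))))))))))))))))) (.cons 19 686072564 .nil (.cons 20 719623200 (.cons c140 140 17 y140 z140 (.cons c128 128 17 y128 z128 (.cons c136 136 17 y136 z136 (.cons c137 137 0 y137 z137 (.cons c141 141 10 y141 z141 (.cons c129 129 10 y129 z129 (.cons c130 130 4 y130 z130 (.cons c131 131 10 y131 z131 (.cons c132 132 17 y132 z132 (.cons c122 122 32 y122 z122 (.cons c139 139 10 y139 z139 .nil))))))))))) (.cons 21 686068789 (.cons c130 130 4 y130 z130 (.cons c131 131 10 y131 z131 (.cons c132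 132 17 y132 z132 (.cons c122 122 32 y122 z122 (.cons c133 133 17 y133 z133 (.cons c134 134 10 y134 z134 .nil)))))) (.cons 23 686069460 .nil (.cons 28 719523872 .nil (.cons 29 685969461 .nil (.cons 31 685970132 .nil (.cons 32 621092928 (.cons c122 122 32 y122 z122 .nil) (.cons 33 587538517 (.cons c122 122 32 y122 z122 (.cons c123 123 17 y123 z123 (.cons c247 247 17 y247 z247 (.cons c125 125 10 y125 z125 (.cons c248 248 10 y248 z248 (.cons c126 126 0 y126 z126 .nil)))))) (.cons 35 587539188 .nil (.cons 36 621089824 (.cons c140 140 17 y140 z140 (.cons c136 136 17 y136 z136 (.cons c137 137 0 y137 z137 (.cons c141 141 10 y141 z141 (.cons c122 122 32 y122 z122 (.cons c139 139 10 y139 z139 .nil)))))) (.cons 37 587535413 (.cons c122 122 32 y122 z122 (.cons c123 123 17 y123 z123 (.cons c247 247 17 y247 z247 (.cons c125 125 10 y125 z125 (.cons c248 248 10 y248 z248 (.cons c126 126 0 y126 z126 .nil)))))) (.cons 39 587536084 .nil (.cons 44 620990496 .nil (.cons 45 587436085 .nil (.cons 47 587436756 .nil (.cons 48 617914432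 (.cons c122 122 32 y122 z122 (.cons c183 183 0 y183 z183 (.cons c224 224 0 y224 z224 (.cons c185 185 0 y185 z185 (.cons c186 186 0 y186 z186 (.cons c225 225 0 y225 z225 .nil)))))) (.cons 49 584360021 (.cons c122 122 32 y122 z122 (.cons c183 183 0 y183 z183 (.cons c224 224 0 y224 z224 (.cons c185 185 0 y185 z185 (.cons c186 186 0 y186 z186 (.cons c225 225 0 y225 z225 .nil)))))) (.cons 51 584360692 .nil (.cons 52 617911328 (.cons c140 140 17 y140 z140 (.cons c136 136 17 y136 z136 (.cons c137 137 0 y137 z137 (.cons c141 141 10 y141 z141 (.cons c122 122 32 y122 z122 (.cons c139 139 10 y139 z139 .nil)))))) (.cons 53 584356917 (.cons c122 122 32 y122 z122 (.cons c308 308 0 y308 z308 (.cons c309 309 42 y309 z309 (.cons c310 310 0 y310 z310 .nil)))) (.cons 55 584357588 (.cons c311 311 0 y311 z311 (.cons c312 312 0 y312 z312 (.cons c313 313 0 y313 z313 (.cons c314 314 0 y314 z314 (.cons c315 315 0 y315 z315 (.cons c310 310 0 y310 z310 .nil)))))) (.cons 60 617812000 .nil (.cons 61 584257589 (.cons c323 323 0 y323 z323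 (.cons c324 324 0 y324 z324 (.cons c325 325 0 y325 z325 (.cons c310 310 0 y310 z310 (.cons c326 326 0 y326 z326 (.cons c327 327 0 y327 z327 .nil)))))) (.cons 63 584258260 (.cons c311 311 0 y311 z311 (.cons c312 312 0 y312 z312 (.cons c313 313 0 y313 z313 (.cons c314 314 0 y314 z314 (.cons c315 315 0 y315 z315 (.cons c310 310 0 y310 z310 .nil)))))) .nil))))))))))))))))))))))))))))))))))))

theorem a38 : chkA TCf 722804800 E38 = true := by decide +kernel

theorem b38 : chkB row E38 = true := by decide +kernel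

theorem d38 : chkC E38 = true := by decide +kernel

/-- windows 0:0 0:1 1:1 2:2 4:1 5:1 -/
def E40 : Es :=
  (.cons 0 722801696 (.cons c140 140 263 y140 z140 (.cons c128 128 263 y128 z128 (.cons c136 136 263 y136 z136 (.cons c137 137 8 y137 z137 (.cons c141 141 1200 y141 z141 (.cons c129 129 1200 y129 z129 (.cons c130 130 64 y130 z130 (.cons c131 131 1200 y131 z131 (.cons c132 132 263 y132 z132 (.cons c122 122 512 y122 z122 (.cons c139 139 1200 y139 z139 .nil))))))))))) (.cons 1 689247285 (.cons c130 130 64 y130 z130 (.cons c131 131 1200 y131 z131 (.cons c132 132 263 y132 z132 (.cons c122 122 512 y122 z122 (.cons c133 133 263 y133 z133 (.cons c123 123 263 y123 z123 (.cons c124 124 263 y124 z124 (.cons c134 134 1200 y134 z134 (.cons c125 125 1200 y125 z125 (.cons c126 126 0 y126 z126 (.cons c127 127 1200 y127 z127 .nil))))))))))) (.cons 3 689247956 .nil (.cons 4 722798592 .nil (.cons 5 689244181 .nil (.cons 7 689244852 .nil (.cons 8 722702368 .nil (.cons 9 689147957 .nil (.cons 11 689148628 .nil (.cons 12 722699264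 .nil (.cons 13 689144853 .nil (.cons 15 689145524 .nil (.cons 16 719623200 (.cons c140 140 263 y140 z140 (.cons c128 128 263 y128 z128 (.cons c136 136 263 y136 z136 (.cons c137 137 8 y137 z137 (.cons c141 141 1200 y141 z141 (.cons c129 129 1200 y129 z129 (.cons c130 130 64 y130 z130 (.cons c131 131 1200 y131 z131 (.cons c132 132 263 y132 z132 (.cons c122 122 512 y122 z122 (.cons c139 139 1200 y139 z139 .nil))))))))))) (.cons 17 686068789 (.cons c130 130 64 y130 z130 (.cons c131 131 1200 y131 z131 (.cons c132 132 263 y132 z132 (.cons c122 122 512 y122 z122 (.cons c133 133 263 y133 z133 (.cons c134 134 1200 y134 z134 .nil)))))) (.cons 19 686069460 .nil (.cons 20 719620096 .nil (.cons 21 686065685 .nil (.cons 23 686066356 .nil (.cons 24 719523872 .nil (.cons 25 685969461 .nil (.cons 27 685970132 .nil (.cons 28 719520768 .nil (.cons 29 685966357 .nil (.cons 31 685967028 .nil (.cons 32 621089824 (.cons c140 140 263 y140 z140 (.cons c136 136 263 y136 z136 (.cons c137 137 8 y137 z137 (.cons c141 141 1200 y141 z141 (.cons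 c122 122 512 y122 z122 (.cons c139 139 1200 y139 z139 .nil)))))) (.cons 33 587535413 (.cons c122 122 512 y122 z122 (.cons c123 123 263 y123 z123 (.cons c247 247 263 y247 z247 (.cons c125 125 1200 y125 z125 (.cons c248 248 1200 y248 z248 (.cons c126 126 0 y126 z126 .nil)))))) (.cons 35 587536084 .nil (.cons 36 621086720 .nil (.cons 37 587532309 .nil (.cons 39 587532980 .nil (.cons 40 620990496 .nil (.cons 41 587436085 .nil (.cons 43 587436756 .nil (.cons 44 620987392 .nil (.cons 45 587432981 .nil (.cons 47 587433652 .nil (.cons 48 617911328 (.cons c140 140 263 y140 z140 (.cons c136 136 263 y136 z136 (.cons c137 137 8 y137 z137 (.cons c141 141 1200 y141 z141 (.cons c122 122 512 y122 z122 (.cons c139 139 1200 y139 z139 .nil)))))) (.cons 49 584356917 (.cons c122 122 512 y122 z122 (.cons c308 308 0 y308 z308 (.cons c309 309 1712 y309 z309 (.cons c310 310 0 y310 z310 .nil)))) (.cons 51 584357588 (.cons c311 311 0 y311 z311 (.cons c312 312 0 y312 z312 (.cons c313 313 0 y313 z313 (.cons c314 314 0 y314 z314 (.cons c315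 315 0 y315 z315 (.cons c310 310 0 y310 z310 .nil)))))) (.cons 52 617908224 .nil (.cons 53 584353813 (.cons c316 316 0 y316 z316 (.cons c310 310 0 y310 z310 (.cons c317 317 0 y317 z317 (.cons c318 318 0 y318 z318 (.cons c319 319 0 y319 z319 (.cons c320 320 0 y320 z320 .nil)))))) (.cons 55 584354484 (.cons c321 321 0 y321 z321 (.cons c311 311 0 y311 z311 (.cons c312 312 0 y312 z312 (.cons c313 313 0 y313 z313 (.cons c322 322 0 y322 z322 (.cons c314 314 0 y314 z314 (.cons c315 315 0 y315 z315 (.cons c310 310 0 y310 z310 (.cons c317 317 0 y317 z317 (.cons c319 319 0 y319 z319 (.cons c320 320 0 y320 z320 .nil))))))))))) (.cons 56 617812000 .nil (.cons 57 584257589 (.cons c323 323 0 y323 z323 (.cons c324 324 0 y324 z324 (.cons c325 325 0 y325 z325 (.cons c310 310 0 y310 z310 (.cons c326 326 0 y326 z326 (.cons c327 327 0 y327 z327 .nil)))))) (.cons 59 584258260 (.cons c311 311 0 y311 z311 (.cons c312 312 0 y312 z312 (.cons c313 313 0 y313 z313 (.cons c314 314 0 y314 z314 (.cons c315 315 0 y315 z315 (.cons c310 310 0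 y310 z310 .nil)))))) (.cons 60 617808896 .nil (.cons 61 584254485 (.cons c324 324 0 y324 z324 (.cons c316 316 0 y316 z316 (.cons c328 328 0 y328 z328 (.cons c325 325 0 y325 z325 (.cons c310 310 0 y310 z310 (.cons c317 317 0 y317 z317 (.cons c327 327 0 y327 z327 (.cons c318 318 0 y318 z318 (.cons c319 319 0 y319 z319 (.cons c320 320 0 y320 z320 (.cons c329 329 0 y329 z329 .nil))))))))))) (.cons 63 584255156 (.cons c321 321 0 y321 z321 (.cons c311 311 0 y311 z311 (.cons c312 312 0 y312 z312 (.cons c313 313 0 y313 z313 (.cons c322 322 0 y322 z322 (.cons c314 314 0 y314 z314 (.cons c315 315 0 y315 z315 (.cons c310 310 0 y310 z310 (.cons c317 317 0 y317 z317 (.cons c319 319 0 y319 z319 (.cons c320 320 0 y320 z320 .nil))))))))))) .nil))))))))))))))))))))))))))))))))))))))))))))))))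

theorem a40 : chkA TCf 722801696 E40 = true := by decide +kernel

theorem b40 : chkB row E40 = true := by decide +kernel

theorem d40 : chkC E40 = true := by decide +kernel

/-- windows 0:0 0:1 1:1 2:1 3:2 5:1 -/
def E48 : Es :=
  (.cons 0 719623200 (.cons c140 140 263 y140 z140 (.cons c128 128 263 y128 z128 (.cons c136 136 263 y136 z136 (.cons c137 137 8 y137 z137 (.cons c141 141 1200 y141 z141 (.cons c129 129 1200 y129 z129 (.cons c130 130 64 y130 z130 (.cons c131 131 1200 y131 z131 (.cons c132 132 263 y132 z132 (.cons c122 122 512 y122 z122 (.cons c139 139 1200 y139 z139 .nil))))))))))) (.cons 1 686068789 (.cons c130 130 64 y130 z130 (.cons c131 131 1200 y131 z131 (.cons c132 132 263 y132 z132 (.cons c122 122 512 y122 z122 (.cons c133 133 263 y133 z133 (.cons c134 134 1200 y134 z134 .nil)))))) (.cons 3 686069460 .nil (.cons 4 719620096 .nil (.cons 5 686065685 .nil (.cons 7 686066356 .nil (.cons 8 719523872 .nil (.cons 9 685969461 .nil (.cons 11 685970132 .nil (.cons 12 719520768 .nil (.cons 13 685966357 .nil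 (.cons 15 685967028 .nil (.cons 16 716444704 .nil (.cons 17 682890293 .nil (.cons 19 682890964 .nil (.cons 20 716441600 .nil (.cons 21 682887189 .nil (.cons 23 682887860 .nil (.cons 24 716345376 .nil (.cons 25 682790965 .nil (.cons 27 682791636 .nil (.cons 28 716342272 .nil (.cons 29 682787861 .nil (.cons 31 682788532 .nil (.cons 32 617911328 (.cons c140 140 263 y140 z140 (.cons c136 136 263 y136 z136 (.cons c137 137 8 y137 z137 (.cons c141 141 1200 y141 z141 (.cons c122 122 512 y122 z122 (.cons c139 139 1200 y139 z139 .nil)))))) (.cons 33 584356917 (.cons c122 122 512 y122 z122 (.cons c308 308 0 y308 z308 (.cons c309 309 1712 y309 z309 (.cons c310 310 0 y310 z310 .nil)))) (.cons 35 584357588 (.cons c311 311 0 y311 z311 (.cons c312 312 0 y312 z312 (.cons c313 313 0 y313 z313 (.cons c314 314 0 y314 z314 (.cons c315 315 0 y315 z315 (.cons c310 310 0 y310 z310 .nil)))))) (.cons 36 617908224 .nil (.cons 37 584353813 (.cons c316 316 0 y316 z316 (.cons c310 310 0 y310 z310 (.cons c317 317 0 y317 z317 (.cons c318 318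 0 y318 z318 (.cons c319 319 0 y319 z319 (.cons c320 320 0 y320 z320 .nil)))))) (.cons 39 584354484 (.cons c321 321 0 y321 z321 (.cons c311 311 0 y311 z311 (.cons c312 312 0 y312 z312 (.cons c313 313 0 y313 z313 (.cons c322 322 0 y322 z322 (.cons c314 314 0 y314 z314 (.cons c315 315 0 y315 z315 (.cons c310 310 0 y310 z310 (.cons c317 317 0 y317 z317 (.cons c319 319 0 y319 z319 (.cons c320 320 0 y320 z320 .nil))))))))))) (.cons 40 617812000 .nil (.cons 41 584257589 (.cons c323 323 0 y323 z323 (.cons c324 324 0 y324 z324 (.cons c325 325 0 y325 z325 (.cons c310 310 0 y310 z310 (.cons c326 326 0 y326 z326 (.cons c327 327 0 y327 z327 .nil)))))) (.cons 43 584258260 (.cons c311 311 0 y311 z311 (.cons c312 312 0 y312 z312 (.cons c313 313 0 y313 z313 (.cons c314 314 0 y314 z314 (.cons c315 315 0 y315 z315 (.cons c310 310 0 y310 z310 .nil)))))) (.cons 44 617808896 .nil (.cons 45 584254485 (.cons c324 324 0 y324 z324 (.cons c316 316 0 y316 z316 (.cons c328 328 0 y328 z328 (.cons c325 325 0 y325 z325 (.cons c310 310 0 y310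 z310 (.cons c317 317 0 y317 z317 (.cons c327 327 0 y327 z327 (.cons c318 318 0 y318 z318 (.cons c319 319 0 y319 z319 (.cons c320 320 0 y320 z320 (.cons c329 329 0 y329 z329 .nil))))))))))) (.cons 47 584255156 (.cons c321 321 0 y321 z321 (.cons c311 311 0 y311 z311 (.cons c312 312 0 y312 z312 (.cons c313 313 0 y313 z313 (.cons c322 322 0 y322 z322 (.cons c314 314 0 y314 z314 (.cons c315 315 0 y315 z315 (.cons c310 310 0 y310 z310 (.cons c317 317 0 y317 z317 (.cons c319 319 0 y319 z319 (.cons c320 320 0 y320 z320 .nil))))))))))) (.cons 48 614732832 .nil (.cons 49 581178421 (.cons c310 310 0 y310 z310 (.cons c330 330 0 y330 z330 (.cons c331 331 0 y331 z331 (.cons c332 332 0 y332 z332 (.cons c333 333 0 y333 z333 (.cons c334 334 0 y334 z334 .nil)))))) (.cons 51 581179092 (.cons c311 311 0 y311 z311 (.cons c335 335 0 y335 z335 (.cons c336 336 0 y336 z336 (.cons c312 312 0 y312 z312 (.cons c313 313 0 y313 z313 (.cons c337 337 0 y337 z337 (.cons c338 338 0 y338 z338 (.cons c339 339 0 y339 z339 (.cons c340 340 0 y340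 z340 (.cons c341 341 64 y341 z341 (.cons c342 342 64 y342 z342 (.cons c343 343 0 y343 z343 (.cons c344 344 0 y344 z344 (.cons c345 345 64 y345 z345 (.cons c346 346 0 y346 z346 (.cons c347 347 64 y347 z347 (.cons c348 348 0 y348 z348 (.cons c349 349 0 y349 z349 (.cons c314 314 0 y314 z314 (.cons c315 315 0 y315 z315 (.cons c310 310 0 y310 z310 (.cons c350 350 0 y350 z350 (.cons c351 351 0 y351 z351 (.cons c352 352 0 y352 z352 (.cons c353 353 0 y353 z353 (.cons c330 330 0 y330 z330 (.cons c331 331 0 y331 z331 (.cons c354 354 1983 y354 z354 (.cons c355 355 1983 y355 z355 (.cons c332 332 0 y332 z332 (.cons c356 356 1983 y356 z356 (.cons c357 357 1983 y357 z357 (.cons c333 333 0 y333 z333 (.cons c358 358 0 y358 z358 (.cons c359 359 0 y359 z359 (.cons c334 334 0 y334 z334 .nil)))))))))))))))))))))))))))))))))))) (.cons 52 614729728 .nil (.cons 53 581175317 (.cons c316 316 0 y316 z316 (.cons c310 310 0 y310 z310 (.cons c317 317 0 y317 z317 (.cons c318 318 0 y318 z318 (.cons c319 319 0 y319 z319 (.cons c320 320 0 y320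 z320 .nil)))))) (.cons 55 581175988 (.cons c321 321 0 y321 z321 (.cons c311 311 0 y311 z311 (.cons c312 312 0 y312 z312 (.cons c313 313 0 y313 z313 (.cons c322 322 0 y322 z322 (.cons c314 314 0 y314 z314 (.cons c315 315 0 y315 z315 (.cons c310 310 0 y310 z310 (.cons c317 317 0 y317 z317 (.cons c319 319 0 y319 z319 (.cons c320 320 0 y320 z320 .nil))))))))))) (.cons 56 614633504 .nil (.cons 57 581079093 (.cons c323 323 0 y323 z323 (.cons c324 324 0 y324 z324 (.cons c325 325 0 y325 z325 (.cons c310 310 0 y310 z310 (.cons c331 331 0 y331 z331 (.cons c326 326 0 y326 z326 (.cons c327 327 0 y327 z327 (.cons c360 360 0 y360 z360 (.cons c333 333 0 y333 z333 (.cons c361 361 0 y361 z361 (.cons c334 334 0 y334 z334 .nil))))))))))) (.cons 59 581079764 (.cons c311 311 0 y311 z311 (.cons c336 336 0 y336 z336 (.cons c312 312 0 y312 z312 (.cons c313 313 0 y313 z313 (.cons c338 338 0 y338 z338 (.cons c340 340 0 y340 z340 (.cons c362 362 0 y362 z362 (.cons c363 363 0 y363 z363 (.cons c342 342 64 y342 z342 (.cons c364 364 64 y364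 z364 (.cons c343 343 0 y343 z343 (.cons c346 346 0 y346 z346 (.cons c365 365 0 y365 z365 (.cons c347 347 64 y347 z347 (.cons c366 366 64 y366 z366 (.cons c348 348 0 y348 z348 (.cons c349 349 0 y349 z349 (.cons c314 314 0 y314 z314 (.cons c315 315 0 y315 z315 (.cons c310 310 0 y310 z310 (.cons c352 352 0 y352 z352 (.cons c353 353 0 y353 z353 (.cons c331 331 0 y331 z331 (.cons c367 367 0 y367 z367 (.cons c368 368 0 y368 z368 (.cons c360 360 0 y360 z360 (.cons c356 356 1983 y356 z356 (.cons c357 357 1983 y357 z357 (.cons c369 369 1983 y369 z369 (.cons c333 333 0 y333 z333 (.cons c361 361 0 y361 z361 (.cons c358 358 0 y358 z358 (.cons c359 359 0 y359 z359 (.cons c334 334 0 y334 z334 .nil)))))))))))))))))))))))))))))))))) (.cons 60 614630400 .nil (.cons 61 581075989 (.cons c324 324 0 y324 z324 (.cons c316 316 0 y316 z316 (.cons c328 328 0 y328 z328 (.cons c325 325 0 y325 z325 (.cons c310 310 0 y310 z310 (.cons c317 317 0 y317 z317 (.cons c327 327 0 y327 z327 (.cons c318 318 0 y318 z318 (.cons c319 319 0 y319 z319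 (.cons c320 320 0 y320 z320 (.cons c329 329 0 y329 z329 .nil))))))))))) (.cons 63 581076660 (.cons c321 321 0 y321 z321 (.cons c311 311 0 y311 z311 (.cons c312 312 0 y312 z312 (.cons c313 313 0 y313 z313 (.cons c322 322 0 y322 z322 (.cons c314 314 0 y314 z314 (.cons c315 315 0 y315 z315 (.cons c310 310 0 y310 z310 (.cons c317 317 0 y317 z317 (.cons c319 319 0 y319 z319 (.cons c320 320 0 y320 z320 .nil))))))))))) .nil))))))))))))))))))))))))))))))))))))))))))))))))

theorem a48 : chkA TCf 719623200 E48 = true := by decide +kernel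

theorem b48 : chkB row E48 = true := by decide +kernel

theorem d48 : chkC E48 = true := by decide +kernel

/-- windows 0:1 1:0 1:1 2:2 4:0 4:2 -/
def E55 : Es :=
  (.cons 0 621089921 (.cons c135 135 771 y135 z135 (.cons c136 136 771 y136 z136 (.cons c137 137 4 y137 z137 (.cons c122 122 8 y122 z122 (.cons c143 143 240 y143 z143 (.cons c138 138 240 y138 z138 (.cons c139 139 240 y139 z139 (.cons c172 172 240 y172 z172 (.cons c145 145 771 y145 z145 (.cons c173 173 771 y173 z173 (.cons c146 146 1024 y146 z146 .nil))))))))))) (.cons 1 587535510 (.cons c122 122 8 y122 z122 (.cons c123 123 0 y123 z123 (.cons c143 143 240 y143 z143 (.cons c149 149 0 y149 z149 (.cons c247 247 0 y247 z247 (.cons c283 283 0 y283 z283 (.cons c172 172 240 y172 z172 (.cons c174 174 0 y174 z174 (.cons c290 290 0 y290 z290 (.cons c145 145 771 y145 z145 (.cons c173 173 771 y173 z173 (.cons c153 153 0 y153 z153 (.cons c176 176 0 y176 z176 (.cons c146 146 1024 y146 z146 (.cons c155 155 0 y155 z155 (.cons c284 284 0 y284 z284 (.cons c291 291 0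 y291 z291 (.cons c285 285 0 y285 z285 (.cons c125 125 0 y125 z125 (.cons c248 248 0 y248 z248 (.cons c126 126 0 y126 z126 (.cons c158 158 0 y158 z158 (.cons c286 286 0 y286 z286 (.cons c160 160 0 y160 z160 (.cons c177 177 0 y177 z177 (.cons c292 292 0 y292 z292 (.cons c178 178 0 y178 z178 (.cons c165 165 0 y165 z165 (.cons c179 179 0 y179 z179 (.cons c288 288 0 y288 z288 (.cons c293 293 0 y293 z293 (.cons c166 166 0 y166 z166 (.cons c180 180 0 y180 z180 (.cons c167 167 0 y167 z167 (.cons c289 289 0 y289 z289 (.cons c168 168 0 y168 z168 .nil)))))))))))))))))))))))))))))))))))) (.cons 2 621089824 (.cons c140 140 771 y140 z140 (.cons c136 136 771 y136 z136 (.cons c137 137 4 y137 z137 (.cons c141 141 240 y141 z141 (.cons c122 122 8 y122 z122 (.cons c139 139 240 y139 z139 .nil)))))) (.cons 3 587535413 (.cons c122 122 8 y122 z122 (.cons c123 123 0 y123 z123 (.cons c247 247 0 y247 z247 (.cons c125 125 0 y125 z125 (.cons c248 248 0 y248 z248 (.cons c126 126 0 y126 z126 .nil)))))) (.cons 6 621086720 .nil (.cons 7 587532309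 .nil (.cons 8 620990593 .nil (.cons 9 587436182 .nil (.cons 10 620990496 .nil (.cons 11 587436085 .nil (.cons 14 620987392 .nil (.cons 15 587432981 .nil (.cons 16 617911425 (.cons c135 135 771 y135 z135 (.cons c136 136 771 y136 z136 (.cons c137 137 4 y137 z137 (.cons c122 122 8 y122 z122 (.cons c143 143 240 y143 z143 (.cons c138 138 240 y138 z138 (.cons c139 139 240 y139 z139 (.cons c172 172 240 y172 z172 (.cons c145 145 771 y145 z145 (.cons c173 173 771 y173 z173 (.cons c146 146 1024 y146 z146 .nil))))))))))) (.cons 17 584357014 (.cons c122 122 8 y122 z122 (.cons c143 143 240 y143 z143 (.cons c172 172 240 y172 z172 (.cons c145 145 771 y145 z145 (.cons c173 173 771 y173 z173 (.cons c146 146 1024 y146 z146 .nil)))))) (.cons 18 617911328 (.cons c140 140 771 y140 z140 (.cons c136 136 771 y136 z136 (.cons c137 137 4 y137 z137 (.cons c141 141 240 y141 z141 (.cons c122 122 8 y122 z122 (.cons c139 139 240 y139 z139 .nil)))))) (.cons 19 584356917 (.cons c122 122 8 y122 z122 (.cons c308 308 0 y308 z308 (.cons c309 309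 248 y309 z309 (.cons c310 310 0 y310 z310 .nil)))) (.cons 22 617908224 .nil (.cons 23 584353813 (.cons c316 316 0 y316 z316 (.cons c310 310 0 y310 z310 (.cons c317 317 0 y317 z317 (.cons c318 318 0 y318 z318 (.cons c319 319 0 y319 z319 (.cons c320 320 0 y320 z320 .nil)))))) (.cons 24 617812097 .nil (.cons 25 584257686 .nil (.cons 26 617812000 .nil (.cons 27 584257589 (.cons c323 323 0 y323 z323 (.cons c324 324 0 y324 z324 (.cons c325 325 0 y325 z325 (.cons c310 310 0 y310 z310 (.cons c326 326 0 y326 z326 (.cons c327 327 0 y327 z327 .nil)))))) (.cons 30 617808896 .nil (.cons 31 584254485 (.cons c324 324 0 y324 z324 (.cons c316 316 0 y316 z316 (.cons c328 328 0 y328 z328 (.cons c325 325 0 y325 z325 (.cons c310 310 0 y310 z310 (.cons c317 317 0 y317 z317 (.cons c327 327 0 y327 z327 (.cons c318 318 0 y318 z318 (.cons c319 319 0 y319 z319 (.cons c320 320 0 y320 z320 (.cons c329 329 0 y329 z329 .nil))))))))))) (.cons 48 516199553 .nil (.cons 49 482645142 .nil (.cons 50 516199456 .nil (.cons 51 482645045 (.cons c370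 370 0 y370 z370 (.cons c310 310 0 y310 z310 (.cons c371 371 0 y371 z371 (.cons c372 372 0 y372 z372 (.cons c373 373 0 y373 z373 (.cons c374 374 0 y374 z374 .nil)))))) (.cons 54 516196352 .nil (.cons 55 482641941 (.cons c379 379 0 y379 z379 (.cons c370 370 0 y370 z370 (.cons c380 380 0 y380 z380 (.cons c381 381 0 y381 z381 (.cons c382 382 0 y382 z382 (.cons c383 383 0 y383 z383 (.cons c316 316 0 y316 z316 (.cons c384 384 0 y384 z384 (.cons c385 385 2043 y385 z385 (.cons c386 386 2043 y386 z386 (.cons c387 387 0 y387 z387 (.cons c310 310 0 y310 z310 (.cons c317 317 0 y317 z317 (.cons c371 371 0 y371 z371 (.cons c388 388 0 y388 z388 (.cons c372 372 0 y372 z372 (.cons c389 389 2043 y389 z389 (.cons c373 373 0 y373 z373 (.cons c390 390 2043 y390 z390 (.cons c374 374 0 y374 z374 (.cons c391 391 0 y391 z391 (.cons c318 318 0 y318 z318 (.cons c392 392 0 y392 z392 (.cons c319 319 0 y319 z319 (.cons c320 320 0 y320 z320 (.cons c393 393 0 y393 z393 (.cons c394 394 0 y394 z394 (.cons c395 395 4 y395 z395 (.cons c396 396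 4 y396 z396 (.cons c397 397 0 y397 z397 (.cons c398 398 4 y398 z398 (.cons c399 399 0 y399 z399 (.cons c400 400 4 y400 z400 (.cons c401 401 0 y401 z401 (.cons c402 402 0 y402 z402 (.cons c403 403 0 y403 z403 .nil)))))))))))))))))))))))))))))))))))) (.cons 56 516100225 .nil (.cons 57 482545814 .nil (.cons 58 516100128 .nil (.cons 59 482545717 (.cons c323 323 0 y323 z323 (.cons c324 324 0 y324 z324 (.cons c325 325 0 y325 z325 (.cons c310 310 0 y310 z310 (.cons c326 326 0 y326 z326 (.cons c327 327 0 y327 z327 .nil)))))) (.cons 62 516097024 .nil (.cons 63 482542613 (.cons c324 324 0 y324 z324 (.cons c316 316 0 y316 z316 (.cons c328 328 0 y328 z328 (.cons c325 325 0 y325 z325 (.cons c310 310 0 y310 z310 (.cons c317 317 0 y317 z317 (.cons c327 327 0 y327 z327 (.cons c318 318 0 y318 z318 (.cons c319 319 0 y319 z319 (.cons c320 320 0 y320 z320 (.cons c329 329 0 y329 z329 .nil))))))))))) .nil))))))))))))))))))))))))))))))))))))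

theorem a55 : chkA TCf 621089921 E55 = true := by decide +kernel

theorem b55 : chkB row E55 = true := by decide +kernel

theorem d55 : chkC E55 = true := by decide +kernel

/-- windows 0:1 1:1 2:1 3:0 3:1 4:2 -/
def E57 : Es :=
  (.cons 0 618013857 (.cons c243 243 39 y243 z243 (.cons c182 182 39 y182 z182 (.cons c294 294 39 y294 z294 (.cons c244 244 8 y244 z244 (.cons c122 122 16 y122 z122 (.cons c183 183 39 y183 z183 (.cons c246 246 1472 y246 z246 (.cons c184 184 1472 y184 z184 (.cons c185 185 1472 y185 z185 (.cons c186 186 512 y186 z186 (.cons c295 295 1472 y295 z295 .nil))))))))))) (.cons 1 584459446 (.cons c243 243 39 y243 z243 (.cons c182 182 39 y182 z182 (.cons c294 294 39 y294 z294 (.cons c244 244 8 y244 z244 (.cons c122 122 16 y122 z122 (.cons c183 183 39 y183 z183 (.cons c246 246 1472 y246 z246 (.cons c184 184 1472 y184 z184 (.cons c185 185 1472 y185 z185 (.cons c186 186 512 y186 z186 (.cons c295 295 1472 y295 z295 .nil))))))))))) (.cons 2 618013760 (.cons c243 243 39 y243 z243 (.cons c182 182 39 y182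 z182 (.cons c294 294 39 y294 z294 (.cons c244 244 8 y244 z244 (.cons c122 122 16 y122 z122 (.cons c183 183 39 y183 z183 (.cons c246 246 1472 y246 z246 (.cons c184 184 1472 y184 z184 (.cons c185 185 1472 y185 z185 (.cons c186 186 512 y186 z186 (.cons c295 295 1472 y295 z295 .nil))))))))))) (.cons 3 584459349 (.cons c243 243 39 y243 z243 (.cons c182 182 39 y182 z182 (.cons c294 294 39 y294 z294 (.cons c244 244 8 y244 z244 (.cons c122 122 16 y122 z122 (.cons c183 183 39 y183 z183 (.cons c246 246 1472 y246 z246 (.cons c184 184 1472 y184 z184 (.cons c185 185 1472 y185 z185 (.cons c186 186 512 y186 z186 (.cons c295 295 1472 y295 z295 .nil))))))))))) (.cons 4 618010753 (.cons c252 252 0 y252 z252 (.cons c296 296 0 y296 z296 (.cons c253 253 0 y253 z253 (.cons c254 254 0 y254 z254 (.cons c297 297 0 y297 z297 (.cons c255 255 0 y255 z255 (.cons c256 256 0 y256 z256 (.cons c298 298 0 y298 z298 (.cons c257 257 0 y257 z257 (.cons c243 243 39 y243 z243 (.cons c294 294 39 y294 z294 (.cons c244 244 8 y244 z244 (.cons c260 260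 0 y260 z260 (.cons c261 261 0 y261 z261 (.cons c299 299 0 y299 z299 (.cons c262 262 0 y262 z262 (.cons c263 263 0 y263 z263 (.cons c135 135 0 y135 z135 (.cons c265 265 0 y265 z265 (.cons c136 136 0 y136 z136 (.cons c267 267 0 y267 z267 (.cons c137 137 0 y137 z137 (.cons c269 269 0 y269 z269 (.cons c300 300 0 y300 z300 (.cons c301 301 0 y301 z301 (.cons c122 122 16 y122 z122 (.cons c246 246 1472 y246 z246 (.cons c138 138 0 y138 z138 (.cons c139 139 0 y139 z139 (.cons c271 271 0 y271 z271 (.cons c273 273 0 y273 z273 (.cons c295 295 1472 y295 z295 (.cons c302 302 0 y302 z302 (.cons c303 303 0 y303 z303 .nil)))))))))))))))))))))))))))))))))) (.cons 5 584456342 (.cons c243 243 39 y243 z243 (.cons c294 294 39 y294 z294 (.cons c244 244 8 y244 z244 (.cons c122 122 16 y122 z122 (.cons c246 246 1472 y246 z246 (.cons c295 295 1472 y295 z295 .nil)))))) (.cons 6 618010656 (.cons c275 275 0 y275 z275 (.cons c254 254 0 y254 z254 (.cons c304 304 0 y304 z304 (.cons c297 297 0 y297 z297 (.cons c276 276 0 y276 z276 (.cons c255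 255 0 y255 z255 (.cons c256 256 0 y256 z256 (.cons c298 298 0 y298 z298 (.cons c257 257 0 y257 z257 (.cons c277 277 0 y277 z277 (.cons c305 305 0 y305 z305 (.cons c278 278 0 y278 z278 (.cons c243 243 39 y243 z243 (.cons c294 294 39 y294 z294 (.cons c244 244 8 y244 z244 (.cons c261 261 0 y261 z261 (.cons c299 299 0 y299 z299 (.cons c263 263 0 y263 z263 (.cons c140 140 0 y140 z140 (.cons c136 136 0 y136 z136 (.cons c279 279 0 y279 z279 (.cons c267 267 0 y267 z267 (.cons c137 137 0 y137 z137 (.cons c269 269 0 y269 z269 (.cons c306 306 0 y306 z306 (.cons c300 300 0 y300 z300 (.cons c301 301 0 y301 z301 (.cons c141 141 0 y141 z141 (.cons c281 281 0 y281 z281 (.cons c307 307 0 y307 z307 (.cons c122 122 16 y122 z122 (.cons c246 246 1472 y246 z246 (.cons c139 139 0 y139 z139 (.cons c273 273 0 y273 z273 (.cons c295 295 1472 y295 z295 (.cons c303 303 0 y303 z303 .nil)))))))))))))))))))))))))))))))))))) (.cons 7 584456245 (.cons c243 243 39 y243 z243 (.cons c294 294 39 y294 z294 (.cons c244 244 8 y244 z244 (.cons c122 122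 16 y122 z122 (.cons c246 246 1472 y246 z246 (.cons c295 295 1472 y295 z295 .nil)))))) (.cons 8 617914529 (.cons c122 122 16 y122 z122 (.cons c183 183 39 y183 z183 (.cons c142 142 39 y142 z142 (.cons c143 143 39 y143 z143 (.cons c224 224 39 y224 z224 (.cons c185 185 1472 y185 z185 (.cons c186 186 512 y186 z186 (.cons c144 144 1472 y144 z144 (.cons c145 145 1472 y145 z145 (.cons c146 146 0 y146 z146 (.cons c225 225 1472 y225 z225 .nil))))))))))) (.cons 9 584360118 (.cons c122 122 16 y122 z122 (.cons c183 183 39 y183 z183 (.cons c142 142 39 y142 z142 (.cons c143 143 39 y143 z143 (.cons c224 224 39 y224 z224 (.cons c185 185 1472 y185 z185 (.cons c186 186 512 y186 z186 (.cons c144 144 1472 y144 z144 (.cons c145 145 1472 y145 z145 (.cons c146 146 0 y146 z146 (.cons c225 225 1472 y225 z225 .nil))))))))))) (.cons 10 617914432 (.cons c122 122 16 y122 z122 (.cons c183 183 39 y183 z183 (.cons c224 224 39 y224 z224 (.cons c185 185 1472 y185 z185 (.cons c186 186 512 y186 z186 (.cons c225 225 1472 y225 z225 .nil)))))) (.cons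 11 584360021 (.cons c122 122 16 y122 z122 (.cons c183 183 39 y183 z183 (.cons c224 224 39 y224 z224 (.cons c185 185 1472 y185 z185 (.cons c186 186 512 y186 z186 (.cons c225 225 1472 y225 z225 .nil)))))) (.cons 12 617911425 (.cons c135 135 1472 y135 z135 (.cons c136 136 1472 y136 z136 (.cons c137 137 0 y137 z137 (.cons c122 122 16 y122 z122 (.cons c143 143 39 y143 z143 (.cons c138 138 39 y138 z138 (.cons c139 139 39 y139 z139 (.cons c172 172 39 y172 z172 (.cons c145 145 1472 y145 z145 (.cons c173 173 1472 y173 z173 (.cons c146 146 0 y146 z146 .nil))))))))))) (.cons 13 584357014 (.cons c122 122 16 y122 z122 (.cons c143 143 39 y143 z143 (.cons c172 172 39 y172 z172 (.cons c145 145 1472 y145 z145 (.cons c173 173 1472 y173 z173 (.cons c146 146 0 y146 z146 .nil)))))) (.cons 14 617911328 (.cons c140 140 1472 y140 z140 (.cons c136 136 1472 y136 z136 (.cons c137 137 0 y137 z137 (.cons c141 141 39 y141 z141 (.cons c122 122 16 y122 z122 (.cons c139 139 39 y139 z139 .nil)))))) (.cons 15 584356917 (.cons c122 122 16 y122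 z122 (.cons c308 308 0 y308 z308 (.cons c309 309 55 y309 z309 (.cons c310 310 0 y310 z310 .nil)))) (.cons 24 614736033 .nil (.cons 25 581181622 .nil (.cons 26 614735936 .nil (.cons 27 581181525 .nil (.cons 28 614732929 .nil (.cons 29 581178518 .nil (.cons 30 614732832 .nil (.cons 31 581178421 (.cons c310 310 0 y310 z310 (.cons c330 330 0 y330 z330 (.cons c331 331 0 y331 z331 (.cons c332 332 0 y332 z332 (.cons c333 333 0 y333 z333 (.cons c334 334 0 y334 z334 .nil)))))) (.cons 32 516301985 .nil (.cons 33 482747574 .nil (.cons 34 516301888 .nil (.cons 35 482747477 .nil (.cons 36 516298881 .nil (.cons 37 482744470 .nil (.cons 38 516298784 .nil (.cons 39 482744373 .nil (.cons 40 516202657 .nil (.cons 41 482648246 .nil (.cons 42 516202560 .nil (.cons 43 482648149 .nil (.cons 44 516199553 .nil (.cons 45 482645142 .nil (.cons 46 516199456 .nil (.cons 47 482645045 (.cons c370 370 0 y370 z370 (.cons c310 310 0 y310 z310 (.cons c371 371 0 y371 z371 (.cons c372 372 0 y372 z372 (.cons c373 373 0 y373 z373 (.cons c374 374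 0 y374 z374 .nil)))))) (.cons 56 513024161 .nil (.cons 57 479469750 .nil (.cons 58 513024064 .nil (.cons 59 479469653 .nil (.cons 60 513021057 .nil (.cons 61 479466646 .nil (.cons 62 513020960 .nil (.cons 63 479466549 (.cons c310 310 0 y310 z310 (.cons c371 371 0 y371 z371 (.cons c330 330 0 y330 z330 (.cons c331 331 0 y331 z331 (.cons c412 412 0 y412 z412 (.cons c373 373 0 y373 z373 (.cons c374 374 0 y374 z374 (.cons c332 332 0 y332 z332 (.cons c333 333 0 y333 z333 (.cons c334 334 0 y334 z334 (.cons c413 413 0 y413 z413 .nil))))))))))) .nil))))))))))))))))))))))))))))))))))))))))))))))))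

theorem a57 : chkA TCf 618013857 E57 = true := by decide +kernel

theorem b57 : chkB row E57 = true := by decide +kernel

theorem d57 : chkC E57 = true := by decide +kernel

end Vale.Agent.P032.H532.T
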