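import Vale.Agent.P032.H532.TTab

/-!
# Tile windows: closures 18 .. 63
-/

set_option maxRecDepth 20000

namespace Vale.Agent.P032.H532.T

/-- windows 0:2 2:1 3:1 4:1 5:0 5:1 -/
def E18 : Es :=
  (.cons 0 726185250 (.cons c10 10 1 y10 z10 (.cons c11 11 30 y11 z11 (.cons c113 113 30 y113 z113 (.cons c114 114 30 y114 z114 (.cons c51 51 30 y51 z51 (.cons c20 20 1440 y20 z20 (.cons c21 21 64 y21 z21 (.cons c115 115 1440 y115 z115 (.cons c116 116 1440 y116 z116 (.cons c117 117 512 y117 z117 (.cons c55 55 1440 y55 z55 .nil))))))))))) (.cons 1 692630839 .nil (.cons 2 726185153 (.cons c10 10 1 y10 z10 (.cons c11 11 30 y11 z11 (.cons c113 113 30 y113 z113 (.cons c114 114 30 y114 z114 (.cons c51 51 30 y51 z51 (.cons c20 20 1440 y20 z20 (.cons c21 21 64 y21 z21 (.cons c115 115 1440 y115 z115 (.cons c116 116 1440 y116 z116 (.cons c117 117 512 y117 z117 (.cons c55 55 1440 y55 z55 .nil))))))))))) (.cons 3 692630742 .nil (.cons 4 726182146 (.cons c10 10 1 y10 z10 (.cons c11 11 30 y11 z11 (.cons c113 113 30 y113 z113 (.cons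 c114 114 30 y114 z114 (.cons c51 51 30 y51 z51 (.cons c20 20 1440 y20 z20 (.cons c21 21 64 y21 z21 (.cons c115 115 1440 y115 z115 (.cons c116 116 1440 y116 z116 (.cons c117 117 512 y117 z117 (.cons c55 55 1440 y55 z55 .nil))))))))))) (.cons 5 692627735 .nil (.cons 6 726182049 (.cons c10 10 1 y10 z10 (.cons c11 11 30 y11 z11 (.cons c113 113 30 y113 z113 (.cons c114 114 30 y114 z114 (.cons c51 51 30 y51 z51 (.cons c20 20 1440 y20 z20 (.cons c21 21 64 y21 z21 (.cons c115 115 1440 y115 z115 (.cons c116 116 1440 y116 z116 (.cons c117 117 512 y117 z117 (.cons c55 55 1440 y55 z55 .nil))))))))))) (.cons 7 692627638 .nil (.cons 8 726085922 (.cons c4 4 0 y4 z4 (.cons c5 5 0 y5 z5 (.cons c50 50 0 y50 z50 (.cons c6 6 0 y6 z6 (.cons c7 7 0 y7 z7 (.cons c10 10 1 y10 z10 (.cons c11 11 30 y11 z11 (.cons c12 12 0 y12 z12 (.cons c13 13 0 y13 z13 (.cons c51 51 30 y51 z51 (.cons c52 52 0 y52 z52 (.cons c14 14 0 y14 z14 (.cons c15 15 0 y15 z15 (.cons c16 16 0 y16 z16 (.cons c17 17 0 y17 z17 (.cons c18 18 0 y18 z18 (.cons c19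 19 0 y19 z19 (.cons c53 53 0 y53 z53 (.cons c54 54 0 y54 z54 (.cons c20 20 1440 y20 z20 (.cons c21 21 64 y21 z21 (.cons c22 22 0 y22 z22 (.cons c23 23 0 y23 z23 (.cons c26 26 0 y26 z26 (.cons c27 27 0 y27 z27 (.cons c28 28 0 y28 z28 (.cons c29 29 0 y29 z29 (.cons c30 30 0 y30 z30 (.cons c31 31 0 y31 z31 (.cons c55 55 1440 y55 z55 (.cons c56 56 0 y56 z56 (.cons c57 57 0 y57 z57 (.cons c58 58 0 y58 z58 (.cons c59 59 0 y59 z59 .nil)))))))))))))))))))))))))))))))))) (.cons 9 692531511 .nil (.cons 10 726085825 (.cons c10 10 1 y10 z10 (.cons c11 11 30 y11 z11 (.cons c51 51 30 y51 z51 (.cons c20 20 1440 y20 z20 (.cons c21 21 64 y21 z21 (.cons c55 55 1440 y55 z55 .nil)))))) (.cons 11 692531414 .nil (.cons 12 726082818 (.cons c10 10 1 y10 z10 (.cons c11 11 30 y11 z11 (.cons c12 12 0 y12 z12 (.cons c13 13 0 y13 z13 (.cons c51 51 30 y51 z51 (.cons c52 52 0 y52 z52 (.cons c40 40 0 y40 z40 (.cons c41 41 0 y41 z41 (.cons c60 60 0 y60 z60 (.cons c16 16 0 y16 z16 (.cons c17 17 0 y17 z17 (.cons c18 18 0 y18 z18 (.cons c19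 19 0 y19 z19 (.cons c53 53 0 y53 z53 (.cons c54 54 0 y54 z54 (.cons c20 20 1440 y20 z20 (.cons c21 21 64 y21 z21 (.cons c22 22 0 y22 z22 (.cons c23 23 0 y23 z23 (.cons c42 42 0 y42 z42 (.cons c43 43 0 y43 z43 (.cons c28 28 0 y28 z28 (.cons c29 29 0 y29 z29 (.cons c30 30 0 y30 z30 (.cons c31 31 0 y31 z31 (.cons c44 44 0 y44 z44 (.cons c45 45 0 y45 z45 (.cons c61 61 0 y61 z61 (.cons c46 46 0 y46 z46 (.cons c47 47 0 y47 z47 (.cons c55 55 1440 y55 z55 (.cons c56 56 0 y56 z56 (.cons c62 62 0 y62 z62 (.cons c58 58 0 y58 z58 (.cons c59 59 0 y59 z59 (.cons c63 63 0 y63 z63 .nil)))))))))))))))))))))))))))))))))))) (.cons 13 692528407 .nil (.cons 14 726082721 (.cons c10 10 1 y10 z10 (.cons c11 11 30 y11 z11 (.cons c51 51 30 y51 z51 (.cons c20 20 1440 y20 z20 (.cons c21 21 64 y21 z21 (.cons c55 55 1440 y55 z55 .nil)))))) (.cons 15 692528310 .nil (.cons 16 723006754 (.cons c73 73 1440 y73 z73 (.cons c74 74 1440 y74 z74 (.cons c75 75 0 y75 z75 (.cons c10 10 1 y10 z10 (.cons c114 114 30 y114 z114 (.cons c76 76 30 y76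 z76 (.cons c77 77 30 y77 z77 (.cons c118 118 30 y118 z118 (.cons c116 116 1440 y116 z116 (.cons c119 119 1440 y119 z119 (.cons c117 117 512 y117 z117 .nil))))))))))) (.cons 17 689452343 .nil (.cons 18 723006657 (.cons c73 73 1440 y73 z73 (.cons c74 74 1440 y74 z74 (.cons c75 75 0 y75 z75 (.cons c10 10 1 y10 z10 (.cons c114 114 30 y114 z114 (.cons c76 76 30 y76 z76 (.cons c77 77 30 y77 z77 (.cons c118 118 30 y118 z118 (.cons c116 116 1440 y116 z116 (.cons c119 119 1440 y119 z119 (.cons c117 117 512 y117 z117 .nil))))))))))) (.cons 19 689452246 .nil (.cons 20 723003650 (.cons c10 10 1 y10 z10 (.cons c114 114 30 y114 z114 (.cons c118 118 30 y118 z118 (.cons c116 116 1440 y116 z116 (.cons c119 119 1440 y119 z119 (.cons c117 117 512 y117 z117 .nil)))))) (.cons 21 689449239 .nil (.cons 22 723003553 (.cons c10 10 1 y10 z10 (.cons c114 114 30 y114 z114 (.cons c118 118 30 y118 z118 (.cons c116 116 1440 y116 z116 (.cons c119 119 1440 y119 z119 (.cons c117 117 512 y117 z117 .nil)))))) (.cons 23 689449142 .nil (.cons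 24 722907426 (.cons c74 74 1440 y74 z74 (.cons c4 4 1440 y4 z4 (.cons c101 101 1440 y101 z101 (.cons c75 75 0 y75 z75 (.cons c10 10 1 y10 z10 (.cons c12 12 1440 y12 z12 (.cons c77 77 30 y77 z77 (.cons c14 14 30 y14 z14 (.cons c16 16 30 y16 z16 (.cons c18 18 0 y18 z18 (.cons c102 102 30 y102 z102 .nil))))))))))) (.cons 25 689353015 .nil (.cons 26 722907329 (.cons c74 74 1440 y74 z74 (.cons c101 101 1440 y101 z101 (.cons c75 75 0 y75 z75 (.cons c10 10 1 y10 z10 (.cons c77 77 30 y77 z77 (.cons c102 102 30 y102 z102 .nil)))))) (.cons 27 689352918 .nil (.cons 28 722904322 (.cons c10 10 1 y10 z10 (.cons c12 12 1440 y12 z12 (.cons c40 40 1440 y40 z40 (.cons c16 16 30 y16 z16 (.cons c18 18 0 y18 z18 (.cons c44 44 30 y44 z44 .nil)))))) (.cons 29 689349911 .nil (.cons 30 722904225 (.cons c10 10 1 y10 z10 (.cons c120 120 0 y120 z120 (.cons c121 121 1441 y121 z121 (.cons c122 122 0 y122 z122 .nil)))) (.cons 31 689349814 (.cons c122 122 0 y122 z122 (.cons c123 123 0 y123 z123 (.cons c124 124 0 y124 z124 (.cons c125 125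 0 y125 z125 (.cons c126 126 0 y126 z126 (.cons c127 127 0 y127 z127 .nil)))))) (.cons 48 621294882 .nil (.cons 49 587740471 .nil (.cons 50 621294785 .nil (.cons 51 587740374 .nil (.cons 52 621291778 .nil (.cons 53 587737367 .nil (.cons 54 621291681 .nil (.cons 55 587737270 .nil (.cons 56 621195554 .nil (.cons 57 587641143 .nil (.cons 58 621195457 .nil (.cons 59 587641046 .nil (.cons 60 621192450 .nil (.cons 61 587638039 .nil (.cons 62 621192353 (.cons c242 242 0 y242 z242 (.cons c243 243 0 y243 z243 (.cons c244 244 0 y244 z244 (.cons c122 122 0 y122 z122 (.cons c245 245 0 y245 z245 (.cons c246 246 0 y246 z246 .nil)))))) (.cons 63 587637942 (.cons c242 242 0 y242 z242 (.cons c243 243 0 y243 z243 (.cons c244 244 0 y244 z244 (.cons c122 122 0 y122 z122 (.cons c123 123 0 y123 z123 (.cons c245 245 0 y245 z245 (.cons c246 246 0 y246 z246 (.cons c247 247 0 y247 z247 (.cons c125 125 0 y125 z125 (.cons c248 248 0 y248 z248 (.cons c126 126 0 y126 z126 .nil))))))))))) .nil))))))))))))))))))))))))))))))))))))))))))))))))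

theorem a18 : chkA TCf 726185250 E18 = true := by decide +kernel

theorem b18 : chkB row E18 = true := by decide +kernel

theorem d18 : chkC E18 = true := by decide +kernel

/-- windows 0:1 1:2 3:0 3:2 5:0 5:1 -/
def E23 : Es :=
  (.cons 0 726085825 (.cons c10 10 1 y10 z10 (.cons c11 11 6 y11 z11 (.cons c51 51 6 y51 z51 (.cons c20 20 40 y20 z20 (.cons c21 21 16 y21 z21 (.cons c55 55 40 y55 z55 .nil)))))) (.cons 1 692531414 .nil (.cons 2 726085728 .nil (.cons 3 692531317 .nil (.cons 4 726082721 (.cons c10 10 1 y10 z10 (.cons c11 11 6 y11 z11 (.cons c51 51 6 y51 z51 (.cons c20 20 40 y20 z20 (.cons c21 21 16 y21 z21 (.cons c55 55 40 y55 z55 .nil)))))) (.cons 5 692528310 .nil (.cons 6 726082624 .nil (.cons 7 692528213 .nil (.cons 12 725983393 .nil (.cons 13 692428982 .nil (.cons 14 725983296 .nil (.cons 15 692428885 .nil (.cons 16 722907329 (.cons c74 74 0 y74 z74 (.cons c101 101 0 y101 z101 (.cons c75 75 0 y75 z75 (.cons c10 10 1 y10 z10 (.cons c77 77 0 y77 z77 (.cons c102 102 0 y102 z102 .nil)))))) (.cons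 17 689352918 .nil (.cons 18 722907232 .nil (.cons 19 689352821 .nil (.cons 20 722904225 (.cons c10 10 1 y10 z10 (.cons c120 120 0 y120 z120 (.cons c121 121 41 y121 z121 (.cons c122 122 0 y122 z122 .nil)))) (.cons 21 689349814 (.cons c122 122 0 y122 z122 (.cons c123 123 0 y123 z123 (.cons c124 124 0 y124 z124 (.cons c125 125 0 y125 z125 (.cons c126 126 0 y126 z126 (.cons c127 127 0 y127 z127 .nil)))))) (.cons 22 722904128 (.cons c128 128 0 y128 z128 (.cons c129 129 0 y129 z129 (.cons c130 130 0 y130 z130 (.cons c131 131 0 y131 z131 (.cons c132 132 0 y132 z132 (.cons c122 122 0 y122 z122 .nil)))))) (.cons 23 689349717 (.cons c130 130 0 y130 z130 (.cons c131 131 0 y131 z131 (.cons c132 132 0 y132 z132 (.cons c122 122 0 y122 z122 (.cons c133 133 0 y133 z133 (.cons c123 123 0 y123 z123 (.cons c124 124 0 y124 z124 (.cons c134 134 0 y134 z134 (.cons c125 125 0 y125 z125 (.cons c126 126 0 y126 z126 (.cons c127 127 0 y127 z127 .nil))))))))))) (.cons 28 722804897 (.cons c122 122 0 y122 z122 (.cons c142 142 0 y142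 z142 (.cons c143 143 0 y143 z143 (.cons c144 144 0 y144 z144 (.cons c145 145 0 y145 z145 (.cons c146 146 0 y146 z146 .nil)))))) (.cons 29 689250486 (.cons c122 122 0 y122 z122 (.cons c123 123 0 y123 z123 (.cons c124 124 0 y124 z124 (.cons c142 142 0 y142 z142 (.cons c143 143 0 y143 z143 (.cons c147 147 0 y147 z147 (.cons c148 148 0 y148 z148 (.cons c149 149 0 y149 z149 (.cons c150 150 0 y150 z150 (.cons c144 144 0 y144 z144 (.cons c151 151 41 y151 z151 (.cons c152 152 41 y152 z152 (.cons c145 145 0 y145 z145 (.cons c153 153 41 y153 z153 (.cons c154 154 41 y154 z154 (.cons c146 146 0 y146 z146 (.cons c155 155 0 y155 z155 (.cons c156 156 0 y156 z156 (.cons c125 125 0 y125 z125 (.cons c126 126 0 y126 z126 (.cons c157 157 0 y157 z157 (.cons c158 158 0 y158 z158 (.cons c159 159 0 y159 z159 (.cons c160 160 0 y160 z160 (.cons c127 127 0 y127 z127 (.cons c161 161 0 y161 z161 (.cons c162 162 0 y162 z162 (.cons c163 163 16 y163 z163 (.cons c164 164 0 y164 z164 (.cons c165 165 16 y165 z165 (.cons c166 166 0 y166 z166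 (.cons c167 167 0 y167 z167 (.cons c168 168 0 y168 z168 (.cons c169 169 16 y169 z169 (.cons c170 170 16 y170 z170 (.cons c171 171 0 y171 z171 .nil)))))))))))))))))))))))))))))))))))) (.cons 30 722804800 (.cons c128 128 0 y128 z128 (.cons c129 129 0 y129 z129 (.cons c130 130 0 y130 z130 (.cons c131 131 0 y131 z131 (.cons c132 132 0 y132 z132 (.cons c122 122 0 y122 z122 .nil)))))) (.cons 31 689250389 (.cons c130 130 0 y130 z130 (.cons c131 131 0 y131 z131 (.cons c132 132 0 y132 z132 (.cons c122 122 0 y122 z122 (.cons c133 133 0 y133 z133 (.cons c123 123 0 y123 z123 (.cons c124 124 0 y124 z124 (.cons c134 134 0 y134 z134 (.cons c125 125 0 y125 z125 (.cons c126 126 0 y126 z126 (.cons c127 127 0 y127 z127 .nil))))))))))) (.cons 48 621195457 .nil (.cons 49 587641046 .nil (.cons 50 621195360 .nil (.cons 51 587640949 .nil (.cons 52 621192353 (.cons c242 242 0 y242 z242 (.cons c243 243 0 y243 z243 (.cons c244 244 0 y244 z244 (.cons c122 122 0 y122 z122 (.cons c245 245 0 y245 z245 (.cons c246 246 0 y246 z246 .nil))))))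 (.cons 53 587637942 (.cons c242 242 0 y242 z242 (.cons c243 243 0 y243 z243 (.cons c244 244 0 y244 z244 (.cons c122 122 0 y122 z122 (.cons c123 123 0 y123 z123 (.cons c245 245 0 y245 z245 (.cons c246 246 0 y246 z246 (.cons c247 247 0 y247 z247 (.cons c125 125 0 y125 z125 (.cons c248 248 0 y248 z248 (.cons c126 126 0 y126 z126 .nil))))))))))) (.cons 54 621192256 (.cons c242 242 0 y242 z242 (.cons c243 243 0 y243 z243 (.cons c244 244 0 y244 z244 (.cons c122 122 0 y122 z122 (.cons c245 245 0 y245 z245 (.cons c246 246 0 y246 z246 .nil)))))) (.cons 55 587637845 (.cons c242 242 0 y242 z242 (.cons c243 243 0 y243 z243 (.cons c244 244 0 y244 z244 (.cons c122 122 0 y122 z122 (.cons c123 123 0 y123 z123 (.cons c245 245 0 y245 z245 (.cons c246 246 0 y246 z246 (.cons c247 247 0 y247 z247 (.cons c125 125 0 y125 z125 (.cons c248 248 0 y248 z248 (.cons c126 126 0 y126 z126 .nil))))))))))) (.cons 60 621093025 (.cons c122 122 0 y122 z122 (.cons c142 142 0 y142 z142 (.cons c143 143 0 y143 z143 (.cons c144 144 0 y144 z144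 (.cons c145 145 0 y145 z145 (.cons c146 146 0 y146 z146 .nil)))))) (.cons 61 587538614 (.cons c122 122 0 y122 z122 (.cons c123 123 0 y123 z123 (.cons c142 142 0 y142 z142 (.cons c143 143 0 y143 z143 (.cons c147 147 0 y147 z147 (.cons c149 149 0 y149 z149 (.cons c247 247 0 y247 z247 (.cons c282 282 0 y282 z282 (.cons c283 283 0 y283 z283 (.cons c144 144 0 y144 z144 (.cons c151 151 41 y151 z151 (.cons c145 145 0 y145 z145 (.cons c153 153 41 y153 z153 (.cons c146 146 0 y146 z146 (.cons c155 155 0 y155 z155 (.cons c284 284 41 y284 z284 (.cons c285 285 0 y285 z285 (.cons c125 125 0 y125 z125 (.cons c248 248 0 y248 z248 (.cons c126 126 0 y126 z126 (.cons c157 157 0 y157 z157 (.cons c158 158 0 y158 z158 (.cons c286 286 0 y286 z286 (.cons c159 159 0 y159 z159 (.cons c160 160 0 y160 z160 (.cons c163 163 16 y163 z163 (.cons c287 287 16 y287 z287 (.cons c164 164 0 y164 z164 (.cons c165 165 16 y165 z165 (.cons c288 288 16 y288 z288 (.cons c166 166 0 y166 z166 (.cons c167 167 0 y167 z167 (.cons c289 289 0 y289 z289 (.cons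 c168 168 0 y168 z168 .nil)))))))))))))))))))))))))))))))))) (.cons 62 621092928 (.cons c122 122 0 y122 z122 .nil) (.cons 63 587538517 (.cons c122 122 0 y122 z122 (.cons c123 123 0 y123 z123 (.cons c247 247 0 y247 z247 (.cons c125 125 0 y125 z125 (.cons c248 248 0 y248 z248 (.cons c126 126 0 y126 z126 .nil)))))) .nil))))))))))))))))))))))))))))))))))))

theorem a23 : chkA TCf 726085825 E23 = true := by decide +kernel

theorem b23 : chkB row E23 = true := by decide +kernel

theorem d23 : chkC E23 = true := by decide +kernel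

/-- windows 0:1 1:1 2:0 2:2 4:1 5:1 -/
def E37 : Es :=
  (.cons 0 722804897 (.cons c122 122 1 y122 z122 (.cons c142 142 6 y142 z142 (.cons c143 143 6 y143 z143 (.cons c144 144 24 y144 z144 (.cons c145 145 24 y145 z145 (.cons c146 146 32 y146 z146 .nil)))))) (.cons 1 689250486 (.cons c122 122 1 y122 z122 (.cons c123 123 0 y123 z123 (.cons c124 124 0 y124 z124 (.cons c142 142 6 y142 z142 (.cons c143 143 6 y143 z143 (.cons c147 147 0 y147 z147 (.cons c148 148 0 y148 z148 (.cons c149 149 0 y149 z149 (.cons c150 150 0 y150 z150 (.cons c144 144 24 y144 z144 (.cons c151 151 0 y151 z151 (.cons c152 152 0 y152 z152 (.cons c145 145 24 y145 z145 (.cons c153 153 0 y153 z153 (.cons c154 154 0 y154 z154 (.cons c146 146 32 y146 z146 (.cons c155 155 0 y155 z155 (.cons c156 156 0 y156 z156 (.cons c125 125 0 y125 z125 (.cons c126 126 0 y126 z126 (.cons c157 157 0 y157 z157 (.cons c158 158 0 y158 z158 (.cons c159 159 0 y159 z159 (.cons c160 160 0 y160 z160 (.cons c127 127 0 y127 z127 (.cons c161 161 0 y161 z161 (.cons c162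 162 0 y162 z162 (.cons c163 163 0 y163 z163 (.cons c164 164 0 y164 z164 (.cons c165 165 0 y165 z165 (.cons c166 166 0 y166 z166 (.cons c167 167 0 y167 z167 (.cons c168 168 0 y168 z168 (.cons c169 169 0 y169 z169 (.cons c170 170 0 y170 z170 (.cons c171 171 0 y171 z171 .nil)))))))))))))))))))))))))))))))))))) (.cons 2 722804800 (.cons c128 128 0 y128 z128 (.cons c129 129 0 y129 z129 (.cons c130 130 0 y130 z130 (.cons c131 131 0 y131 z131 (.cons c132 132 0 y132 z132 (.cons c122 122 1 y122 z122 .nil)))))) (.cons 3 689250389 (.cons c130 130 0 y130 z130 (.cons c131 131 0 y131 z131 (.cons c132 132 0 y132 z132 (.cons c122 122 1 y122 z122 (.cons c133 133 0 y133 z133 (.cons c123 123 0 y123 z123 (.cons c124 124 0 y124 z124 (.cons c134 134 0 y134 z134 (.cons c125 125 0 y125 z125 (.cons c126 126 0 y126 z126 (.cons c127 127 0 y127 z127 .nil))))))))))) (.cons 4 722801793 (.cons c135 135 24 y135 z135 (.cons c136 136 24 y136 z136 (.cons c137 137 0 y137 z137 (.cons c122 122 1 y122 z122 (.cons c143 143 6 y143 z143 (.cons c138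 138 6 y138 z138 (.cons c139 139 6 y139 z139 (.cons c172 172 6 y172 z172 (.cons c145 145 24 y145 z145 (.cons c173 173 24 y173 z173 (.cons c146 146 32 y146 z146 .nil))))))))))) (.cons 5 689247382 (.cons c122 122 1 y122 z122 (.cons c123 123 0 y123 z123 (.cons c124 124 0 y124 z124 (.cons c143 143 6 y143 z143 (.cons c149 149 0 y149 z149 (.cons c150 150 0 y150 z150 (.cons c172 172 6 y172 z172 (.cons c174 174 0 y174 z174 (.cons c175 175 0 y175 z175 (.cons c145 145 24 y145 z145 (.cons c173 173 24 y173 z173 (.cons c153 153 0 y153 z153 (.cons c176 176 0 y176 z176 (.cons c154 154 0 y154 z154 (.cons c146 146 32 y146 z146 (.cons c155 155 0 y155 z155 (.cons c156 156 0 y156 z156 (.cons c125 125 0 y125 z125 (.cons c126 126 0 y126 z126 (.cons c158 158 0 y158 z158 (.cons c160 160 0 y160 z160 (.cons c177 177 0 y177 z177 (.cons c178 178 0 y178 z178 (.cons c127 127 0 y127 z127 (.cons c162 162 0 y162 z162 (.cons c165 165 0 y165 z165 (.cons c179 179 0 y179 z179 (.cons c166 166 0 y166 z166 (.cons c180 180 0 y180 z180 (.cons c167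 167 0 y167 z167 (.cons c168 168 0 y168 z168 (.cons c170 170 0 y170 z170 (.cons c181 181 0 y181 z181 (.cons c171 171 0 y171 z171 .nil)))))))))))))))))))))))))))))))))) (.cons 6 722801696 (.cons c140 140 24 y140 z140 (.cons c128 128 24 y128 z128 (.cons c136 136 24 y136 z136 (.cons c137 137 0 y137 z137 (.cons c141 141 6 y141 z141 (.cons c129 129 6 y129 z129 (.cons c130 130 0 y130 z130 (.cons c131 131 6 y131 z131 (.cons c132 132 24 y132 z132 (.cons c122 122 1 y122 z122 (.cons c139 139 6 y139 z139 .nil))))))))))) (.cons 7 689247285 (.cons c130 130 0 y130 z130 (.cons c131 131 6 y131 z131 (.cons c132 132 24 y132 z132 (.cons c122 122 1 y122 z122 (.cons c133 133 24 y133 z133 (.cons c123 123 24 y123 z123 (.cons c124 124 24 y124 z124 (.cons c134 134 6 y134 z134 (.cons c125 125 6 y125 z125 (.cons c126 126 0 y126 z126 (.cons c127 127 6 y127 z127 .nil))))))))))) (.cons 12 722702465 .nil (.cons 13 689148054 .nil (.cons 14 722702368 .nil (.cons 15 689147957 .nil (.cons 16 719626401 (.cons c122 122 1 y122 z122 (.cons c183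 183 6 y183 z183 (.cons c142 142 6 y142 z142 (.cons c143 143 6 y143 z143 (.cons c224 224 6 y224 z224 (.cons c185 185 24 y185 z185 (.cons c186 186 0 y186 z186 (.cons c144 144 24 y144 z144 (.cons c145 145 24 y145 z145 (.cons c146 146 32 y146 z146 (.cons c225 225 24 y225 z225 .nil))))))))))) (.cons 17 686071990 (.cons c122 122 1 y122 z122 (.cons c183 183 6 y183 z183 (.cons c142 142 6 y142 z142 (.cons c143 143 6 y143 z143 (.cons c224 224 6 y224 z224 (.cons c185 185 24 y185 z185 (.cons c186 186 0 y186 z186 (.cons c144 144 24 y144 z144 (.cons c145 145 24 y145 z145 (.cons c146 146 32 y146 z146 (.cons c225 225 24 y225 z225 .nil))))))))))) (.cons 18 719626304 (.cons c128 128 0 y128 z128 (.cons c196 196 0 y196 z196 (.cons c226 226 0 y226 z226 (.cons c198 198 0 y198 z198 (.cons c199 199 0 y199 z199 (.cons c129 129 0 y129 z129 (.cons c200 200 0 y200 z200 (.cons c130 130 0 y130 z130 (.cons c131 131 0 y131 z131 (.cons c201 201 0 y201 z201 (.cons c202 202 0 y202 z202 (.cons c227 227 0 y227 z227 (.cons c228 228 0 y228 z228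 (.cons c204 204 0 y204 z204 (.cons c205 205 0 y205 z205 (.cons c208 208 0 y208 z208 (.cons c209 209 0 y209 z209 (.cons c210 210 0 y210 z210 (.cons c211 211 0 y211 z211 (.cons c132 132 0 y132 z132 (.cons c122 122 1 y122 z122 (.cons c212 212 0 y212 z212 (.cons c183 183 6 y183 z183 (.cons c229 229 0 y229 z229 (.cons c224 224 6 y224 z224 (.cons c214 214 0 y214 z214 (.cons c185 185 24 y185 z185 (.cons c215 215 0 y215 z215 (.cons c186 186 0 y186 z186 (.cons c230 230 0 y230 z230 (.cons c231 231 0 y231 z231 (.cons c232 232 0 y232 z232 (.cons c233 233 0 y233 z233 (.cons c225 225 24 y225 z225 .nil)))))))))))))))))))))))))))))))))) (.cons 19 686071893 (.cons c130 130 0 y130 z130 (.cons c131 131 0 y131 z131 (.cons c201 201 0 y201 z201 (.cons c202 202 0 y202 z202 (.cons c227 227 0 y227 z227 (.cons c228 228 0 y228 z228 (.cons c208 208 0 y208 z208 (.cons c209 209 0 y209 z209 (.cons c210 210 0 y210 z210 (.cons c211 211 0 y211 z211 (.cons c132 132 0 y132 z132 (.cons c122 122 1 y122 z122 (.cons c212 212 0 y212 z212 (.cons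 c183 183 6 y183 z183 (.cons c133 133 0 y133 z133 (.cons c217 217 0 y217 z217 (.cons c229 229 0 y229 z229 (.cons c224 224 6 y224 z224 (.cons c234 234 0 y234 z234 (.cons c214 214 0 y214 z214 (.cons c185 185 24 y185 z185 (.cons c215 215 0 y215 z215 (.cons c186 186 0 y186 z186 (.cons c218 218 0 y218 z218 (.cons c219 219 0 y219 z219 (.cons c231 231 0 y231 z231 (.cons c232 232 0 y232 z232 (.cons c233 233 0 y233 z233 (.cons c225 225 24 y225 z225 (.cons c235 235 0 y235 z235 (.cons c134 134 0 y134 z134 (.cons c220 220 0 y220 z220 (.cons c236 236 0 y236 z236 (.cons c222 222 0 y222 z222 (.cons c223 223 0 y223 z223 (.cons c237 237 0 y237 z237 .nil)))))))))))))))))))))))))))))))))))) (.cons 20 719623297 (.cons c135 135 24 y135 z135 (.cons c136 136 24 y136 z136 (.cons c137 137 0 y137 z137 (.cons c122 122 1 y122 z122 (.cons c143 143 6 y143 z143 (.cons c138 138 6 y138 z138 (.cons c139 139 6 y139 z139 (.cons c172 172 6 y172 z172 (.cons c145 145 24 y145 z145 (.cons c173 173 24 y173 z173 (.cons c146 146 32 y146 z146 .nil)))))))))))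 (.cons 21 686068886 (.cons c122 122 1 y122 z122 (.cons c143 143 6 y143 z143 (.cons c172 172 6 y172 z172 (.cons c145 145 24 y145 z145 (.cons c173 173 24 y173 z173 (.cons c146 146 32 y146 z146 .nil)))))) (.cons 22 719623200 (.cons c140 140 24 y140 z140 (.cons c128 128 24 y128 z128 (.cons c136 136 24 y136 z136 (.cons c137 137 0 y137 z137 (.cons c141 141 6 y141 z141 (.cons c129 129 6 y129 z129 (.cons c130 130 0 y130 z130 (.cons c131 131 6 y131 z131 (.cons c132 132 24 y132 z132 (.cons c122 122 1 y122 z122 (.cons c139 139 6 y139 z139 .nil))))))))))) (.cons 23 686068789 (.cons c130 130 0 y130 z130 (.cons c131 131 6 y131 z131 (.cons c132 132 24 y132 z132 (.cons c122 122 1 y122 z122 (.cons c133 133 24 y133 z133 (.cons c134 134 6 y134 z134 .nil)))))) (.cons 28 719523969 .nil (.cons 29 685969558 .nil (.cons 30 719523872 .nil (.cons 31 685969461 .nil (.cons 32 621093025 (.cons c122 122 1 y122 z122 (.cons c142 142 6 y142 z142 (.cons c143 143 6 y143 z143 (.cons c144 144 24 y144 z144 (.cons c145 145 24 y145 z145 (.cons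 c146 146 32 y146 z146 .nil)))))) (.cons 33 587538614 (.cons c122 122 1 y122 z122 (.cons c123 123 0 y123 z123 (.cons c142 142 6 y142 z142 (.cons c143 143 6 y143 z143 (.cons c147 147 0 y147 z147 (.cons c149 149 0 y149 z149 (.cons c247 247 0 y247 z247 (.cons c282 282 0 y282 z282 (.cons c283 283 0 y283 z283 (.cons c144 144 24 y144 z144 (.cons c151 151 0 y151 z151 (.cons c145 145 24 y145 z145 (.cons c153 153 0 y153 z153 (.cons c146 146 32 y146 z146 (.cons c155 155 0 y155 z155 (.cons c284 284 0 y284 z284 (.cons c285 285 0 y285 z285 (.cons c125 125 0 y125 z125 (.cons c248 248 0 y248 z248 (.cons c126 126 0 y126 z126 (.cons c157 157 0 y157 z157 (.cons c158 158 0 y158 z158 (.cons c286 286 0 y286 z286 (.cons c159 159 0 y159 z159 (.cons c160 160 0 y160 z160 (.cons c163 163 0 y163 z163 (.cons c287 287 0 y287 z287 (.cons c164 164 0 y164 z164 (.cons c165 165 0 y165 z165 (.cons c288 288 0 y288 z288 (.cons c166 166 0 y166 z166 (.cons c167 167 0 y167 z167 (.cons c289 289 0 y289 z289 (.cons c168 168 0 y168 z168 .nil))))))))))))))))))))))))))))))))))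 (.cons 34 621092928 (.cons c122 122 1 y122 z122 .nil) (.cons 35 587538517 (.cons c122 122 1 y122 z122 (.cons c123 123 0 y123 z123 (.cons c247 247 0 y247 z247 (.cons c125 125 0 y125 z125 (.cons c248 248 0 y248 z248 (.cons c126 126 0 y126 z126 .nil)))))) (.cons 36 621089921 (.cons c135 135 24 y135 z135 (.cons c136 136 24 y136 z136 (.cons c137 137 0 y137 z137 (.cons c122 122 1 y122 z122 (.cons c143 143 6 y143 z143 (.cons c138 138 6 y138 z138 (.cons c139 139 6 y139 z139 (.cons c172 172 6 y172 z172 (.cons c145 145 24 y145 z145 (.cons c173 173 24 y173 z173 (.cons c146 146 32 y146 z146 .nil))))))))))) (.cons 37 587535510 (.cons c122 122 1 y122 z122 (.cons c123 123 0 y123 z123 (.cons c143 143 6 y143 z143 (.cons c149 149 0 y149 z149 (.cons c247 247 0 y247 z247 (.cons c283 283 0 y283 z283 (.cons c172 172 6 y172 z172 (.cons c174 174 0 y174 z174 (.cons c290 290 0 y290 z290 (.cons c145 145 24 y145 z145 (.cons c173 173 24 y173 z173 (.cons c153 153 0 y153 z153 (.cons c176 176 0 y176 z176 (.cons c146 146 32 y146 z146 (.cons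 c155 155 0 y155 z155 (.cons c284 284 0 y284 z284 (.cons c291 291 0 y291 z291 (.cons c285 285 0 y285 z285 (.cons c125 125 0 y125 z125 (.cons c248 248 0 y248 z248 (.cons c126 126 0 y126 z126 (.cons c158 158 0 y158 z158 (.cons c286 286 0 y286 z286 (.cons c160 160 0 y160 z160 (.cons c177 177 0 y177 z177 (.cons c292 292 0 y292 z292 (.cons c178 178 0 y178 z178 (.cons c165 165 0 y165 z165 (.cons c179 179 0 y179 z179 (.cons c288 288 0 y288 z288 (.cons c293 293 0 y293 z293 (.cons c166 166 0 y166 z166 (.cons c180 180 0 y180 z180 (.cons c167 167 0 y167 z167 (.cons c289 289 0 y289 z289 (.cons c168 168 0 y168 z168 .nil)))))))))))))))))))))))))))))))))))) (.cons 38 621089824 (.cons c140 140 24 y140 z140 (.cons c136 136 24 y136 z136 (.cons c137 137 0 y137 z137 (.cons c141 141 6 y141 z141 (.cons c122 122 1 y122 z122 (.cons c139 139 6 y139 z139 .nil)))))) (.cons 39 587535413 (.cons c122 122 1 y122 z122 (.cons c123 123 24 y123 z123 (.cons c247 247 24 y247 z247 (.cons c125 125 6 y125 z125 (.cons c248 248 6 y248 z248 (.cons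 c126 126 0 y126 z126 .nil)))))) (.cons 44 620990593 .nil (.cons 45 587436182 .nil (.cons 46 620990496 .nil (.cons 47 587436085 .nil (.cons 48 617914529 (.cons c122 122 1 y122 z122 (.cons c183 183 6 y183 z183 (.cons c142 142 6 y142 z142 (.cons c143 143 6 y143 z143 (.cons c224 224 6 y224 z224 (.cons c185 185 24 y185 z185 (.cons c186 186 0 y186 z186 (.cons c144 144 24 y144 z144 (.cons c145 145 24 y145 z145 (.cons c146 146 32 y146 z146 (.cons c225 225 24 y225 z225 .nil))))))))))) (.cons 49 584360118 (.cons c122 122 1 y122 z122 (.cons c183 183 6 y183 z183 (.cons c142 142 6 y142 z142 (.cons c143 143 6 y143 z143 (.cons c224 224 6 y224 z224 (.cons c185 185 24 y185 z185 (.cons c186 186 0 y186 z186 (.cons c144 144 24 y144 z144 (.cons c145 145 24 y145 z145 (.cons c146 146 32 y146 z146 (.cons c225 225 24 y225 z225 .nil))))))))))) (.cons 50 617914432 (.cons c122 122 1 y122 z122 (.cons c183 183 6 y183 z183 (.cons c224 224 6 y224 z224 (.cons c185 185 24 y185 z185 (.cons c186 186 0 y186 z186 (.cons c225 225 24 y225 z225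 .nil)))))) (.cons 51 584360021 (.cons c122 122 1 y122 z122 (.cons c183 183 6 y183 z183 (.cons c224 224 6 y224 z224 (.cons c185 185 24 y185 z185 (.cons c186 186 0 y186 z186 (.cons c225 225 24 y225 z225 .nil)))))) (.cons 52 617911425 (.cons c135 135 24 y135 z135 (.cons c136 136 24 y136 z136 (.cons c137 137 0 y137 z137 (.cons c122 122 1 y122 z122 (.cons c143 143 6 y143 z143 (.cons c138 138 6 y138 z138 (.cons c139 139 6 y139 z139 (.cons c172 172 6 y172 z172 (.cons c145 145 24 y145 z145 (.cons c173 173 24 y173 z173 (.cons c146 146 32 y146 z146 .nil))))))))))) (.cons 53 584357014 (.cons c122 122 1 y122 z122 (.cons c143 143 6 y143 z143 (.cons c172 172 6 y172 z172 (.cons c145 145 24 y145 z145 (.cons c173 173 24 y173 z173 (.cons c146 146 32 y146 z146 .nil)))))) (.cons 54 617911328 (.cons c140 140 24 y140 z140 (.cons c136 136 24 y136 z136 (.cons c137 137 0 y137 z137 (.cons c141 141 6 y141 z141 (.cons c122 122 1 y122 z122 (.cons c139 139 6 y139 z139 .nil)))))) (.cons 55 584356917 (.cons c122 122 1 y122 z122 (.cons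 c308 308 0 y308 z308 (.cons c309 309 7 y309 z309 (.cons c310 310 0 y310 z310 .nil)))) (.cons 60 617812097 .nil (.cons 61 584257686 .nil (.cons 62 617812000 .nil (.cons 63 584257589 (.cons c323 323 0 y323 z323 (.cons c324 324 0 y324 z324 (.cons c325 325 0 y325 z325 (.cons c310 310 0 y310 z310 (.cons c326 326 0 y326 z326 (.cons c327 327 0 y327 z327 .nil)))))) .nil))))))))))))))))))))))))))))))))))))))))))))))))

theorem a37 : chkA TCf 722804897 E37 = true := by decide +kernel

theorem b37 : chkB row E37 = true := by decide +kernel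

theorem d37 : chkC E37 = true := by decide +kernel

/-- windows 0:1 1:0 1:2 3:0 3:2 5:1 -/
def E43 : Es :=
  (.cons 0 719722625 (.cons c135 135 3 y135 z135 (.cons c136 136 3 y136 z136 (.cons c137 137 4 y137 z137 (.cons c122 122 8 y122 z122 (.cons c138 138 48 y138 z138 (.cons c139 139 48 y139 z139 .nil)))))) (.cons 1 686168214 (.cons c122 122 8 y122 z122 .nil) (.cons 2 719722528 (.cons c140 140 3 y140 z140 (.cons c128 128 3 y128 z128 (.cons c136 136 3 y136 z136 (.cons c137 137 4 y137 z137 (.cons c141 141 48 y141 z141 (.cons c129 129 48 y129 z129 (.cons c130 130 0 y130 z130 (.cons c131 131 48 y131 z131 (.cons c132 132 3 y132 z132 (.cons c122 122 8 y122 z122 (.cons c139 139 48 y139 z139 .nil))))))))))) (.cons 3 686168117 (.cons c130 130 0 y130 z130 (.cons c131 131 48 y131 z131 (.cons c132 132 3 y132 z132 (.cons c122 122 8 y122 z122 (.cons c133 133 3 y133 z133 (.cons c134 134 48 y134 z134 .nil)))))) (.cons 6 719719424 .nil (.cons 7 686165013 .nil (.cons 8 719623297 (.cons c135 135 3 y135 z135 (.cons c136 136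 3 y136 z136 (.cons c137 137 4 y137 z137 (.cons c122 122 8 y122 z122 (.cons c143 143 48 y143 z143 (.cons c138 138 48 y138 z138 (.cons c139 139 48 y139 z139 (.cons c172 172 48 y172 z172 (.cons c145 145 3 y145 z145 (.cons c173 173 3 y173 z173 (.cons c146 146 0 y146 z146 .nil))))))))))) (.cons 9 686068886 (.cons c122 122 8 y122 z122 (.cons c143 143 48 y143 z143 (.cons c172 172 48 y172 z172 (.cons c145 145 3 y145 z145 (.cons c173 173 3 y173 z173 (.cons c146 146 0 y146 z146 .nil)))))) (.cons 10 719623200 (.cons c140 140 3 y140 z140 (.cons c128 128 3 y128 z128 (.cons c136 136 3 y136 z136 (.cons c137 137 4 y137 z137 (.cons c141 141 48 y141 z141 (.cons c129 129 48 y129 z129 (.cons c130 130 0 y130 z130 (.cons c131 131 48 y131 z131 (.cons c132 132 3 y132 z132 (.cons c122 122 8 y122 z122 (.cons c139 139 48 y139 z139 .nil))))))))))) (.cons 11 686068789 (.cons c130 130 0 y130 z130 (.cons c131 131 48 y131 z131 (.cons c132 132 3 y132 z132 (.cons c122 122 8 y122 z122 (.cons c133 133 3 y133 z133 (.cons c134 134 48 y134 z134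 .nil)))))) (.cons 14 719620096 .nil (.cons 15 686065685 .nil (.cons 24 716444801 .nil (.cons 25 682890390 .nil (.cons 26 716444704 .nil (.cons 27 682890293 .nil (.cons 30 716441600 .nil (.cons 31 682887189 .nil (.cons 32 618010753 (.cons c252 252 0 y252 z252 (.cons c296 296 0 y296 z296 (.cons c253 253 0 y253 z253 (.cons c254 254 0 y254 z254 (.cons c297 297 0 y297 z297 (.cons c255 255 0 y255 z255 (.cons c256 256 0 y256 z256 (.cons c298 298 0 y298 z298 (.cons c257 257 0 y257 z257 (.cons c243 243 0 y243 z243 (.cons c294 294 0 y294 z294 (.cons c244 244 0 y244 z244 (.cons c260 260 0 y260 z260 (.cons c261 261 0 y261 z261 (.cons c299 299 0 y299 z299 (.cons c262 262 0 y262 z262 (.cons c263 263 0 y263 z263 (.cons c135 135 3 y135 z135 (.cons c265 265 0 y265 z265 (.cons c136 136 3 y136 z136 (.cons c267 267 0 y267 z267 (.cons c137 137 4 y137 z137 (.cons c269 269 0 y269 z269 (.cons c300 300 0 y300 z300 (.cons c301 301 0 y301 z301 (.cons c122 122 8 y122 z122 (.cons c246 246 0 y246 z246 (.cons c138 138 48 y138 z138 (.cons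 c139 139 48 y139 z139 (.cons c271 271 0 y271 z271 (.cons c273 273 0 y273 z273 (.cons c295 295 0 y295 z295 (.cons c302 302 0 y302 z302 (.cons c303 303 0 y303 z303 .nil)))))))))))))))))))))))))))))))))) (.cons 33 584456342 (.cons c243 243 0 y243 z243 (.cons c294 294 0 y294 z294 (.cons c244 244 0 y244 z244 (.cons c122 122 8 y122 z122 (.cons c246 246 0 y246 z246 (.cons c295 295 0 y295 z295 .nil)))))) (.cons 34 618010656 (.cons c275 275 0 y275 z275 (.cons c254 254 0 y254 z254 (.cons c304 304 0 y304 z304 (.cons c297 297 0 y297 z297 (.cons c276 276 0 y276 z276 (.cons c255 255 0 y255 z255 (.cons c256 256 0 y256 z256 (.cons c298 298 0 y298 z298 (.cons c257 257 0 y257 z257 (.cons c277 277 0 y277 z277 (.cons c305 305 0 y305 z305 (.cons c278 278 0 y278 z278 (.cons c243 243 0 y243 z243 (.cons c294 294 0 y294 z294 (.cons c244 244 0 y244 z244 (.cons c261 261 0 y261 z261 (.cons c299 299 0 y299 z299 (.cons c263 263 0 y263 z263 (.cons c140 140 3 y140 z140 (.cons c136 136 3 y136 z136 (.cons c279 279 0 y279 z279 (.cons c267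 267 0 y267 z267 (.cons c137 137 4 y137 z137 (.cons c269 269 0 y269 z269 (.cons c306 306 0 y306 z306 (.cons c300 300 0 y300 z300 (.cons c301 301 0 y301 z301 (.cons c141 141 48 y141 z141 (.cons c281 281 0 y281 z281 (.cons c307 307 0 y307 z307 (.cons c122 122 8 y122 z122 (.cons c246 246 0 y246 z246 (.cons c139 139 48 y139 z139 (.cons c273 273 0 y273 z273 (.cons c295 295 0 y295 z295 (.cons c303 303 0 y303 z303 .nil)))))))))))))))))))))))))))))))))))) (.cons 35 584456245 (.cons c243 243 0 y243 z243 (.cons c294 294 0 y294 z294 (.cons c244 244 0 y244 z244 (.cons c122 122 8 y122 z122 (.cons c246 246 0 y246 z246 (.cons c295 295 0 y295 z295 .nil)))))) (.cons 38 618007552 .nil (.cons 39 584453141 .nil (.cons 40 617911425 (.cons c135 135 3 y135 z135 (.cons c136 136 3 y136 z136 (.cons c137 137 4 y137 z137 (.cons c122 122 8 y122 z122 (.cons c143 143 48 y143 z143 (.cons c138 138 48 y138 z138 (.cons c139 139 48 y139 z139 (.cons c172 172 48 y172 z172 (.cons c145 145 3 y145 z145 (.cons c173 173 3 y173 z173 (.cons c146 146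 0 y146 z146 .nil))))))))))) (.cons 41 584357014 (.cons c122 122 8 y122 z122 (.cons c143 143 48 y143 z143 (.cons c172 172 48 y172 z172 (.cons c145 145 3 y145 z145 (.cons c173 173 3 y173 z173 (.cons c146 146 0 y146 z146 .nil)))))) (.cons 42 617911328 (.cons c140 140 3 y140 z140 (.cons c136 136 3 y136 z136 (.cons c137 137 4 y137 z137 (.cons c141 141 48 y141 z141 (.cons c122 122 8 y122 z122 (.cons c139 139 48 y139 z139 .nil)))))) (.cons 43 584356917 (.cons c122 122 8 y122 z122 (.cons c308 308 0 y308 z308 (.cons c309 309 56 y309 z309 (.cons c310 310 0 y310 z310 .nil)))) (.cons 46 617908224 .nil (.cons 47 584353813 (.cons c316 316 0 y316 z316 (.cons c310 310 0 y310 z310 (.cons c317 317 0 y317 z317 (.cons c318 318 0 y318 z318 (.cons c319 319 0 y319 z319 (.cons c320 320 0 y320 z320 .nil)))))) (.cons 56 614732929 .nil (.cons 57 581178518 .nil (.cons 58 614732832 .nil (.cons 59 581178421 (.cons c310 310 0 y310 z310 (.cons c330 330 0 y330 z330 (.cons c331 331 0 y331 z331 (.cons c332 332 0 y332 z332 (.cons c333 333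 0 y333 z333 (.cons c334 334 0 y334 z334 .nil)))))) (.cons 62 614729728 .nil (.cons 63 581175317 (.cons c316 316 0 y316 z316 (.cons c310 310 0 y310 z310 (.cons c317 317 0 y317 z317 (.cons c318 318 0 y318 z318 (.cons c319 319 0 y319 z319 (.cons c320 320 0 y320 z320 .nil)))))) .nil))))))))))))))))))))))))))))))))))))

theorem a43 : chkA TCf 719722625 E43 = true := by decide +kernel

theorem b43 : chkB row E43 = true := by decide +kernel

theorem d43 : chkC E43 = true := by decide +kernel

/-- windows 0:1 1:0 1:1 2:1 3:2 5:1 -/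
def E47 : Es :=
  (.cons 0 719623297 (.cons c135 135 771 y135 z135 (.cons c136 136 771 y136 z136 (.cons c137 137 4 y137 z137 (.cons c122 122 8 y122 z122 (.cons c143 143 240 y143 z143 (.cons c138 138 240 y138 z138 (.cons c139 139 240 y139 z139 (.cons c172 172 240 y172 z172 (.cons c145 145 771 y145 z145 (.cons c173 173 771 y173 z173 (.cons c146 146 1024 y146 z146 .nil))))))))))) (.cons 1 686068886 (.cons c122 122 8 y122 z122 (.cons c143 143 240 y143 z143 (.cons c172 172 240 y172 z172 (.cons c145 145 771 y145 z145 (.cons c173 173 771 y173 z173 (.cons c146 146 1024 y146 z146 .nil)))))) (.cons 2 719623200 (.cons c140 140 771 y140 z140 (.cons c128 128 771 y128 z128 (.cons c136 136 771 y136 z136 (.cons c137 137 4 y137 z137 (.cons c141 141 240 y141 z141 (.cons c129 129 240 y129 z129 (.cons c130 130 0 y130 z130 (.cons c131 131 240 y131 z131 (.cons c132 132 771 y132 z132 (.cons c122 122 8 y122 z122 (.cons c139 139 240 y139 z139 .nil))))))))))) (.cons 3 686068789 (.cons c130 130 0 y130 z130 (.cons c131 131 240 y131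 z131 (.cons c132 132 771 y132 z132 (.cons c122 122 8 y122 z122 (.cons c133 133 771 y133 z133 (.cons c134 134 240 y134 z134 .nil)))))) (.cons 6 719620096 .nil (.cons 7 686065685 .nil (.cons 8 719523969 .nil (.cons 9 685969558 .nil (.cons 10 719523872 .nil (.cons 11 685969461 .nil (.cons 14 719520768 .nil (.cons 15 685966357 .nil (.cons 16 716444801 .nil (.cons 17 682890390 .nil (.cons 18 716444704 .nil (.cons 19 682890293 .nil (.cons 22 716441600 .nil (.cons 23 682887189 .nil (.cons 24 716345473 .nil (.cons 25 682791062 .nil (.cons 26 716345376 .nil (.cons 27 682790965 .nil (.cons 30 716342272 .nil (.cons 31 682787861 .nil (.cons 32 617911425 (.cons c135 135 771 y135 z135 (.cons c136 136 771 y136 z136 (.cons c137 137 4 y137 z137 (.cons c122 122 8 y122 z122 (.cons c143 143 240 y143 z143 (.cons c138 138 240 y138 z138 (.cons c139 139 240 y139 z139 (.cons c172 172 240 y172 z172 (.cons c145 145 771 y145 z145 (.cons c173 173 771 y173 z173 (.cons c146 146 1024 y146 z146 .nil))))))))))) (.cons 33 584357014 (.cons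 c122 122 8 y122 z122 (.cons c143 143 240 y143 z143 (.cons c172 172 240 y172 z172 (.cons c145 145 771 y145 z145 (.cons c173 173 771 y173 z173 (.cons c146 146 1024 y146 z146 .nil)))))) (.cons 34 617911328 (.cons c140 140 771 y140 z140 (.cons c136 136 771 y136 z136 (.cons c137 137 4 y137 z137 (.cons c141 141 240 y141 z141 (.cons c122 122 8 y122 z122 (.cons c139 139 240 y139 z139 .nil)))))) (.cons 35 584356917 (.cons c122 122 8 y122 z122 (.cons c308 308 0 y308 z308 (.cons c309 309 248 y309 z309 (.cons c310 310 0 y310 z310 .nil)))) (.cons 38 617908224 .nil (.cons 39 584353813 (.cons c316 316 0 y316 z316 (.cons c310 310 0 y310 z310 (.cons c317 317 0 y317 z317 (.cons c318 318 0 y318 z318 (.cons c319 319 0 y319 z319 (.cons c320 320 0 y320 z320 .nil)))))) (.cons 40 617812097 .nil (.cons 41 584257686 .nil (.cons 42 617812000 .nil (.cons 43 584257589 (.cons c323 323 0 y323 z323 (.cons c324 324 0 y324 z324 (.cons c325 325 0 y325 z325 (.cons c310 310 0 y310 z310 (.cons c326 326 0 y326 z326 (.cons c327 327 0 y327 z327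 .nil)))))) (.cons 46 617808896 .nil (.cons 47 584254485 (.cons c324 324 0 y324 z324 (.cons c316 316 0 y316 z316 (.cons c328 328 0 y328 z328 (.cons c325 325 0 y325 z325 (.cons c310 310 0 y310 z310 (.cons c317 317 0 y317 z317 (.cons c327 327 0 y327 z327 (.cons c318 318 0 y318 z318 (.cons c319 319 0 y319 z319 (.cons c320 320 0 y320 z320 (.cons c329 329 0 y329 z329 .nil))))))))))) (.cons 48 614732929 .nil (.cons 49 581178518 .nil (.cons 50 614732832 .nil (.cons 51 581178421 (.cons c310 310 0 y310 z310 (.cons c330 330 0 y330 z330 (.cons c331 331 0 y331 z331 (.cons c332 332 0 y332 z332 (.cons c333 333 0 y333 z333 (.cons c334 334 0 y334 z334 .nil)))))) (.cons 54 614729728 .nil (.cons 55 581175317 (.cons c316 316 0 y316 z316 (.cons c310 310 0 y310 z310 (.cons c317 317 0 y317 z317 (.cons c318 318 0 y318 z318 (.cons c319 319 0 y319 z319 (.cons c320 320 0 y320 z320 .nil)))))) (.cons 56 614633601 .nil (.cons 57 581079190 .nil (.cons 58 614633504 .nil (.cons 59 581079093 (.cons c323 323 0 y323 z323 (.cons c324 324 0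 y324 z324 (.cons c325 325 0 y325 z325 (.cons c310 310 0 y310 z310 (.cons c331 331 0 y331 z331 (.cons c326 326 0 y326 z326 (.cons c327 327 0 y327 z327 (.cons c360 360 0 y360 z360 (.cons c333 333 0 y333 z333 (.cons c361 361 0 y361 z361 (.cons c334 334 0 y334 z334 .nil))))))))))) (.cons 62 614630400 .nil (.cons 63 581075989 (.cons c324 324 0 y324 z324 (.cons c316 316 0 y316 z316 (.cons c328 328 0 y328 z328 (.cons c325 325 0 y325 z325 (.cons c310 310 0 y310 z310 (.cons c317 317 0 y317 z317 (.cons c327 327 0 y327 z327 (.cons c318 318 0 y318 z318 (.cons c319 319 0 y319 z319 (.cons c320 320 0 y320 z320 (.cons c329 329 0 y329 z329 .nil))))))))))) .nil))))))))))))))))))))))))))))))))))))))))))))))))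

theorem a47 : chkA TCf 719623297 E47 = true := by decide +kernel

theorem b47 : chkB row E47 = true := by decide +kernel

theorem d47 : chkC E47 = true := by decide +kernel

/-- windows 0:0 0:1 1:2 3:1 4:0 4:2 -/
def E52 : Es :=
  (.cons 0 621189152 (.cons c274 274 27 y274 z274 (.cons c250 250 27 y250 z250 (.cons c251 251 132 y251 z251 (.cons c275 275 27 y275 z275 (.cons c254 254 27 y254 z254 (.cons c276 276 96 y276 z276 (.cons c255 255 96 y255 z255 (.cons c256 256 132 y256 z256 (.cons c257 257 256 y257 z257 (.cons c277 277 37376 y277 z277 (.cons c278 278 66560 y278 z278 (.cons c242 242 10240 y242 z242 (.cons c259 259 37376 y259 z259 (.cons c243 243 10240 y243 z243 (.cons c244 244 16384 y244 z244 (.cons c261 261 37376 y261 z261 (.cons c263 263 66560 y263 z263 (.cons c140 140 393216 y140 z140 (.cons c136 136 393216 y136 z136 (.cons c279 279 3670016 y279 z279 (.cons c266 266 3670016 y266 z266 (.cons c267 267 3670016 y267 z267 (.cons c137 137 4194304 y137 z137 (.cons c268 268 25165824 y268 z268 (.cons c269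 269 25165824 y269 z269 (.cons c141 141 2181038080 y141 z141 (.cons c280 280 13086228480 y280 z280 (.cons c281 281 13086228480 y281 z281 (.cons c122 122 268435456 y122 z122 (.cons c245 245 1610612736 y245 z245 (.cons c246 246 1610612736 y246 z246 (.cons c139 139 2181038080 y139 z139 (.cons c272 272 13086228480 y272 z272 (.cons c273 273 13086228480 y273 z273 .nil)))))))))))))))))))))))))))))))))) (.cons 1 587634741 (.cons c242 242 10240 y242 z242 (.cons c243 243 10240 y243 z243 (.cons c244 244 16384 y244 z244 (.cons c122 122 268435456 y122 z122 (.cons c123 123 1610612736 y123 z123 (.cons c245 245 1610612736 y245 z245 (.cons c246 246 1610612736 y246 z246 (.cons c247 247 1610612736 y247 z247 (.cons c125 125 10240 y125 z125 (.cons c248 248 10240 y248 z248 (.cons c126 126 0 y126 z126 .nil))))))))))) (.cons 3 587635412 .nil (.cons 4 621186048 .nil (.cons 5 587631637 .nil (.cons 7 587632308 .nil (.cons 8 621089824 (.cons c140 140 393216 y140 z140 (.cons c136 136 393216 y136 z136 (.cons c137 137 4194304 y137 z137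 (.cons c141 141 2181038080 y141 z141 (.cons c122 122 268435456 y122 z122 (.cons c139 139 2181038080 y139 z139 .nil)))))) (.cons 9 587535413 (.cons c122 122 268435456 y122 z122 (.cons c123 123 1610612736 y123 z123 (.cons c247 247 1610612736 y247 z247 (.cons c125 125 10240 y125 z125 (.cons c248 248 10240 y248 z248 (.cons c126 126 0 y126 z126 .nil)))))) (.cons 11 587536084 .nil (.cons 12 621086720 .nil (.cons 13 587532309 .nil (.cons 15 587532980 .nil (.cons 16 618010656 (.cons c275 275 27 y275 z275 (.cons c254 254 27 y254 z254 (.cons c304 304 27 y304 z304 (.cons c297 297 27 y297 z297 (.cons c276 276 96 y276 z276 (.cons c255 255 96 y255 z255 (.cons c256 256 132 y256 z256 (.cons c298 298 132 y298 z298 (.cons c257 257 256 y257 z257 (.cons c277 277 37376 y277 z277 (.cons c305 305 37376 y305 z305 (.cons c278 278 66560 y278 z278 (.cons c243 243 10240 y243 z243 (.cons c294 294 10240 y294 z294 (.cons c244 244 16384 y244 z244 (.cons c261 261 37376 y261 z261 (.cons c299 299 37376 y299 z299 (.cons c263 263 66560 y263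 z263 (.cons c140 140 393216 y140 z140 (.cons c136 136 393216 y136 z136 (.cons c279 279 3670016 y279 z279 (.cons c267 267 3670016 y267 z267 (.cons c137 137 4194304 y137 z137 (.cons c269 269 25165824 y269 z269 (.cons c306 306 3670016 y306 z306 (.cons c300 300 3670016 y300 z300 (.cons c301 301 25165824 y301 z301 (.cons c141 141 2181038080 y141 z141 (.cons c281 281 13086228480 y281 z281 (.cons c307 307 13086228480 y307 z307 (.cons c122 122 268435456 y122 z122 (.cons c246 246 1610612736 y246 z246 (.cons c139 139 2181038080 y139 z139 (.cons c273 273 13086228480 y273 z273 (.cons c295 295 1610612736 y295 z295 (.cons c303 303 13086228480 y303 z303 .nil)))))))))))))))))))))))))))))))))))) (.cons 17 584456245 (.cons c243 243 10240 y243 z243 (.cons c294 294 10240 y294 z294 (.cons c244 244 16384 y244 z244 (.cons c122 122 268435456 y122 z122 (.cons c246 246 1610612736 y246 z246 (.cons c295 295 1610612736 y295 z295 .nil)))))) (.cons 19 584456916 .nil (.cons 20 618007552 .nil (.cons 21 584453141 .nil (.cons 23 584453812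 .nil (.cons 24 617911328 (.cons c140 140 393216 y140 z140 (.cons c136 136 393216 y136 z136 (.cons c137 137 4194304 y137 z137 (.cons c141 141 2181038080 y141 z141 (.cons c122 122 268435456 y122 z122 (.cons c139 139 2181038080 y139 z139 .nil)))))) (.cons 25 584356917 (.cons c122 122 268435456 y122 z122 (.cons c308 308 3670016 y308 z308 (.cons c309 309 2449521152 y309 z309 (.cons c310 310 3670016 y310 z310 .nil)))) (.cons 27 584357588 (.cons c311 311 3670016 y311 z311 (.cons c312 312 3670016 y312 z312 (.cons c313 313 3670016 y313 z313 (.cons c314 314 3670016 y314 z314 (.cons c315 315 3670016 y315 z315 (.cons c310 310 3670016 y310 z310 .nil)))))) (.cons 28 617908224 .nil (.cons 29 584353813 (.cons c316 316 0 y316 z316 (.cons c310 310 3670016 y310 z310 (.cons c317 317 0 y317 z317 (.cons c318 318 3670016 y318 z318 (.cons c319 319 3670016 y319 z319 (.cons c320 320 13086228480 y320 z320 .nil)))))) (.cons 31 584354484 (.cons c321 321 3670016 y321 z321 (.cons c311 311 3670016 y311 z311 (.cons c312 312 3670016 y312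 z312 (.cons c313 313 3670016 y313 z313 (.cons c322 322 3670016 y322 z322 (.cons c314 314 3670016 y314 z314 (.cons c315 315 3670016 y315 z315 (.cons c310 310 3670016 y310 z310 (.cons c317 317 3670016 y317 z317 (.cons c319 319 3670016 y319 z319 (.cons c320 320 13086228480 y320 z320 .nil))))))))))) (.cons 48 516298784 .nil (.cons 49 482744373 .nil (.cons 51 482745044 .nil (.cons 52 516295680 (.cons c375 375 27 y375 z375 (.cons c376 376 37376 y376 z376 (.cons c377 377 3670016 y377 z377 (.cons c378 378 13086228480 y378 z378 .nil)))) (.cons 53 482741269 .nil (.cons 55 482741940 .nil (.cons 56 516199456 .nil (.cons 57 482645045 (.cons c370 370 3670016 y370 z370 (.cons c310 310 3670016 y310 z310 (.cons c371 371 3670016 y371 z371 (.cons c372 372 0 y372 z372 (.cons c373 373 0 y373 z373 (.cons c374 374 27 y374 z374 .nil)))))) (.cons 59 482645716 (.cons c370 370 3670016 y370 z370 (.cons c310 310 3670016 y310 z310 (.cons c371 371 3670016 y371 z371 (.cons c372 372 0 y372 z372 (.cons c373 373 0 y373 z373 (.cons c374 374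 27 y374 z374 .nil)))))) (.cons 60 516196352 .nil (.cons 61 482641941 (.cons c379 379 13086311424 y379 z379 (.cons c370 370 3670016 y370 z370 (.cons c380 380 13086311424 y380 z380 (.cons c381 381 3670272 y381 z381 (.cons c382 382 3670272 y382 z382 (.cons c383 383 13086228480 y383 z383 (.cons c316 316 0 y316 z316 (.cons c384 384 13086311424 y384 z384 (.cons c385 385 4060133888 y385 z385 (.cons c386 386 4060133888 y386 z386 (.cons c387 387 0 y387 z387 (.cons c310 310 3670016 y310 z310 (.cons c317 317 0 y317 z317 (.cons c371 371 3670016 y371 z371 (.cons c388 388 13086311424 y388 z388 (.cons c372 372 0 y372 z372 (.cons c389 389 4060133888 y389 z389 (.cons c373 373 0 y373 z373 (.cons c390 390 4060133888 y390 z390 (.cons c374 374 27 y374 z374 (.cons c391 391 0 y391 z391 (.cons c318 318 3670016 y318 z318 (.cons c392 392 3670272 y392 z392 (.cons c319 319 3670016 y319 z319 (.cons c320 320 13086228480 y320 z320 (.cons c393 393 3670272 y393 z393 (.cons c394 394 13086228480 y394 z394 (.cons c395 395 4194463 y395 z395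 (.cons c396 396 4194463 y396 z396 (.cons c397 397 27 y397 z397 (.cons c398 398 4194463 y398 z398 (.cons c399 399 0 y399 z399 (.cons c400 400 4194463 y400 z400 (.cons c401 401 0 y401 z401 (.cons c402 402 27 y402 z402 (.cons c403 403 37376 y403 z403 .nil)))))))))))))))))))))))))))))))))))) (.cons 63 482642612 (.cons c321 321 3670016 y321 z321 (.cons c404 404 3670272 y404 z404 (.cons c405 405 4194463 y405 z405 (.cons c406 406 4194463 y406 z406 (.cons c407 407 27 y407 z407 (.cons c408 408 13086311424 y408 z408 (.cons c370 370 3670016 y370 z370 (.cons c380 380 13086311424 y380 z380 (.cons c382 382 3670272 y382 z382 (.cons c383 383 13086228480 y383 z383 (.cons c322 322 3670016 y322 z322 (.cons c409 409 13086311424 y409 z409 (.cons c310 310 3670016 y310 z310 (.cons c317 317 3670016 y317 z317 (.cons c371 371 3670016 y371 z371 (.cons c388 388 13086311424 y388 z388 (.cons c410 410 4060133888 y410 z410 (.cons c411 411 0 y411 z411 (.cons c372 372 0 y372 z372 (.cons c389 389 4060133888 y389 z389 (.cons c373 373 0 y373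 z373 (.cons c390 390 4060133888 y390 z390 (.cons c374 374 27 y374 z374 (.cons c391 391 0 y391 z391 (.cons c319 319 3670016 y319 z319 (.cons c320 320 13086228480 y320 z320 (.cons c393 393 3670272 y393 z393 (.cons c394 394 13086228480 y394 z394 (.cons c398 398 4194463 y398 z398 (.cons c399 399 0 y399 z399 (.cons c400 400 4194463 y400 z400 (.cons c401 401 0 y401 z401 (.cons c402 402 27 y402 z402 (.cons c403 403 37376 y403 z403 .nil)))))))))))))))))))))))))))))))))) .nil))))))))))))))))))))))))))))))))))))

theorem a52 : chkA TCf 621189152 E52 = true := by decide +kernel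

theorem b52 : chkB row E52 = true := by decide +kernel

theorem d52 : chkC E52 = true := by decide +kernel

/-- windows 0:0 0:2 2:1 3:0 3:1 4:2 -/
def E58 : Es :=
  (.cons 0 618013760 (.cons c243 243 39 y243 z243 (.cons c182 182 39 y182 z182 (.cons c294 294 39 y294 z294 (.cons c244 244 8 y244 z244 (.cons c122 122 16 y122 z122 (.cons c183 183 39 y183 z183 (.cons c246 246 1472 y246 z246 (.cons c184 184 1472 y184 z184 (.cons c185 185 1472 y185 z185 (.cons c186 186 512 y186 z186 (.cons c295 295 1472 y295 z295 .nil))))))))))) (.cons 1 584459349 (.cons c243 243 39 y243 z243 (.cons c182 182 39 y182 z182 (.cons c294 294 39 y294 z294 (.cons c244 244 8 y244 z244 (.cons c122 122 16 y122 z122 (.cons c183 183 39 y183 z183 (.cons c246 246 1472 y246 z246 (.cons c184 184 1472 y184 z184 (.cons c185 185 1472 y185 z185 (.cons c186 186 512 y186 z186 (.cons c295 295 1472 y295 z295 .nil))))))))))) (.cons 3 584460020 .nil (.cons 4 618010656 (.cons c275 275 0 y275 z275 (.cons c254 254 0 y254 z254 (.cons c304 304 0 y304 z304 (.cons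 c297 297 0 y297 z297 (.cons c276 276 0 y276 z276 (.cons c255 255 0 y255 z255 (.cons c256 256 0 y256 z256 (.cons c298 298 0 y298 z298 (.cons c257 257 0 y257 z257 (.cons c277 277 0 y277 z277 (.cons c305 305 0 y305 z305 (.cons c278 278 0 y278 z278 (.cons c243 243 39 y243 z243 (.cons c294 294 39 y294 z294 (.cons c244 244 8 y244 z244 (.cons c261 261 0 y261 z261 (.cons c299 299 0 y299 z299 (.cons c263 263 0 y263 z263 (.cons c140 140 0 y140 z140 (.cons c136 136 0 y136 z136 (.cons c279 279 0 y279 z279 (.cons c267 267 0 y267 z267 (.cons c137 137 0 y137 z137 (.cons c269 269 0 y269 z269 (.cons c306 306 0 y306 z306 (.cons c300 300 0 y300 z300 (.cons c301 301 0 y301 z301 (.cons c141 141 0 y141 z141 (.cons c281 281 0 y281 z281 (.cons c307 307 0 y307 z307 (.cons c122 122 16 y122 z122 (.cons c246 246 1472 y246 z246 (.cons c139 139 0 y139 z139 (.cons c273 273 0 y273 z273 (.cons c295 295 1472 y295 z295 (.cons c303 303 0 y303 z303 .nil)))))))))))))))))))))))))))))))))))) (.cons 5 584456245 (.cons c243 243 39 y243 z243 (.cons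 c294 294 39 y294 z294 (.cons c244 244 8 y244 z244 (.cons c122 122 16 y122 z122 (.cons c246 246 1472 y246 z246 (.cons c295 295 1472 y295 z295 .nil)))))) (.cons 7 584456916 .nil (.cons 8 617914432 (.cons c122 122 16 y122 z122 (.cons c183 183 39 y183 z183 (.cons c224 224 39 y224 z224 (.cons c185 185 1472 y185 z185 (.cons c186 186 512 y186 z186 (.cons c225 225 1472 y225 z225 .nil)))))) (.cons 9 584360021 (.cons c122 122 16 y122 z122 (.cons c183 183 39 y183 z183 (.cons c224 224 39 y224 z224 (.cons c185 185 1472 y185 z185 (.cons c186 186 512 y186 z186 (.cons c225 225 1472 y225 z225 .nil)))))) (.cons 11 584360692 .nil (.cons 12 617911328 (.cons c140 140 0 y140 z140 (.cons c136 136 0 y136 z136 (.cons c137 137 0 y137 z137 (.cons c141 141 0 y141 z141 (.cons c122 122 16 y122 z122 (.cons c139 139 0 y139 z139 .nil)))))) (.cons 13 584356917 (.cons c122 122 16 y122 z122 (.cons c308 308 0 y308 z308 (.cons c309 309 55 y309 z309 (.cons c310 310 0 y310 z310 .nil)))) (.cons 15 584357588 (.cons c311 311 0 y311 z311 (.cons c312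 312 0 y312 z312 (.cons c313 313 0 y313 z313 (.cons c314 314 0 y314 z314 (.cons c315 315 0 y315 z315 (.cons c310 310 0 y310 z310 .nil)))))) (.cons 24 614735936 .nil (.cons 25 581181525 .nil (.cons 27 581182196 .nil (.cons 28 614732832 .nil (.cons 29 581178421 (.cons c310 310 0 y310 z310 (.cons c330 330 0 y330 z330 (.cons c331 331 0 y331 z331 (.cons c332 332 0 y332 z332 (.cons c333 333 0 y333 z333 (.cons c334 334 0 y334 z334 .nil)))))) (.cons 31 581179092 (.cons c311 311 0 y311 z311 (.cons c335 335 0 y335 z335 (.cons c336 336 0 y336 z336 (.cons c312 312 0 y312 z312 (.cons c313 313 0 y313 z313 (.cons c337 337 0 y337 z337 (.cons c338 338 0 y338 z338 (.cons c339 339 0 y339 z339 (.cons c340 340 0 y340 z340 (.cons c341 341 0 y341 z341 (.cons c342 342 0 y342 z342 (.cons c343 343 0 y343 z343 (.cons c344 344 0 y344 z344 (.cons c345 345 0 y345 z345 (.cons c346 346 0 y346 z346 (.cons c347 347 0 y347 z347 (.cons c348 348 0 y348 z348 (.cons c349 349 0 y349 z349 (.cons c314 314 0 y314 z314 (.cons c315 315 0 y315 z315 (.cons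 c310 310 0 y310 z310 (.cons c350 350 512 y350 z350 (.cons c351 351 512 y351 z351 (.cons c352 352 512 y352 z352 (.cons c353 353 512 y353 z353 (.cons c330 330 0 y330 z330 (.cons c331 331 0 y331 z331 (.cons c354 354 1535 y354 z354 (.cons c355 355 1535 y355 z355 (.cons c332 332 0 y332 z332 (.cons c356 356 1535 y356 z356 (.cons c357 357 1535 y357 z357 (.cons c333 333 0 y333 z333 (.cons c358 358 0 y358 z358 (.cons c359 359 0 y359 z359 (.cons c334 334 0 y334 z334 .nil)))))))))))))))))))))))))))))))))))) (.cons 32 516301888 .nil (.cons 33 482747477 .nil (.cons 35 482748148 .nil (.cons 36 516298784 .nil (.cons 37 482744373 .nil (.cons 39 482745044 .nil (.cons 40 516202560 .nil (.cons 41 482648149 .nil (.cons 43 482648820 .nil (.cons 44 516199456 .nil (.cons 45 482645045 (.cons c370 370 0 y370 z370 (.cons c310 310 0 y310 z310 (.cons c371 371 0 y371 z371 (.cons c372 372 0 y372 z372 (.cons c373 373 0 y373 z373 (.cons c374 374 0 y374 z374 .nil)))))) (.cons 47 482645716 (.cons c370 370 0 y370 z370 (.cons c310 310 0 y310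 z310 (.cons c371 371 0 y371 z371 (.cons c372 372 0 y372 z372 (.cons c373 373 0 y373 z373 (.cons c374 374 0 y374 z374 .nil)))))) (.cons 56 513024064 .nil (.cons 57 479469653 .nil (.cons 59 479470324 .nil (.cons 60 513020960 .nil (.cons 61 479466549 (.cons c310 310 0 y310 z310 (.cons c371 371 0 y371 z371 (.cons c330 330 0 y330 z330 (.cons c331 331 0 y331 z331 (.cons c412 412 0 y412 z412 (.cons c373 373 0 y373 z373 (.cons c374 374 0 y374 z374 (.cons c332 332 0 y332 z332 (.cons c333 333 0 y333 z333 (.cons c334 334 0 y334 z334 (.cons c413 413 0 y413 z413 .nil))))))))))) (.cons 63 479467220 (.cons c310 310 0 y310 z310 (.cons c371 371 0 y371 z371 (.cons c330 330 0 y330 z330 (.cons c331 331 0 y331 z331 (.cons c412 412 0 y412 z412 (.cons c373 373 0 y373 z373 (.cons c374 374 0 y374 z374 (.cons c332 332 0 y332 z332 (.cons c333 333 0 y333 z333 (.cons c334 334 0 y334 z334 (.cons c413 413 0 y413 z413 .nil))))))))))) .nil))))))))))))))))))))))))))))))))))))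

theorem a58 : chkA TCf 618013760 E58 = true := by decide +kernel

theorem b58 : chkB row E58 = true := by decide +kernel

theorem d58 : chkC E58 = true := by decide +kernel

/-- windows 0:1 1:0 1:2 3:0 3:1 4:2 -/
def E59 : Es :=
  (.cons 0 618010753 (.cons c252 252 27 y252 z252 (.cons c296 296 27 y296 z296 (.cons c253 253 36 y253 z253 (.cons c254 254 27 y254 z254 (.cons c297 297 27 y297 z297 (.cons c255 255 36 y255 z255 (.cons c256 256 192 y256 z256 (.cons c298 298 192 y298 z298 (.cons c257 257 256 y257 z257 (.cons c243 243 1536 y243 z243 (.cons c294 294 1536 y294 z294 (.cons c244 244 2048 y244 z244 (.cons c260 260 28672 y260 z260 (.cons c261 261 28672 y261 z261 (.cons c299 299 28672 y299 z299 (.cons c262 262 98304 y262 z262 (.cons c263 263 98304 y263 z263 (.cons c135 135 655360 y135 z135 (.cons c265 265 9699328 y265 z265 (.cons c136 136 655360 y136 z136 (.cons c267 267 9699328 y267 z267 (.cons c137 137 2097152 y137 z137 (.cons c269 269 20971520 y269 z269 (.cons c300 300 9699328 y300 z300 (.cons c301 301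 20971520 y301 z301 (.cons c122 122 33554432 y122 z122 (.cons c246 246 2214592512 y246 z246 (.cons c138 138 402653184 y138 z138 (.cons c139 139 402653184 y139 z139 (.cons c271 271 14495514624 y271 z271 (.cons c273 273 14495514624 y273 z273 (.cons c295 295 2214592512 y295 z295 (.cons c302 302 14495514624 y302 z302 (.cons c303 303 14495514624 y303 z303 .nil)))))))))))))))))))))))))))))))))) (.cons 1 584456342 (.cons c243 243 1536 y243 z243 (.cons c294 294 1536 y294 z294 (.cons c244 244 2048 y244 z244 (.cons c122 122 33554432 y122 z122 (.cons c246 246 2214592512 y246 z246 (.cons c295 295 2214592512 y295 z295 .nil)))))) (.cons 2 618010656 (.cons c275 275 27 y275 z275 (.cons c254 254 27 y254 z254 (.cons c304 304 27 y304 z304 (.cons c297 297 27 y297 z297 (.cons c276 276 36 y276 z276 (.cons c255 255 36 y255 z255 (.cons c256 256 192 y256 z256 (.cons c298 298 192 y298 z298 (.cons c257 257 256 y257 z257 (.cons c277 277 28672 y277 z277 (.cons c305 305 28672 y305 z305 (.cons c278 278 98304 y278 z278 (.cons c243 243 1536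 y243 z243 (.cons c294 294 1536 y294 z294 (.cons c244 244 2048 y244 z244 (.cons c261 261 28672 y261 z261 (.cons c299 299 28672 y299 z299 (.cons c263 263 98304 y263 z263 (.cons c140 140 655360 y140 z140 (.cons c136 136 655360 y136 z136 (.cons c279 279 9699328 y279 z279 (.cons c267 267 9699328 y267 z267 (.cons c137 137 2097152 y137 z137 (.cons c269 269 20971520 y269 z269 (.cons c306 306 9699328 y306 z306 (.cons c300 300 9699328 y300 z300 (.cons c301 301 20971520 y301 z301 (.cons c141 141 402653184 y141 z141 (.cons c281 281 14495514624 y281 z281 (.cons c307 307 14495514624 y307 z307 (.cons c122 122 33554432 y122 z122 (.cons c246 246 2214592512 y246 z246 (.cons c139 139 402653184 y139 z139 (.cons c273 273 14495514624 y273 z273 (.cons c295 295 2214592512 y295 z295 (.cons c303 303 14495514624 y303 z303 .nil)))))))))))))))))))))))))))))))))))) (.cons 3 584456245 (.cons c243 243 1536 y243 z243 (.cons c294 294 1536 y294 z294 (.cons c244 244 2048 y244 z244 (.cons c122 122 33554432 y122 z122 (.cons c246 246 2214592512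 y246 z246 (.cons c295 295 2214592512 y295 z295 .nil)))))) (.cons 6 618007552 .nil (.cons 7 584453141 .nil (.cons 8 617911425 (.cons c135 135 655360 y135 z135 (.cons c136 136 655360 y136 z136 (.cons c137 137 2097152 y137 z137 (.cons c122 122 33554432 y122 z122 (.cons c143 143 402653184 y143 z143 (.cons c138 138 402653184 y138 z138 (.cons c139 139 402653184 y139 z139 (.cons c172 172 402653184 y172 z172 (.cons c145 145 655360 y145 z145 (.cons c173 173 655360 y173 z173 (.cons c146 146 0 y146 z146 .nil))))))))))) (.cons 9 584357014 (.cons c122 122 33554432 y122 z122 (.cons c143 143 402653184 y143 z143 (.cons c172 172 402653184 y172 z172 (.cons c145 145 655360 y145 z145 (.cons c173 173 655360 y173 z173 (.cons c146 146 0 y146 z146 .nil)))))) (.cons 10 617911328 (.cons c140 140 655360 y140 z140 (.cons c136 136 655360 y136 z136 (.cons c137 137 2097152 y137 z137 (.cons c141 141 402653184 y141 z141 (.cons c122 122 33554432 y122 z122 (.cons c139 139 402653184 y139 z139 .nil)))))) (.cons 11 584356917 (.cons c122 122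 33554432 y122 z122 (.cons c308 308 9699328 y308 z308 (.cons c309 309 436237824 y309 z309 (.cons c310 310 9699328 y310 z310 .nil)))) (.cons 14 617908224 .nil (.cons 15 584353813 (.cons c316 316 0 y316 z316 (.cons c310 310 9699328 y310 z310 (.cons c317 317 0 y317 z317 (.cons c318 318 9699328 y318 z318 (.cons c319 319 9699328 y319 z319 (.cons c320 320 14495514624 y320 z320 .nil)))))) (.cons 24 614732929 .nil (.cons 25 581178518 .nil (.cons 26 614732832 .nil (.cons 27 581178421 (.cons c310 310 9699328 y310 z310 (.cons c330 330 9699328 y330 z330 (.cons c331 331 9699328 y331 z331 (.cons c332 332 9699328 y332 z332 (.cons c333 333 9699328 y333 z333 (.cons c334 334 9699328 y334 z334 .nil)))))) (.cons 30 614729728 .nil (.cons 31 581175317 (.cons c316 316 0 y316 z316 (.cons c310 310 9699328 y310 z310 (.cons c317 317 0 y317 z317 (.cons c318 318 9699328 y318 z318 (.cons c319 319 9699328 y319 z319 (.cons c320 320 14495514624 y320 z320 .nil)))))) (.cons 32 516298881 .nil (.cons 33 482744470 .nil (.cons 34 516298784 .nil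 (.cons 35 482744373 .nil (.cons 38 516295680 (.cons c375 375 27 y375 z375 (.cons c376 376 28672 y376 z376 (.cons c377 377 9699328 y377 z377 (.cons c378 378 14495514624 y378 z378 .nil)))) (.cons 39 482741269 .nil (.cons 40 516199553 .nil (.cons 41 482645142 .nil (.cons 42 516199456 .nil (.cons 43 482645045 (.cons c370 370 9699328 y370 z370 (.cons c310 310 9699328 y310 z310 (.cons c371 371 9699328 y371 z371 (.cons c372 372 0 y372 z372 (.cons c373 373 0 y373 z373 (.cons c374 374 27 y374 z374 .nil)))))) (.cons 46 516196352 .nil (.cons 47 482641941 (.cons c379 379 14495614976 y379 z379 (.cons c370 370 9699328 y370 z370 (.cons c380 380 14495614976 y380 z380 (.cons c381 381 9699584 y381 z381 (.cons c382 382 9699584 y382 z382 (.cons c383 383 14495514624 y383 z383 (.cons c316 316 0 y316 z316 (.cons c384 384 14495614976 y384 z384 (.cons c385 385 436893184 y385 z385 (.cons c386 386 436893184 y386 z386 (.cons c387 387 0 y387 z387 (.cons c310 310 9699328 y310 z310 (.cons c317 317 0 y317 z317 (.cons c371 371 9699328 y371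 z371 (.cons c388 388 14495614976 y388 z388 (.cons c372 372 0 y372 z372 (.cons c389 389 436893184 y389 z389 (.cons c373 373 0 y373 z373 (.cons c390 390 436893184 y390 z390 (.cons c374 374 27 y374 z374 (.cons c391 391 0 y391 z391 (.cons c318 318 9699328 y318 z318 (.cons c392 392 9699584 y392 z392 (.cons c319 319 9699328 y319 z319 (.cons c320 320 14495514624 y320 z320 (.cons c393 393 9699584 y393 z393 (.cons c394 394 14495514624 y394 z394 (.cons c395 395 2097371 y395 z395 (.cons c396 396 2097371 y396 z396 (.cons c397 397 27 y397 z397 (.cons c398 398 2097371 y398 z398 (.cons c399 399 0 y399 z399 (.cons c400 400 2097371 y400 z400 (.cons c401 401 0 y401 z401 (.cons c402 402 27 y402 z402 (.cons c403 403 28672 y403 z403 .nil)))))))))))))))))))))))))))))))))))) (.cons 56 513021057 .nil (.cons 57 479466646 .nil (.cons 58 513020960 .nil (.cons 59 479466549 (.cons c310 310 9699328 y310 z310 (.cons c371 371 9699328 y371 z371 (.cons c330 330 9699328 y330 z330 (.cons c331 331 9699328 y331 z331 (.cons c412 412 9699328 y412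 z412 (.cons c373 373 9699328 y373 z373 (.cons c374 374 27 y374 z374 (.cons c332 332 9699328 y332 z332 (.cons c333 333 9699328 y333 z333 (.cons c334 334 9699328 y334 z334 (.cons c413 413 9699328 y413 z413 .nil))))))))))) (.cons 62 513017856 .nil (.cons 63 479463445 (.cons c316 316 0 y316 z316 (.cons c384 384 14495614976 y384 z384 (.cons c414 414 14495614976 y414 z414 (.cons c386 386 436893184 y386 z386 (.cons c387 387 0 y387 z387 (.cons c310 310 9699328 y310 z310 (.cons c317 317 0 y317 z317 (.cons c371 371 9699328 y371 z371 (.cons c388 388 14495614976 y388 z388 (.cons c412 412 9699328 y412 z412 (.cons c415 415 14495614976 y415 z415 (.cons c373 373 9699328 y373 z373 (.cons c390 390 436893184 y390 z390 (.cons c374 374 27 y374 z374 (.cons c391 391 0 y391 z391 (.cons c318 318 9699328 y318 z318 (.cons c392 392 9699584 y392 z392 (.cons c319 319 9699328 y319 z319 (.cons c320 320 14495514624 y320 z320 (.cons c393 393 9699584 y393 z393 (.cons c394 394 14495514624 y394 z394 (.cons c416 416 9699584 y416 z416 (.cons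 c417 417 14495514624 y417 z417 (.cons c396 396 2097371 y396 z396 (.cons c397 397 27 y397 z397 (.cons c400 400 2097371 y400 z400 (.cons c401 401 0 y401 z401 (.cons c402 402 27 y402 z402 (.cons c403 403 28672 y403 z403 (.cons c413 413 9699328 y413 z413 (.cons c418 418 436893184 y418 z418 (.cons c419 419 2097371 y419 z419 (.cons c420 420 2097371 y420 z420 (.cons c421 421 0 y421 z421 .nil)))))))))))))))))))))))))))))))))) .nil))))))))))))))))))))))))))))))))))))

theorem a59 : chkA TCf 618010753 E59 = true := by decide +kernel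

theorem b59 : chkB row E59 = true := by decide +kernel

theorem d59 : chkC E59 = true := by decide +kernel

/-- windows 0:1 1:0 1:1 2:1 3:1 4:2 -/
def E63 : Es :=
  (.cons 0 617911425 (.cons c135 135 771 y135 z135 (.cons c136 136 771 y136 z136 (.cons c137 137 4 y137 z137 (.cons c122 122 8 y122 z122 (.cons c143 143 240 y143 z143 (.cons c138 138 240 y138 z138 (.cons c139 139 240 y139 z139 (.cons c172 172 240 y172 z172 (.cons c145 145 771 y145 z145 (.cons c173 173 771 y173 z173 (.cons c146 146 1024 y146 z146 .nil))))))))))) (.cons 1 584357014 (.cons c122 122 8 y122 z122 (.cons c143 143 240 y143 z143 (.cons c172 172 240 y172 z172 (.cons c145 145 771 y145 z145 (.cons c173 173 771 y173 z173 (.cons c146 146 1024 y146 z146 .nil)))))) (.cons 2 617911328 (.cons c140 140 771 y140 z140 (.cons c136 136 771 y136 z136 (.cons c137 137 4 y137 z137 (.cons c141 141 240 y141 z141 (.cons c122 122 8 y122 z122 (.cons c139 139 240 y139 z139 .nil)))))) (.cons 3 584356917 (.cons c122 122 8 y122 z122 (.cons c308 308 0 y308 z308 (.cons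 c309 309 248 y309 z309 (.cons c310 310 0 y310 z310 .nil)))) (.cons 6 617908224 .nil (.cons 7 584353813 (.cons c316 316 0 y316 z316 (.cons c310 310 0 y310 z310 (.cons c317 317 0 y317 z317 (.cons c318 318 0 y318 z318 (.cons c319 319 0 y319 z319 (.cons c320 320 0 y320 z320 .nil)))))) (.cons 8 617812097 .nil (.cons 9 584257686 .nil (.cons 10 617812000 .nil (.cons 11 584257589 (.cons c323 323 0 y323 z323 (.cons c324 324 0 y324 z324 (.cons c325 325 0 y325 z325 (.cons c310 310 0 y310 z310 (.cons c326 326 0 y326 z326 (.cons c327 327 0 y327 z327 .nil)))))) (.cons 14 617808896 .nil (.cons 15 584254485 (.cons c324 324 0 y324 z324 (.cons c316 316 0 y316 z316 (.cons c328 328 0 y328 z328 (.cons c325 325 0 y325 z325 (.cons c310 310 0 y310 z310 (.cons c317 317 0 y317 z317 (.cons c327 327 0 y327 z327 (.cons c318 318 0 y318 z318 (.cons c319 319 0 y319 z319 (.cons c320 320 0 y320 z320 (.cons c329 329 0 y329 z329 .nil))))))))))) (.cons 16 614732929 .nil (.cons 17 581178518 .nil (.cons 18 614732832 .nil (.cons 19 581178421 (.cons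 c310 310 0 y310 z310 (.cons c330 330 0 y330 z330 (.cons c331 331 0 y331 z331 (.cons c332 332 0 y332 z332 (.cons c333 333 0 y333 z333 (.cons c334 334 0 y334 z334 .nil)))))) (.cons 22 614729728 .nil (.cons 23 581175317 (.cons c316 316 0 y316 z316 (.cons c310 310 0 y310 z310 (.cons c317 317 0 y317 z317 (.cons c318 318 0 y318 z318 (.cons c319 319 0 y319 z319 (.cons c320 320 0 y320 z320 .nil)))))) (.cons 24 614633601 .nil (.cons 25 581079190 .nil (.cons 26 614633504 .nil (.cons 27 581079093 (.cons c323 323 0 y323 z323 (.cons c324 324 0 y324 z324 (.cons c325 325 0 y325 z325 (.cons c310 310 0 y310 z310 (.cons c331 331 0 y331 z331 (.cons c326 326 0 y326 z326 (.cons c327 327 0 y327 z327 (.cons c360 360 0 y360 z360 (.cons c333 333 0 y333 z333 (.cons c361 361 0 y361 z361 (.cons c334 334 0 y334 z334 .nil))))))))))) (.cons 30 614630400 .nil (.cons 31 581075989 (.cons c324 324 0 y324 z324 (.cons c316 316 0 y316 z316 (.cons c328 328 0 y328 z328 (.cons c325 325 0 y325 z325 (.cons c310 310 0 y310 z310 (.cons c317 317 0 y317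 z317 (.cons c327 327 0 y327 z327 (.cons c318 318 0 y318 z318 (.cons c319 319 0 y319 z319 (.cons c320 320 0 y320 z320 (.cons c329 329 0 y329 z329 .nil))))))))))) (.cons 32 516199553 .nil (.cons 33 482645142 .nil (.cons 34 516199456 .nil (.cons 35 482645045 (.cons c370 370 0 y370 z370 (.cons c310 310 0 y310 z310 (.cons c371 371 0 y371 z371 (.cons c372 372 0 y372 z372 (.cons c373 373 0 y373 z373 (.cons c374 374 0 y374 z374 .nil)))))) (.cons 38 516196352 .nil (.cons 39 482641941 (.cons c379 379 0 y379 z379 (.cons c370 370 0 y370 z370 (.cons c380 380 0 y380 z380 (.cons c381 381 0 y381 z381 (.cons c382 382 0 y382 z382 (.cons c383 383 0 y383 z383 (.cons c316 316 0 y316 z316 (.cons c384 384 0 y384 z384 (.cons c385 385 2043 y385 z385 (.cons c386 386 2043 y386 z386 (.cons c387 387 0 y387 z387 (.cons c310 310 0 y310 z310 (.cons c317 317 0 y317 z317 (.cons c371 371 0 y371 z371 (.cons c388 388 0 y388 z388 (.cons c372 372 0 y372 z372 (.cons c389 389 2043 y389 z389 (.cons c373 373 0 y373 z373 (.cons c390 390 2043 y390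 z390 (.cons c374 374 0 y374 z374 (.cons c391 391 0 y391 z391 (.cons c318 318 0 y318 z318 (.cons c392 392 0 y392 z392 (.cons c319 319 0 y319 z319 (.cons c320 320 0 y320 z320 (.cons c393 393 0 y393 z393 (.cons c394 394 0 y394 z394 (.cons c395 395 4 y395 z395 (.cons c396 396 4 y396 z396 (.cons c397 397 0 y397 z397 (.cons c398 398 4 y398 z398 (.cons c399 399 0 y399 z399 (.cons c400 400 4 y400 z400 (.cons c401 401 0 y401 z401 (.cons c402 402 0 y402 z402 (.cons c403 403 0 y403 z403 .nil)))))))))))))))))))))))))))))))))))) (.cons 40 516100225 .nil (.cons 41 482545814 .nil (.cons 42 516100128 .nil (.cons 43 482545717 (.cons c323 323 0 y323 z323 (.cons c324 324 0 y324 z324 (.cons c325 325 0 y325 z325 (.cons c310 310 0 y310 z310 (.cons c326 326 0 y326 z326 (.cons c327 327 0 y327 z327 .nil)))))) (.cons 46 516097024 .nil (.cons 47 482542613 (.cons c324 324 0 y324 z324 (.cons c316 316 0 y316 z316 (.cons c328 328 0 y328 z328 (.cons c325 325 0 y325 z325 (.cons c310 310 0 y310 z310 (.cons c317 317 0 y317 z317 (.cons c327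 327 0 y327 z327 (.cons c318 318 0 y318 z318 (.cons c319 319 0 y319 z319 (.cons c320 320 0 y320 z320 (.cons c329 329 0 y329 z329 .nil))))))))))) (.cons 48 513021057 .nil (.cons 49 479466646 .nil (.cons 50 513020960 .nil (.cons 51 479466549 (.cons c310 310 0 y310 z310 (.cons c371 371 0 y371 z371 (.cons c330 330 0 y330 z330 (.cons c331 331 0 y331 z331 (.cons c412 412 0 y412 z412 (.cons c373 373 0 y373 z373 (.cons c374 374 0 y374 z374 (.cons c332 332 0 y332 z332 (.cons c333 333 0 y333 z333 (.cons c334 334 0 y334 z334 (.cons c413 413 0 y413 z413 .nil))))))))))) (.cons 54 513017856 .nil (.cons 55 479463445 (.cons c316 316 0 y316 z316 (.cons c384 384 0 y384 z384 (.cons c414 414 0 y414 z414 (.cons c386 386 2043 y386 z386 (.cons c387 387 0 y387 z387 (.cons c310 310 0 y310 z310 (.cons c317 317 0 y317 z317 (.cons c371 371 0 y371 z371 (.cons c388 388 0 y388 z388 (.cons c412 412 0 y412 z412 (.cons c415 415 0 y415 z415 (.cons c373 373 0 y373 z373 (.cons c390 390 2043 y390 z390 (.cons c374 374 0 y374 z374 (.cons c391 391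 0 y391 z391 (.cons c318 318 0 y318 z318 (.cons c392 392 0 y392 z392 (.cons c319 319 0 y319 z319 (.cons c320 320 0 y320 z320 (.cons c393 393 0 y393 z393 (.cons c394 394 0 y394 z394 (.cons c416 416 0 y416 z416 (.cons c417 417 0 y417 z417 (.cons c396 396 4 y396 z396 (.cons c397 397 0 y397 z397 (.cons c400 400 4 y400 z400 (.cons c401 401 0 y401 z401 (.cons c402 402 0 y402 z402 (.cons c403 403 0 y403 z403 (.cons c413 413 0 y413 z413 (.cons c418 418 2043 y418 z418 (.cons c419 419 4 y419 z419 (.cons c420 420 4 y420 z420 (.cons c421 421 0 y421 z421 .nil)))))))))))))))))))))))))))))))))) (.cons 56 512921729 .nil (.cons 57 479367318 .nil (.cons 58 512921632 .nil (.cons 59 479367221 (.cons c323 323 0 y323 z323 (.cons c324 324 0 y324 z324 (.cons c325 325 0 y325 z325 (.cons c310 310 0 y310 z310 (.cons c331 331 0 y331 z331 (.cons c326 326 0 y326 z326 (.cons c327 327 0 y327 z327 (.cons c360 360 0 y360 z360 (.cons c333 333 0 y333 z333 (.cons c361 361 0 y361 z361 (.cons c334 334 0 y334 z334 .nil))))))))))) (.cons 62 512918528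 .nil (.cons 63 479364117 (.cons c324 324 0 y324 z324 (.cons c316 316 0 y316 z316 (.cons c328 328 0 y328 z328 (.cons c325 325 0 y325 z325 (.cons c310 310 0 y310 z310 (.cons c317 317 0 y317 z317 (.cons c327 327 0 y327 z327 (.cons c318 318 0 y318 z318 (.cons c319 319 0 y319 z319 (.cons c320 320 0 y320 z320 (.cons c329 329 0 y329 z329 .nil))))))))))) .nil))))))))))))))))))))))))))))))))))))))))))))))))

theorem a63 : chkA TCf 617911425 E63 = true := by decide +kernel

theorem b63 : chkB row E63 = true := by decide +kernel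

theorem d63 : chkC E63 = true := by decide +kernel

end Vale.Agent.P032.H532.T
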